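import Mathlib
import Vale.Agent.Lib.P335.helper26.Abstract

/-!
P328: contingency tables as a finite type, resampling of a set of rows, and the row-pair
heat bath.

* `CT m n r c` : the `m × n` arrays of natural numbers with row sums `r` and column sums `c`.
* `fibre p x` : the tables that agree with `x` in every row outside the row set `p`.
* `heatBath m n r c` : transition matrix of the chain that draws a uniformly random pair of
  rows and replaces the two rows by a uniformly random admissible pair of rows.
* `mask p x`, `R p` : rows outside `p`, and the conditional expectation given them (built on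
  `ip` and `cexp` of the library of P335).
-/

namespace Vale.Agent.Lib.P328.RP

open Finset
open Vale.Agent.Lib.P335.Bip

/-- Contingency tables: the `m × n` arrays of natural numbers with row sums `r` and column
sums `c`. -/
abbrev CT (m n : ℕ) (r : Fin m → ℕ) (c : Fin n → ℕ) : Type :=
  {x : Fin m → Fin n → ℕ // (∀ i, ∑ j, x i j = r i) ∧ ∀ j, ∑ i, x i j = c j}

theorem entry_le {m n : ℕ} {r : Fin m → ℕ} {c : Fin n → ℕ} (x : CT m n r c) (i : Fin m)
    (j : Fin n) : x.1 i j ≤ r i := by
  rw [← x.2.1 i]
  exact Finset.single_le_sum (f := fun j => x.1 i j) (fun _ _ => Nat.zero_le _)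
    (Finset.mem_univ j)

instance instFiniteCT (m n : ℕ) (r : Fin m → ℕ) (c : Fin n → ℕ) : Finite (CT m n r c) := by
  apply Finite.of_injective (fun x : CT m n r c => fun (i : Fin m) (j : Fin n) =>
    (⟨x.1 i j, Nat.lt_succ_of_le (entry_le x i j)⟩ : Fin (r i + 1)))
  intro x y h
  apply Subtype.ext
  funext i j
  have h1 := congrFun (congrFun h i) j
  exact Fin.mk.inj h1

noncomputable instance instFintypeCT (m n : ℕ) (r : Fin m → ℕ) (c : Fin n → ℕ) :
    Fintype (CT m n r c) :=
  Fintype.ofFinite _

section defs

variable {m n : ℕ} {r : Fin m → ℕ} {c : Fin n → ℕ}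

/-- The tables that agree with `x` in every row outside the set `p` of rows. -/
noncomputable def fibre (p : Finset (Fin m)) (x : CT m n r c) : Finset (CT m n r c) :=
  univ.filter (fun y => ∀ i, i ∉ p → y.1 i = x.1 i)

/-- The rows of `x` outside the row set `p` (the rows in `p` are blanked). -/
def mask (p : Finset (Fin m)) (x : Fin m → Fin n → ℕ) : Fin m → Fin n → ℕ :=
  fun i => if i ∈ p then 0 else x i

/-- Resampling the rows in `p` uniformly given all other rows: conditional expectation
(under the uniform measure on `CT m n r c`) given the rows outside `p`. -/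
noncomputable def R (p : Finset (Fin m)) : (CT m n r c → ℝ) →ₗ[ℝ] (CT m n r c → ℝ) :=
  cexp (fun x : CT m n r c => mask p x.1)

theorem mask_eq_iff (p : Finset (Fin m)) (x y : Fin m → Fin n → ℕ) :
    mask p x = mask p y ↔ ∀ i, i ∉ p → x i = y i := by
  constructor
  · intro h i hi
    have h1 := congrFun h i
    simp only [mask, hi, if_false] at h1
    exact h1
  · intro h
    funext i
    by_cases hi : i ∈ p
    · simp only [mask, hi, if_true]
    · simp only [mask, hi, if_false]
      exact h i hi

theorem mem_fibre (p : Finset (Fin m)) (x y : CT m n r c) :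
    y ∈ fibre p x ↔ ∀ i, i ∉ p → y.1 i = x.1 i := by
  unfold fibre
  rw [mem_filter]
  exact ⟨fun h => h.2, fun h => ⟨mem_univ _, h⟩⟩

theorem fibre_eq_filter_mask (p : Finset (Fin m)) (x : CT m n r c) :
    fibre p x = univ.filter (fun y : CT m n r c => mask p y.1 = mask p x.1) := by
  ext y
  rw [mem_fibre, mem_filter, mask_eq_iff]
  exact ⟨fun h => ⟨mem_univ _, h⟩, fun h => h.2⟩

theorem R_apply (p : Finset (Fin m)) (f : CT m n r c → ℝ) (x : CT m n r c) :
    R p f x = (∑ y ∈ univ.filter (fun y : CT m n r c => mask p y.1 = mask p x.1), f y) /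
      ((univ.filter (fun y : CT m n r c => mask p y.1 = mask p x.1)).card : ℝ) := rfl

theorem R_apply_fibre (p : Finset (Fin m)) (f : CT m n r c → ℝ) (x : CT m n r c) :
    R p f x = (∑ y ∈ fibre p x, f y) / ((fibre p x).card : ℝ) := by
  rw [R_apply, fibre_eq_filter_mask]

theorem R_symm (p : Finset (Fin m)) (f g : CT m n r c → ℝ) : ip f (R p g) = ip (R p f) g :=
  cexp_symm _ f g

theorem R_idem (p : Finset (Fin m)) (f : CT m n r c → ℝ) : R p (R p f) = R p f :=
  cexp_idem _ f

theorem R_congr (p : Finset (Fin m)) (f : CT m n r c → ℝ) {x y : CT m n r c}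
    (h : ∀ i, i ∉ p → x.1 i = y.1 i) : R p f x = R p f y :=
  cexp_congr (fun x : CT m n r c => mask p x.1) ((mask_eq_iff p x.1 y.1).mpr h) f

theorem mask_mono {p T : Finset (Fin m)} (hpT : p ⊆ T) (x y : Fin m → Fin n → ℕ)
    (h : mask p x = mask p y) : mask T x = mask T y := by
  rw [mask_eq_iff] at h ⊢
  exact fun i hi => h i (fun hp => hi (hpT hp))

theorem R_R_of_subset {p T : Finset (Fin m)} (hpT : p ⊆ T) (f : CT m n r c → ℝ) :
    R p (R T f) = R T f :=
  cexp_tower' _ _ (fun x y h => mask_mono hpT x.1 y.1 h) f

theorem R_T_R_of_subset {p T : Finset (Fin m)} (hpT : p ⊆ T) (f : CT m n r c → ℝ) :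
    R T (R p f) = R T f :=
  cexp_tower _ _ (fun x y h => mask_mono hpT x.1 y.1 h) f

/-- `R univ` is the global average. -/
theorem R_univ_apply (f : CT m n r c → ℝ) (x : CT m n r c) :
    R (univ : Finset (Fin m)) f x = (∑ y, f y) / (Fintype.card (CT m n r c) : ℝ) := by
  rw [R_apply]
  have hfil : (univ.filter (fun y : CT m n r c => mask univ y.1 = mask univ x.1)) = univ := by
    ext y
    simp only [Finset.mem_filter, Finset.mem_univ, true_and, iff_true]
    rw [mask_eq_iff]
    intro i hi
    exact absurd (Finset.mem_univ i) hi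
  rw [hfil, Finset.card_univ]

/-- Transition matrix of the row-pair heat bath on `CT m n r c`: a two-element set `p` of rows
is drawn uniformly at random, and the current table `x` is replaced by a uniformly random
table among those that agree with `x` outside the rows in `p`. -/
noncomputable def heatBath (m n : ℕ) (r : Fin m → ℕ) (c : Fin n → ℕ) :
    Matrix (CT m n r c) (CT m n r c) ℝ :=
  fun x y => (∑ p ∈ (univ : Finset (Fin m)).powersetCard 2,
    if y ∈ fibre p x then 1 / ((fibre p x).card : ℝ) else 0) / (m.choose 2 : ℝ)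

end defs

end Vale.Agent.Lib.P328.RP
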