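import Mathlib
import Vale.Agent.Lib.P328.RP.Defs

/-!
P328: resampling of a block of a contingency table, and the heat bath on two-by-two blocks.

* `bmask p q x` : the entries of `x` outside the block `p × q` (rows in `p`, columns in `q`).
* `E p q` : conditional expectation (uniform measure on `CT m n r c`) given the entries outside
  the block `p × q`, that is, uniform resampling of the block given everything else.
* `bfibre p q x` : the tables that agree with `x` outside the block `p × q`.
* `heatBath22 m n r c` : transition matrix of the chain that draws a uniformly random pair of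
  rows and a uniformly random pair of columns and resamples the two-by-two block uniformly.
-/

namespace Vale.Agent.Lib.P328.RP

open Finset
open Vale.Agent.Lib.P335.Bip

section blockdefs

variable {m n : ℕ} {r : Fin m → ℕ} {c : Fin n → ℕ}

/-- The entries of `x` outside the block `p × q` (the entries in the block are blanked). -/
def bmask (p : Finset (Fin m)) (q : Finset (Fin n)) (x : Fin m → Fin n → ℕ) :
    Fin m → Fin n → ℕ :=
  fun i j => if i ∈ p ∧ j ∈ q then 0 else x i j

/-- Resampling the block `p × q` uniformly given all other entries: conditional expectation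
(under the uniform measure on `CT m n r c`) given the entries outside the block. -/
noncomputable def E (p : Finset (Fin m)) (q : Finset (Fin n)) :
    (CT m n r c → ℝ) →ₗ[ℝ] (CT m n r c → ℝ) :=
  cexp (fun x : CT m n r c => bmask p q x.1)

/-- The tables that agree with `x` in every entry outside the block `p × q`. -/
noncomputable def bfibre (p : Finset (Fin m)) (q : Finset (Fin n)) (x : CT m n r c) :
    Finset (CT m n r c) :=
  univ.filter (fun y => ∀ i j, ¬ (i ∈ p ∧ j ∈ q) → y.1 i j = x.1 i j)

theorem bmask_eq_iff (p : Finset (Fin m)) (q : Finset (Fin n)) (x y : Fin m → Fin n → ℕ) :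
    bmask p q x = bmask p q y ↔ ∀ i j, ¬ (i ∈ p ∧ j ∈ q) → x i j = y i j := by
  constructor
  · intro h i j hij
    have h1 := congrFun (congrFun h i) j
    simp only [bmask, hij, if_false] at h1
    exact h1
  · intro h
    funext i j
    by_cases hij : i ∈ p ∧ j ∈ q
    · simp only [bmask, hij, and_self, if_true]
    · simp only [bmask, hij, if_false]
      exact h i j hij

theorem mem_bfibre (p : Finset (Fin m)) (q : Finset (Fin n)) (x y : CT m n r c) :
    y ∈ bfibre p q x ↔ ∀ i j, ¬ (i ∈ p ∧ j ∈ q) → y.1 i j = x.1 i j := by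
  unfold bfibre
  rw [mem_filter]
  exact ⟨fun h => h.2, fun h => ⟨mem_univ _, h⟩⟩

theorem bfibre_eq_filter_bmask (p : Finset (Fin m)) (q : Finset (Fin n)) (x : CT m n r c) :
    bfibre p q x = univ.filter (fun y : CT m n r c => bmask p q y.1 = bmask p q x.1) := by
  ext y
  rw [mem_bfibre, mem_filter, bmask_eq_iff]
  exact ⟨fun h => ⟨mem_univ _, h⟩, fun h => h.2⟩

theorem E_apply (p : Finset (Fin m)) (q : Finset (Fin n)) (f : CT m n r c → ℝ)
    (x : CT m n r c) :
    E p q f x = (∑ y ∈ univ.filter (fun y : CT m n r c => bmask p q y.1 = bmask p q x.1), f y) /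
      ((univ.filter (fun y : CT m n r c => bmask p q y.1 = bmask p q x.1)).card : ℝ) := rfl

theorem E_apply_bfibre (p : Finset (Fin m)) (q : Finset (Fin n)) (f : CT m n r c → ℝ)
    (x : CT m n r c) :
    E p q f x = (∑ y ∈ bfibre p q x, f y) / ((bfibre p q x).card : ℝ) := by
  rw [E_apply, bfibre_eq_filter_bmask]

theorem E_symm (p : Finset (Fin m)) (q : Finset (Fin n)) (f g : CT m n r c → ℝ) :
    ip f (E p q g) = ip (E p q f) g :=
  cexp_symm _ f g

theorem E_idem (p : Finset (Fin m)) (q : Finset (Fin n)) (f : CT m n r c → ℝ) :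
    E p q (E p q f) = E p q f :=
  cexp_idem _ f

theorem E_congr (p : Finset (Fin m)) (q : Finset (Fin n)) (f : CT m n r c → ℝ)
    {x y : CT m n r c} (h : ∀ i j, ¬ (i ∈ p ∧ j ∈ q) → x.1 i j = y.1 i j) :
    E p q f x = E p q f y :=
  cexp_congr (fun x : CT m n r c => bmask p q x.1) ((bmask_eq_iff p q x.1 y.1).mpr h) f

theorem bmask_mono {p p' : Finset (Fin m)} {q q' : Finset (Fin n)} (hp : p ⊆ p') (hq : q ⊆ q')
    (x y : Fin m → Fin n → ℕ) (h : bmask p q x = bmask p q y) :
    bmask p' q' x = bmask p' q' y := by
  rw [bmask_eq_iff] at h ⊢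
  exact fun i j hij => h i j (fun hpq => hij ⟨hp hpq.1, hq hpq.2⟩)

/-- Tower property: resampling a block inside a bigger block. -/
theorem E_E_of_subset {p p' : Finset (Fin m)} {q q' : Finset (Fin n)} (hp : p ⊆ p')
    (hq : q ⊆ q') (f : CT m n r c → ℝ) : E p q (E p' q' f) = E p' q' f :=
  cexp_tower' _ _ (fun x y h => bmask_mono hp hq x.1 y.1 h) f

theorem E_big_E_of_subset {p p' : Finset (Fin m)} {q q' : Finset (Fin n)} (hp : p ⊆ p')
    (hq : q ⊆ q') (f : CT m n r c → ℝ) : E p' q' (E p q f) = E p' q' f :=
  cexp_tower _ _ (fun x y h => bmask_mono hp hq x.1 y.1 h) f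

theorem bmask_univ_right (p : Finset (Fin m)) (x : Fin m → Fin n → ℕ) :
    bmask p (univ : Finset (Fin n)) x = mask p x := by
  funext i j
  by_cases hi : i ∈ p
  · simp [bmask, mask, hi]
  · simp [bmask, mask, hi]

/-- Resampling the full rows of `p` is resampling the block `p × univ`. -/
theorem E_univ_right (p : Finset (Fin m)) :
    (E p (univ : Finset (Fin n)) : (CT m n r c → ℝ) →ₗ[ℝ] (CT m n r c → ℝ)) = R p := by
  unfold E R
  congr 1
  funext x
  exact bmask_univ_right p x.1

theorem ip_E_le (p : Finset (Fin m)) (q : Finset (Fin n)) (f : CT m n r c → ℝ) :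
    ip f (E p q f) ≤ ip f f :=
  ip_cexp_le _ f

theorem ip_E_nonneg (p : Finset (Fin m)) (q : Finset (Fin n)) (f : CT m n r c → ℝ) :
    0 ≤ ip f (E p q f) :=
  ip_cexp_self_nonneg _ f

/-- Transition matrix of the heat bath on two-by-two blocks of `CT m n r c`: a two-element set
`p` of rows and a two-element set `q` of columns are drawn uniformly at random, and the current
table `x` is replaced by a uniformly random table among those that agree with `x` outside the
block `p × q`. -/
noncomputable def heatBath22 (m n : ℕ) (r : Fin m → ℕ) (c : Fin n → ℕ) :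
    Matrix (CT m n r c) (CT m n r c) ℝ :=
  fun x y => (∑ p ∈ (univ : Finset (Fin m)).powersetCard 2,
    ∑ q ∈ (univ : Finset (Fin n)).powersetCard 2,
      if y ∈ bfibre p q x then 1 / ((bfibre p q x).card : ℝ) else 0) /
        ((m.choose 2 : ℝ) * (n.choose 2 : ℝ))

end blockdefs

end Vale.Agent.Lib.P328.RP
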