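import Mathlib
import Vale.Agent.Lib.P328.RP.Defs
import Vale.Agent.Lib.P328.RP.BlockDefs
import Vale.Agent.Lib.P335.helper6.ThreeSite

/-!
P328: the three-row inequality for `3 × 2` contingency tables.

A `3 × 2` table with margins `r`, `c` is determined by its first column `b l = x l 0`, which
is a point of the lattice simplex `b 0 + b 1 + b 2 = c 0` with `b l ≤ r l`.  So the three rows
are three integer sites with interval weights conditioned on their sum, and the inequality
follows from the three-site eigenvector lemma of P335.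
-/

namespace Vale.Agent.Lib.P328.RP

open Finset
open Vale.Agent.Lib.P335.Bip

namespace ThreeTwo

variable {r : Fin 3 → ℕ} {c : Fin 2 → ℕ}

/-- The interval weight of site `l`: one on `0, ..., r l` and zero above. -/
noncomputable def w (r : Fin 3 → ℕ) (l : Fin 3) (t : ℕ) : ℝ := if t ≤ r l then 1 else 0

theorem w_nonneg (r : Fin 3 → ℕ) (l : Fin 3) (t : ℕ) : 0 ≤ w r l t := by
  unfold w
  split_ifs <;> norm_num

theorem w_lc (r : Fin 3 → ℕ) (l : Fin 3) (s t : ℕ) (h : s ≤ t) :
    w r l s * w r l (t + 1) ≤ w r l (s + 1) * w r l t := by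
  by_cases h1 : t + 1 ≤ r l
  · have h2 : s ≤ r l := by omega
    have h3 : s + 1 ≤ r l := by omega
    have h4 : t ≤ r l := by omega
    unfold w
    rw [if_pos h2, if_pos h1, if_pos h3, if_pos h4]
  · have h5 : w r l (t + 1) = 0 := by
      unfold w
      rw [if_neg h1]
    rw [h5, mul_zero]
    exact mul_nonneg (w_nonneg r l _) (w_nonneg r l _)

/-- The first column of a table. -/
def lev (x : Fin 3 → Fin 2 → ℕ) : Fin 3 → ℕ := fun l => x l 0

theorem lev_apply (x : Fin 3 → Fin 2 → ℕ) (l : Fin 3) : lev x l = x l 0 := rfl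

theorem row_eq_of_lev (x y : CT 3 2 r c) (l : Fin 3) (h : x.1 l 0 = y.1 l 0) :
    x.1 l = y.1 l := by
  have hx := x.2.1 l
  have hy := y.2.1 l
  rw [Fin.sum_univ_two] at hx hy
  funext j
  fin_cases j
  · exact h
  · show x.1 l 1 = y.1 l 1
    omega

theorem pairs_eq : (univ : Finset (Fin 3)).powersetCard 2
    = univ.image (fun k : Fin 3 => (univ : Finset (Fin 3)).erase k) := by
  decide

theorem erase_inj : Function.Injective (fun k : Fin 3 => (univ : Finset (Fin 3)).erase k) := by
  decide

theorem sum_pairs {M : Type*} [AddCommMonoid M] (φ : Finset (Fin 3) → M) :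
    ∑ p ∈ (univ : Finset (Fin 3)).powersetCard 2, φ p = ∑ l : Fin 3, φ (univ.erase l) := by
  rw [pairs_eq, Finset.sum_image (fun a _ b _ h => erase_inj h)]

theorem R_univ_of_sum_zero (F : CT 3 2 r c → ℝ) (hF : ∑ x, F x = 0) :
    R (univ : Finset (Fin 3)) F = 0 := by
  funext x
  rw [R_univ_apply, hF, zero_div]
  rfl

theorem sum_rows (x : CT 3 2 r c) : ∑ l, r l = c 0 + c 1 := by
  have h1 : ∑ l, r l = ∑ l, ∑ j, x.1 l j := Finset.sum_congr rfl (fun l _ => (x.2.1 l).symm)
  rw [h1, Finset.sum_comm, Fin.sum_univ_two, x.2.2 0, x.2.2 1]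

theorem lev_sum (x : CT 3 2 r c) : ∑ l, lev x.1 l = c 0 := x.2.2 0

theorem lev_mem (x : CT 3 2 r c) : lev x.1 ∈ simplex (c 0) := by
  rw [TS.mem_simplex]
  exact lev_sum x

theorem lev_of_mask (l : Fin 3) (x y : CT 3 2 r c)
    (h : mask ((univ : Finset (Fin 3)).erase l) x.1 = mask ((univ : Finset (Fin 3)).erase l) y.1) :
    lev x.1 l = lev y.1 l := by
  rw [mask_eq_iff] at h
  have h1 : x.1 l = y.1 l := h l (by simp)
  unfold lev
  rw [h1]

/-- The number of tables with a prescribed first column. -/
theorem count (x0 : CT 3 2 r c) (b : Fin 3 → ℕ) (hb : ∑ l, b l = c 0) :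
    ((univ.filter (fun x : CT 3 2 r c => lev x.1 = b)).card : ℝ) = ∏ l, w r l (b l) := by
  classical
  by_cases hall : ∀ l, b l ≤ r l
  · have hprod : ∏ l, w r l (b l) = 1 := by
      apply Finset.prod_eq_one
      intro l _
      unfold w
      rw [if_pos (hall l)]
    rw [hprod]
    have hsr := sum_rows x0
    have hb3 : b 0 + b 1 + b 2 = c 0 := by
      rw [← hb, Fin.sum_univ_three]
    have hr3 : r 0 + r 1 + r 2 = c 0 + c 1 := by
      rw [← hsr, Fin.sum_univ_three]
    have h0 := hall 0
    have h1 := hall 1
    have h2 := hall 2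
    let y : CT 3 2 r c := ⟨fun l j => if j = 0 then b l else r l - b l, by
      constructor
      · intro i
        rw [Fin.sum_univ_two]
        have := hall i
        simp
        omega
      · intro j
        rw [Fin.sum_univ_three]
        fin_cases j
        · simp
          omega
        · simp
          omega⟩
    have hy : lev y.1 = b := by
      funext l
      simp [lev, y]
    have hfil : univ.filter (fun x : CT 3 2 r c => lev x.1 = b) = {y} := by
      ext x
      rw [Finset.mem_filter, Finset.mem_singleton]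
      constructor
      · rintro ⟨_, hx⟩
        apply Subtype.ext
        funext l
        apply row_eq_of_lev
        have h3 := congrFun hx l
        have h4 := congrFun hy l
        rw [lev_apply] at h3 h4
        rw [h3, h4]
      · intro hx
        rw [hx]
        exact ⟨Finset.mem_univ _, hy⟩
    rw [hfil, Finset.card_singleton, Nat.cast_one]
  · push Not at hall
    obtain ⟨l, hl⟩ := hall
    have hprod : ∏ i, w r i (b i) = 0 := by
      apply Finset.prod_eq_zero (Finset.mem_univ l)
      unfold w
      rw [if_neg (by omega)]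
    rw [hprod]
    have hfil : univ.filter (fun x : CT 3 2 r c => lev x.1 = b) = ∅ := by
      apply Finset.filter_eq_empty_iff.mpr
      intro x _ hx
      have h3 := congrFun hx l
      rw [lev_apply] at h3
      have h4 := entry_le x l 0
      omega
    rw [hfil, Finset.card_empty, Nat.cast_zero]

/-- An eigenfunction of the sum of the three row-conditional expectations with eigenvalue larger
than two and mean zero vanishes. -/
theorem eigen_zero (F : CT 3 2 r c → ℝ) (μ : ℝ) (hμ : 2 < μ)
    (hev : ∀ x, ∑ l : Fin 3, R (univ.erase l) F x = μ * F x)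
    (hmean : ∑ x, F x = 0) : F = 0 := by
  classical
  funext x0
  -- the conditional expectations are functions of the first column entries
  have hB : ∀ (l : Fin 3) (x y : CT 3 2 r c), lev x.1 l = lev y.1 l →
      R (univ.erase l) F x = R (univ.erase l) F y := by
    intro l x y hxy
    apply R_congr
    intro i hi
    have hil : i = l := by
      by_contra hne
      exact hi (Finset.mem_erase.mpr ⟨hne, Finset.mem_univ i⟩)
    rw [hil]
    exact row_eq_of_lev x y l hxy
  obtain ⟨γ, hγ⟩ : ∃ γ : Fin 3 → ℕ → ℝ, ∀ l (x : CT 3 2 r c),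
      R (univ.erase l) F x = γ l (lev x.1 l) := by
    refine ⟨fun l t => if h : ∃ x : CT 3 2 r c, lev x.1 l = t then
      R (univ.erase l) F (Classical.choose h) else 0, fun l x => ?_⟩
    have hex : ∃ y : CT 3 2 r c, lev y.1 l = lev x.1 l := ⟨x, rfl⟩
    simp only
    rw [dif_pos hex]
    exact hB l _ _ (Classical.choose_spec hex).symm
  -- sums over tables as weighted sums over first columns
  have hlevsum : ∀ Φ : (Fin 3 → ℕ) → ℝ,
      ∑ x : CT 3 2 r c, Φ (lev x.1)
        = ∑ b ∈ simplex (c 0), (∏ i, w r i (b i)) * Φ b := by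
    intro Φ
    rw [← Finset.sum_fiberwise_of_maps_to (g := fun x : CT 3 2 r c => lev x.1)
      (t := simplex (c 0)) (fun x _ => lev_mem x)]
    refine Finset.sum_congr rfl (fun b hb => ?_)
    have hbsum : ∑ l, b l = c 0 := (TS.mem_simplex (c 0) b).mp hb
    have hcnt' := count x0 b hbsum
    rw [Finset.sum_congr rfl (fun x hx => by rw [(Finset.mem_filter.mp hx).2]),
      Finset.sum_const, nsmul_eq_mul, hcnt']
  -- mean zero
  have hmean_abs : ∀ l, ∑ b ∈ simplex (c 0), (∏ i, w r i (b i)) * γ l (b l) = 0 := by
    intro l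
    have h1 := hlevsum (fun b => γ l (b l))
    have h2 : ∑ x : CT 3 2 r c, γ l (lev x.1 l) = 0 := by
      have h3 : ∀ x : CT 3 2 r c, γ l (lev x.1 l) = R (univ.erase l) F x := fun x =>
        (hγ l x).symm
      rw [Finset.sum_congr rfl (fun x _ => h3 x)]
      unfold R
      rw [sum_cexp, hmean]
    rw [h2] at h1
    exact h1.symm
  -- the eigenvalue equation on first columns
  have hevx : ∀ x : CT 3 2 r c, μ * F x = ∑ j : Fin 3, γ j (lev x.1 j) := by
    intro x
    rw [← hev x]
    exact Finset.sum_congr rfl (fun j _ => hγ j x)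
  have hev_abs : ∀ l s, (μ - 1)
      * (∑ b ∈ (simplex (c 0)).filter (fun b => b l = s), ∏ i, w r i (b i)) * γ l s
      = ∑ b ∈ (simplex (c 0)).filter (fun b => b l = s),
          (∏ i, w r i (b i)) * ∑ j ∈ (univ : Finset (Fin 3)).erase l, γ j (b j) := by
    intro l s
    have hdual : ∑ x : CT 3 2 r c,
        (if lev x.1 l = s then (1 : ℝ) else 0) * R (univ.erase l) F x
        = ∑ x : CT 3 2 r c, (if lev x.1 l = s then (1 : ℝ) else 0) * F x := by
      have hfact : cexp (fun x : CT 3 2 r c => mask ((univ : Finset (Fin 3)).erase l) x.1)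
          (fun x => if lev x.1 l = s then (1 : ℝ) else 0)
          = fun x => if lev x.1 l = s then (1 : ℝ) else 0 := by
        apply cexp_of_factor
        intro x y hxy
        have := lev_of_mask l x y hxy
        show (if lev x.1 l = s then (1 : ℝ) else 0) = if lev y.1 l = s then (1 : ℝ) else 0
        rw [this]
      have h1 := cexp_symm (fun x : CT 3 2 r c => mask ((univ : Finset (Fin 3)).erase l) x.1)
        (fun x => if lev x.1 l = s then (1 : ℝ) else 0) F
      rw [hfact] at h1
      exact h1
    have hL : ∑ x : CT 3 2 r c,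
        (if lev x.1 l = s then (1 : ℝ) else 0) * R (univ.erase l) F x
        = (∑ b ∈ (simplex (c 0)).filter (fun b => b l = s), ∏ i, w r i (b i)) * γ l s := by
      calc ∑ x : CT 3 2 r c, (if lev x.1 l = s then (1 : ℝ) else 0) * R (univ.erase l) F x
          = ∑ x : CT 3 2 r c,
              (if lev x.1 l = s then (1 : ℝ) else 0) * γ l (lev x.1 l) :=
            Finset.sum_congr rfl (fun x _ => by rw [hγ l x])
        _ = ∑ b ∈ simplex (c 0), (∏ i, w r i (b i))
                * ((if b l = s then (1 : ℝ) else 0) * γ l (b l)) :=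
            hlevsum (fun b : Fin 3 → ℕ => (if b l = s then (1 : ℝ) else 0) * γ l (b l))
        _ = _ := by
            rw [Finset.sum_mul, Finset.sum_filter]
            refine Finset.sum_congr rfl (fun b _ => ?_)
            by_cases hb : b l = s
            · simp [hb]
            · simp [hb]
    have hR : μ * ∑ x : CT 3 2 r c, (if lev x.1 l = s then (1 : ℝ) else 0) * F x
        = (∑ b ∈ (simplex (c 0)).filter (fun b => b l = s), ∏ i, w r i (b i)) * γ l s
          + ∑ b ∈ (simplex (c 0)).filter (fun b => b l = s),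
              (∏ i, w r i (b i)) * ∑ j ∈ (univ : Finset (Fin 3)).erase l, γ j (b j) := by
      calc μ * ∑ x : CT 3 2 r c, (if lev x.1 l = s then (1 : ℝ) else 0) * F x
          = ∑ x : CT 3 2 r c, (if lev x.1 l = s then (1 : ℝ) else 0)
              * ∑ j : Fin 3, γ j (lev x.1 j) := by
            rw [Finset.mul_sum]
            exact Finset.sum_congr rfl (fun x _ => by rw [mul_left_comm, hevx x])
        _ = ∑ b ∈ simplex (c 0), (∏ i, w r i (b i))
                * ((if b l = s then (1 : ℝ) else 0) * ∑ j : Fin 3, γ j (b j)) :=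
            hlevsum (fun b : Fin 3 → ℕ => (if b l = s then (1 : ℝ) else 0) * ∑ j : Fin 3, γ j (b j))
        _ = _ := by
            rw [Finset.sum_mul, ← Finset.sum_add_distrib, Finset.sum_filter]
            refine Finset.sum_congr rfl (fun b _ => ?_)
            by_cases hb : b l = s
            · rw [if_pos hb, if_pos hb, one_mul,
                ← Finset.add_sum_erase univ (fun j => γ j (b j)) (Finset.mem_univ l), hb]
              ring
            · rw [if_neg hb, if_neg hb]
              ring
    rw [← hdual, hL] at hR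
    linarith
  -- conclusion
  have hWpos : 0 < ∏ i, w r i (lev x0.1 i) := by
    have h1 := count x0 (lev x0.1) (lev_sum x0)
    have h2 : (0 : ℝ) < ((univ.filter (fun x : CT 3 2 r c => lev x.1 = lev x0.1)).card : ℝ) := by
      have : x0 ∈ univ.filter (fun x : CT 3 2 r c => lev x.1 = lev x0.1) := by
        rw [Finset.mem_filter]
        exact ⟨Finset.mem_univ _, rfl⟩
      exact_mod_cast Finset.card_pos.mpr ⟨x0, this⟩
    rw [h1] at h2
    exact h2
  have hzero := three_site_eigen (w r) (w_nonneg r) (w_lc r) (c 0) γ (μ - 1) (by linarith)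
    hmean_abs hev_abs (lev x0.1) (lev_mem x0) hWpos
  have h5 := hevx x0
  rw [Finset.sum_eq_zero (fun j _ => hzero j)] at h5
  have hμ0 : μ ≠ 0 := by linarith
  simpa using (mul_eq_zero.mp h5).resolve_left hμ0

end ThreeTwo

/-- The three-row inequality for `3 × 2` contingency tables. -/
theorem threeRow_two_cols (r : Fin 3 → ℕ) (c : Fin 2 → ℕ) (g : CT 3 2 r c → ℝ) :
    ∑ q ∈ (univ : Finset (Fin 3)).powersetCard 2, ip g (R q g) ≤ 2 * ip g g + ip g (R univ g) := by
  classical
  set A : (CT 3 2 r c → ℝ) →ₗ[ℝ] (CT 3 2 r c → ℝ) :=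
    (∑ q ∈ (univ : Finset (Fin 3)).powersetCard 2, R q) - R univ with hA
  have hAapp : ∀ F : CT 3 2 r c → ℝ, A F
      = (∑ q ∈ (univ : Finset (Fin 3)).powersetCard 2, R q F) - R univ F := by
    intro F
    rw [hA, LinearMap.sub_apply, LinearMap.sum_apply]
  have hAsymm : ∀ F G : CT 3 2 r c → ℝ, ip F (A G) = ip (A F) G := by
    intro F G
    rw [hAapp, hAapp, ip_sub_right, ip_sub_left, ip_sum_right, ip_sum_left]
    congr 1
    · exact Finset.sum_congr rfl (fun q _ => R_symm q F G)
    · exact R_symm univ F G
  have heig : ∀ (μ : ℝ) (F : CT 3 2 r c → ℝ), F ≠ 0 → A F = μ • F → μ ≤ 2 := by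
    intro μ F hF0 hev
    by_contra hcon
    have hμ : 2 < μ := not_le.mp hcon
    have hevx : ∀ x, (∑ q ∈ (univ : Finset (Fin 3)).powersetCard 2, R q F x) - R univ F x
        = μ * F x := by
      intro x
      have h1 := congrFun hev x
      rw [hAapp] at h1
      simpa [Finset.sum_apply] using h1
    have hsumF : ∑ x, F x = 0 := by
      have h1 : ∑ x, ((∑ q ∈ (univ : Finset (Fin 3)).powersetCard 2, R q F x) - R univ F x)
          = 2 * ∑ x, F x := by
        rw [Finset.sum_sub_distrib, Finset.sum_comm]
        have h2 : ∀ q : Finset (Fin 3), ∑ x, R q F x = ∑ x, F x := fun q => sum_cexp _ F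
        rw [Finset.sum_congr rfl (fun q _ => h2 q), h2 univ, Finset.sum_const,
          Finset.card_powersetCard]
        simp only [Finset.card_univ, Fintype.card_fin, nsmul_eq_mul]
        norm_num
        ring
      have h3 : ∑ x, ((∑ q ∈ (univ : Finset (Fin 3)).powersetCard 2, R q F x) - R univ F x)
          = μ * ∑ x, F x := by
        rw [Finset.mul_sum]
        exact Finset.sum_congr rfl (fun x _ => hevx x)
      rw [h1] at h3
      have h4 : (μ - 2) * ∑ x, F x = 0 := by linarith
      rcases mul_eq_zero.mp h4 with h | h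
      · linarith
      · exact h
    have hR0 : R (univ : Finset (Fin 3)) F = 0 := ThreeTwo.R_univ_of_sum_zero F hsumF
    have hevP : ∀ x, ∑ q ∈ (univ : Finset (Fin 3)).powersetCard 2, R q F x = μ * F x := by
      intro x
      have h1 := hevx x
      rw [hR0] at h1
      simpa using h1
    have hevl : ∀ x, ∑ l : Fin 3, R (univ.erase l) F x = μ * F x := by
      intro x
      rw [← hevP x, ThreeTwo.sum_pairs (fun q => R q F x)]
    exact hF0 (ThreeTwo.eigen_zero F μ hμ hevl hsumF)
  have key := form_le_of_eigen A hAsymm 2 heig g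
  rw [hAapp, ip_sub_right, ip_sum_right] at key
  linarith

end Vale.Agent.Lib.P328.RP
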