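import Mathlib
import Vale.Agent.Lib.P328.RP.Defs
import Vale.Agent.Lib.P328.RP.ThreeTwo

/-!
P328: the three-projection inequality on an abstract finite type, its transport along
bijections, and its relation to the three-row inequality for contingency tables.

* `ThreeProj κ` : for three maps `κ 0`, `κ 1`, `κ 2` on a finite type with the uniform
  measure, the conditional expectations given the three maps add up to at most twice the
  identity plus the global average (as quadratic forms).
* `cexp_congr_ker` : a conditional expectation depends only on the fibres of the map.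
* `threeProj_equiv` : transport along a bijection that respects the fibres.
* `threeRow_iff_threeProj` : for `CT 3 n r c` and `κ i = row i` this is the three-row
  inequality.
* `CP n d` : arrays with `n` columns of three entries and column sums `d`, no condition on
  the rows.
-/

namespace Vale.Agent.Lib.P328.RP

open Finset
open Vale.Agent.Lib.P335.Bip

/-- The three-projection inequality for three maps on a finite type with the uniform
measure: the conditional expectations given `κ 0`, `κ 1`, `κ 2` add up to at most twice the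
identity plus the global average. -/
def ThreeProj {Ω K : Type*} [Fintype Ω] [DecidableEq K] (κ : Fin 3 → Ω → K) : Prop :=
  ∀ g : Ω → ℝ,
    ∑ i, ip g (cexp (κ i) g) ≤ 2 * ip g g + (∑ x, g x) ^ 2 / (Fintype.card Ω : ℝ)

/-- A conditional expectation depends only on the fibres of the map. -/
theorem cexp_congr_ker {Ω K K' : Type*} [Fintype Ω] [DecidableEq K] [DecidableEq K']
    (κ : Ω → K) (κ' : Ω → K') (h : ∀ x y, κ x = κ y ↔ κ' x = κ' y) : cexp κ = cexp κ' := by
  apply LinearMap.ext
  intro f
  funext x
  rw [cexp_apply, cexp_apply]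
  have hfil : univ.filter (fun y => κ y = κ x) = univ.filter (fun y => κ' y = κ' x) :=
    Finset.filter_congr (fun y _ => h y x)
  rw [hfil]

/-- Transport of a conditional expectation along a bijection that respects the fibres. -/
theorem cexp_equiv {Ω Ω' K K' : Type*} [Fintype Ω] [Fintype Ω'] [DecidableEq K]
    [DecidableEq K'] (e : Ω ≃ Ω') (κ : Ω → K) (κ' : Ω' → K')
    (h : ∀ x y, κ' (e x) = κ' (e y) ↔ κ x = κ y) (g : Ω' → ℝ) (x : Ω) :
    cexp κ' g (e x) = cexp κ (g ∘ e) x := by
  rw [cexp_apply, cexp_apply]
  have hbij : ∀ s : Ω' → ℝ, ∑ y ∈ univ.filter (fun y => κ y = κ x), s (e y)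
      = ∑ y ∈ univ.filter (fun y => κ' y = κ' (e x)), s y := by
    intro s
    refine Finset.sum_nbij' (fun y => e y) (fun y => e.symm y) ?_ ?_ ?_ ?_ ?_
    · intro y hy
      simp only [Finset.mem_filter, Finset.mem_univ, true_and] at hy ⊢
      exact (h y x).mpr hy
    · intro y hy
      simp only [Finset.mem_filter, Finset.mem_univ, true_and] at hy ⊢
      exact (h (e.symm y) x).mp (by simpa using hy)
    · intro y _
      simp
    · intro y _
      simp
    · intro y _
      rfl
  have hcard := hbij (fun _ => (1 : ℝ))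
  simp only [Finset.sum_const, nsmul_eq_mul, mul_one] at hcard
  rw [← hbij g, ← hcard]
  rfl

/-- Transport of the three-projection inequality along a bijection that respects the
fibres of the three maps. -/
theorem threeProj_equiv {Ω Ω' K K' : Type*} [Fintype Ω] [Fintype Ω'] [DecidableEq K]
    [DecidableEq K'] (e : Ω ≃ Ω') (κ : Fin 3 → Ω → K) (κ' : Fin 3 → Ω' → K')
    (h : ∀ i x y, κ' i (e x) = κ' i (e y) ↔ κ i x = κ i y) (hκ : ThreeProj κ) :
    ThreeProj κ' := by
  intro g
  have h1 := hκ (g ∘ e)
  have hip : ∀ i, ip (g ∘ e) (cexp (κ i) (g ∘ e)) = ip g (cexp (κ' i) g) := by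
    intro i
    unfold ip
    rw [← Equiv.sum_comp e (fun y => g y * cexp (κ' i) g y)]
    refine Finset.sum_congr rfl (fun x _ => ?_)
    rw [cexp_equiv e (κ i) (κ' i) (h i) g x]
    rfl
  have hgg : ip (g ∘ e) (g ∘ e) = ip g g := by
    unfold ip
    exact Equiv.sum_comp e (fun y => g y * g y)
  have hsum : ∑ x, (g ∘ e) x = ∑ y, g y := Equiv.sum_comp e g
  have hcard : Fintype.card Ω = Fintype.card Ω' := Fintype.card_congr e
  rw [Finset.sum_congr rfl (fun i _ => hip i), hgg, hsum, hcard] at h1
  exact h1

/-- Resampling two of three rows is the conditional expectation given the third row. -/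
theorem R_erase_eq {n : ℕ} (r : Fin 3 → ℕ) (c : Fin n → ℕ) (k : Fin 3) :
    (R (univ.erase k) : (CT 3 n r c → ℝ) →ₗ[ℝ] (CT 3 n r c → ℝ))
      = cexp (fun x : CT 3 n r c => x.1 k) := by
  unfold R
  apply cexp_congr_ker
  intro x y
  rw [mask_eq_iff]
  constructor
  · intro h
    exact h k (by simp)
  · intro h i hi
    have hik : i = k := by
      by_contra hne
      exact hi (Finset.mem_erase.mpr ⟨hne, Finset.mem_univ i⟩)
    rw [hik]
    exact h

/-- The quadratic form of the global average. -/
theorem ip_R_univ {n : ℕ} (r : Fin 3 → ℕ) (c : Fin n → ℕ) (g : CT 3 n r c → ℝ) :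
    ip g (R univ g) = (∑ x, g x) ^ 2 / (Fintype.card (CT 3 n r c) : ℝ) := by
  unfold ip
  rw [Finset.sum_congr rfl (fun x _ => by rw [R_univ_apply]), ← Finset.sum_mul]
  ring

/-- For contingency tables with three rows the three-row inequality is the three-projection
inequality for the three rows. -/
theorem threeRow_iff_threeProj {n : ℕ} (r : Fin 3 → ℕ) (c : Fin n → ℕ) :
    (∀ g : CT 3 n r c → ℝ, ∑ q ∈ (univ : Finset (Fin 3)).powersetCard 2, ip g (R q g)
        ≤ 2 * ip g g + ip g (R univ g))
      ↔ ThreeProj (fun (k : Fin 3) (x : CT 3 n r c) => x.1 k) := by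
  have key : ∀ g : CT 3 n r c → ℝ,
      ∑ q ∈ (univ : Finset (Fin 3)).powersetCard 2, ip g (R q g)
        = ∑ k : Fin 3, ip g (cexp (fun x : CT 3 n r c => x.1 k) g) := by
    intro g
    rw [ThreeTwo.sum_pairs (fun q => ip g (R q g))]
    refine Finset.sum_congr rfl (fun k _ => ?_)
    rw [R_erase_eq]
  constructor
  · intro h g
    have h1 := h g
    rw [key, ip_R_univ] at h1
    exact h1
  · intro h g
    rw [key, ip_R_univ]
    exact h g

/-- Arrays with `n` columns of three entries and prescribed column sums `d` (no condition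
on the rows): `y j i` is the entry of column `j` in row `i`. -/
abbrev CP (n : ℕ) (d : Fin n → ℕ) : Type :=
  {y : Fin n → Fin 3 → ℕ // ∀ j, ∑ i, y j i = d j}

theorem CP_entry_le {n : ℕ} {d : Fin n → ℕ} (y : CP n d) (j : Fin n) (i : Fin 3) :
    y.1 j i ≤ d j := by
  rw [← y.2 j]
  exact Finset.single_le_sum (f := fun i => y.1 j i) (fun _ _ => Nat.zero_le _)
    (Finset.mem_univ i)

instance instFiniteCP (n : ℕ) (d : Fin n → ℕ) : Finite (CP n d) := by
  apply Finite.of_injective (fun y : CP n d => fun (j : Fin n) (i : Fin 3) =>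
    (⟨y.1 j i, Nat.lt_succ_of_le (CP_entry_le y j i)⟩ : Fin (d j + 1)))
  intro x y h
  apply Subtype.ext
  funext j i
  exact Fin.mk.inj (congrFun (congrFun h j) i)

noncomputable instance instFintypeCP (n : ℕ) (d : Fin n → ℕ) : Fintype (CP n d) :=
  Fintype.ofFinite _

end Vale.Agent.Lib.P328.RP
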