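import Mathlib
import Vale.Agent.Lib.P328.RP.ThreeProj

/-!
P328: the three-projection inequality passes to products.

If three maps `κA i` on `A` and three maps `κB i` on `B` satisfy the three-projection
inequality (uniform measures), then so do the product maps `(a, b) ↦ (κA i a, κB i b)` on
`A × B`.

Proof.  Let `P i`, `E i`, `F i` be the conditional expectations given `(κA i a, κB i b)`,
`(κA i a, b)`, `(a, κB i b)` and `Q` the one given `b`.  Then `P i = E i ∘ F i ∘ E i`, and on
functions of `b` alone `P i = F i`.  Split `g = g0 + g1`, `g1 = Q g`: the mixed terms vanish,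
`⟨g1, P i g1⟩ = ⟨g1, F i g1⟩` is handled by the inequality on `B`, and
`⟨g0, P i g0⟩ ≤ ⟨g0, E i g0⟩` by the inequality on `A` on every slice, where `g0` has sum zero.
-/

namespace Vale.Agent.Lib.P328.RP

open Finset
open Vale.Agent.Lib.P335.Bip

namespace ThreeProjProd

/-- The abstract splitting argument. -/
theorem split {Ω : Type*} [Fintype Ω] (P E F : Fin 3 → (Ω → ℝ) →ₗ[ℝ] (Ω → ℝ))
    (Q : (Ω → ℝ) →ₗ[ℝ] (Ω → ℝ))
    (hPsymm : ∀ i f g, ip f (P i g) = ip (P i f) g)
    (hEsymm : ∀ i f g, ip f (E i g) = ip (E i f) g)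
    (hEidem : ∀ i f, E i (E i f) = E i f)
    (hQsymm : ∀ f g, ip f (Q g) = ip (Q f) g)
    (hQidem : ∀ f, Q (Q f) = Q f)
    (hQsum : ∀ f, ∑ x, Q f x = ∑ x, f x)
    (hPE : ∀ i f, P i f = E i (F i (E i f)))
    (hFle : ∀ i f, ip f (F i f) ≤ ip f f)
    (hPQ : ∀ i f, P i (Q f) = F i (Q f))
    (hFQ : ∀ i f, Q (F i (Q f)) = F i (Q f))
    (hA : ∀ g, Q g = 0 → ∑ i, ip g (E i g) ≤ 2 * ip g g)
    (hB : ∀ g, Q g = g →
      ∑ i, ip g (F i g) ≤ 2 * ip g g + (∑ x, g x) ^ 2 / (Fintype.card Ω : ℝ))
    (g : Ω → ℝ) :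
    ∑ i, ip g (P i g) ≤ 2 * ip g g + (∑ x, g x) ^ 2 / (Fintype.card Ω : ℝ) := by
  obtain ⟨g1, hg1⟩ : ∃ g1, g1 = Q g := ⟨_, rfl⟩
  obtain ⟨g0, hg0⟩ : ∃ g0, g0 = g - Q g := ⟨_, rfl⟩
  have hQg0 : Q g0 = 0 := by rw [hg0, map_sub, hQidem, sub_self]
  have hQg1 : Q g1 = g1 := by rw [hg1, hQidem]
  have hg : g = g0 + g1 := by rw [hg0, hg1, sub_add_cancel]
  have h01 : ip g0 g1 = 0 := by rw [hg1, hQsymm, hQg0, ip_zero_left]
  have hsum : ∑ x, g1 x = ∑ x, g x := by rw [hg1, hQsum]
  have hterm : ∀ i, ip g (P i g) = ip g0 (P i g0) + ip g1 (F i g1) := by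
    intro i
    have hP1 : P i g1 = F i g1 := by rw [hg1, hPQ]
    have hc1 : ip g0 (F i g1) = 0 := by
      have h2 : F i g1 = Q (F i g1) := by rw [hg1, hFQ]
      rw [h2, hQsymm, hQg0, ip_zero_left]
    have hc2 : ip g1 (P i g0) = 0 := by
      rw [hPsymm, hP1, ip_comm, hc1]
    rw [hg, map_add, ip_add_left, ip_add_right, ip_add_right, hP1, hc1, hc2]
    ring
  have hE : ∀ i, ip g0 (P i g0) ≤ ip g0 (E i g0) := by
    intro i
    rw [hPE, hEsymm]
    calc ip (E i g0) (F i (E i g0)) ≤ ip (E i g0) (E i g0) := hFle i _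
      _ = ip g0 (E i g0) := by rw [← hEsymm, hEidem]
  have h0 := hA g0 hQg0
  have h1 := hB g1 hQg1
  have hgg : ip g g = ip g0 g0 + ip g1 g1 := by
    rw [hg, ip_add_left, ip_add_right, ip_add_right, h01, ip_comm g1 g0, h01]
    ring
  have h2 : ∑ i, ip g0 (P i g0) ≤ ∑ i, ip g0 (E i g0) :=
    Finset.sum_le_sum (fun i _ => hE i)
  rw [Finset.sum_congr rfl (fun i _ => hterm i), Finset.sum_add_distrib, hgg, ← hsum]
  linarith

variable {A B K1 K2 : Type*} [Fintype A] [Fintype B] [DecidableEq K1] [DecidableEq K2]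

/-- The fibre of a product map is the product of the fibres. -/
theorem filter_prod (f1 : A → K1) (f2 : B → K2) (a : A) (b : B) :
    univ.filter (fun p : A × B => (f1 p.1, f2 p.2) = (f1 a, f2 b))
      = (univ.filter (fun a' => f1 a' = f1 a)) ×ˢ (univ.filter (fun b' => f2 b' = f2 b)) := by
  ext p
  simp only [Finset.mem_filter, Finset.mem_univ, true_and, Finset.mem_product, Prod.mk.injEq]

/-- Conditional expectation given a product map: iterate the two conditional expectations. -/
theorem cexp_prod (f1 : A → K1) (f2 : B → K2) (h : A × B → ℝ) (a : A) (b : B) :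
    cexp (fun p : A × B => (f1 p.1, f2 p.2)) h (a, b)
      = cexp f1 (fun a' => cexp f2 (fun b' => h (a', b')) b) a := by
  simp only [cexp_apply]
  rw [filter_prod, Finset.sum_product, Finset.card_product, ← Finset.sum_div, div_div,
    Nat.cast_mul, mul_comm]

theorem cexp_self {Ω : Type*} [Fintype Ω] [DecidableEq Ω] (f : Ω → ℝ) :
    cexp (fun x : Ω => x) f = f :=
  cexp_of_factor _ (fun _ _ h => congrArg f h)

/-- Conditional expectation given `(f1 a, b)`: the one given `f1` on every slice. -/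
theorem cexp_fst [DecidableEq B] (f1 : A → K1) (h : A × B → ℝ) (a : A) (b : B) :
    cexp (fun p : A × B => (f1 p.1, p.2)) h (a, b) = cexp f1 (fun a' => h (a', b)) a := by
  refine (cexp_prod f1 (fun b' : B => b') h a b).trans ?_
  have hfun : (fun a' => cexp (fun b' : B => b') (fun b' => h (a', b')) b)
      = (fun a' => h (a', b)) :=
    funext (fun a' => congrFun (cexp_self (fun b' => h (a', b'))) b)
  rw [hfun]

/-- Conditional expectation given `(a, f2 b)`: the one given `f2` on every slice. -/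
theorem cexp_snd [DecidableEq A] (f2 : B → K2) (h : A × B → ℝ) (a : A) (b : B) :
    cexp (fun p : A × B => (p.1, f2 p.2)) h (a, b) = cexp f2 (fun b' => h (a, b')) b := by
  refine (cexp_prod (fun a' : A => a') f2 h a b).trans ?_
  exact congrFun (cexp_self (fun a' => cexp f2 (fun b' => h (a', b')) b)) a

/-- Conditional expectation given `b`: the average over `a`. -/
theorem cexp_avg [DecidableEq B] (h : A × B → ℝ) (a : A) (b : B) :
    cexp (fun p : A × B => p.2) h (a, b) = (∑ a', h (a', b)) / (Fintype.card A : ℝ) := by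
  rw [cexp_apply]
  have hfil : univ.filter (fun p : A × B => p.2 = b) = (univ : Finset A) ×ˢ ({b} : Finset B) := by
    ext p
    simp only [Finset.mem_filter, Finset.mem_univ, true_and, Finset.mem_product,
      Finset.mem_singleton]
  rw [hfil, Finset.sum_product, Finset.card_product, Finset.card_singleton, mul_one,
    Finset.card_univ]
  congr 1
  exact Finset.sum_congr rfl (fun a' _ => Finset.sum_singleton _ _)

/-- `E ∘ F = P`. -/
theorem cexp_fst_snd [DecidableEq A] [DecidableEq B] (f1 : A → K1) (f2 : B → K2)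
    (h : A × B → ℝ) :
    cexp (fun p : A × B => (f1 p.1, p.2)) (cexp (fun p : A × B => (p.1, f2 p.2)) h)
      = cexp (fun p : A × B => (f1 p.1, f2 p.2)) h := by
  funext ⟨a, b⟩
  rw [cexp_fst, cexp_prod]
  have hfun : (fun a' => cexp (fun p : A × B => (p.1, f2 p.2)) h (a', b))
      = (fun a' => cexp f2 (fun b' => h (a', b')) b) :=
    funext (fun a' => cexp_snd f2 h a' b)
  rw [hfun]

/-- `E` fixes the functions of `b` alone. -/
theorem cexp_fst_fix [DecidableEq B] (f1 : A → K1) (h : A × B → ℝ)
    (hh : ∀ a a' b, h (a, b) = h (a', b)) :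
    cexp (fun p : A × B => (f1 p.1, p.2)) h = h := by
  funext ⟨a, b⟩
  rw [cexp_fst]
  exact congrFun (cexp_of_factor f1 (f := fun a' => h (a', b)) (fun x y _ => hh x y b)) a

/-- `F` preserves the functions of `b` alone. -/
theorem cexp_snd_fac [DecidableEq A] (f2 : B → K2) (h : A × B → ℝ)
    (hh : ∀ a a' b, h (a, b) = h (a', b)) (a a' : A) (b : B) :
    cexp (fun p : A × B => (p.1, f2 p.2)) h (a, b)
      = cexp (fun p : A × B => (p.1, f2 p.2)) h (a', b) := by
  rw [cexp_snd, cexp_snd]
  have hfun : (fun b' => h (a, b')) = (fun b' => h (a', b')) :=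
    funext (fun b' => hh a a' b')
  rw [hfun]

end ThreeProjProd

open ThreeProjProd in
/-- **The three-projection inequality passes to products.** -/
theorem threeProj_prod {A B KA KB : Type*} [Fintype A] [Fintype B] [DecidableEq KA]
    [DecidableEq KB] (κA : Fin 3 → A → KA) (κB : Fin 3 → B → KB) (hA : ThreeProj κA)
    (hB : ThreeProj κB) : ThreeProj (fun i (p : A × B) => (κA i p.1, κB i p.2)) := by
  classical
  intro g
  have hQfac : ∀ (f : A × B → ℝ) (a a' : A) (b : B),
      cexp (fun p : A × B => p.2) f (a, b) = cexp (fun p : A × B => p.2) f (a', b) :=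
    fun f a a' b => cexp_congr (fun p : A × B => p.2) rfl f
  refine split (fun i => cexp (fun p : A × B => (κA i p.1, κB i p.2)))
    (fun i => cexp (fun p : A × B => (κA i p.1, p.2)))
    (fun i => cexp (fun p : A × B => (p.1, κB i p.2)))
    (cexp (fun p : A × B => p.2))
    (fun i f g => cexp_symm _ f g) (fun i f g => cexp_symm _ f g) (fun i f => cexp_idem _ f)
    (fun f g => cexp_symm _ f g) (fun f => cexp_idem _ f) (fun f => sum_cexp _ f)
    ?_ (fun i f => ip_cexp_le _ f) ?_ ?_ ?_ ?_ g
  · -- P = E F E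
    intro i f
    show cexp (fun p : A × B => (κA i p.1, κB i p.2)) f
      = cexp (fun p : A × B => (κA i p.1, p.2)) (cexp (fun p : A × B => (p.1, κB i p.2))
          (cexp (fun p : A × B => (κA i p.1, p.2)) f))
    rw [cexp_fst_snd]
    exact (cexp_tower (fun p : A × B => (κA i p.1, p.2))
      (fun p : A × B => (κA i p.1, κB i p.2))
      (fun x y hxy => by
        have h1 := congrArg Prod.fst hxy
        have h2 := congrArg Prod.snd hxy
        simp only at h1 h2
        rw [h1, h2]) f).symm
  · -- P Q = F Q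
    intro i f
    show cexp (fun p : A × B => (κA i p.1, κB i p.2)) (cexp (fun p : A × B => p.2) f)
      = cexp (fun p : A × B => (p.1, κB i p.2)) (cexp (fun p : A × B => p.2) f)
    rw [← cexp_fst_snd]
    exact cexp_fst_fix (κA i) _
      (fun a a' b => cexp_snd_fac (κB i) _ (hQfac f) a a' b)
  · -- Q F Q = F Q
    intro i f
    show cexp (fun p : A × B => p.2) (cexp (fun p : A × B => (p.1, κB i p.2))
        (cexp (fun p : A × B => p.2) f))
      = cexp (fun p : A × B => (p.1, κB i p.2)) (cexp (fun p : A × B => p.2) f)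
    refine cexp_of_factor _ ?_
    rintro ⟨a, b⟩ ⟨a', b'⟩ hxy
    have hb : b = b' := hxy
    subst hb
    exact cexp_snd_fac (κB i) _ (hQfac f) a a' b
  · -- the inequality on the slices of A
    intro g0 hQ
    have hzero : ∀ b : B, ∑ a, g0 (a, b) = 0 := by
      intro b
      rcases isEmpty_or_nonempty A with hemp | hne
      · rw [Finset.univ_eq_empty, Finset.sum_empty]
      · obtain ⟨a0⟩ := hne
        have h1 := congrFun hQ (a0, b)
        rw [cexp_avg] at h1
        have hcard : (Fintype.card A : ℝ) ≠ 0 := by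
          have : 0 < Fintype.card A := Fintype.card_pos_iff.mpr ⟨a0⟩
          positivity
        have h2 : (∑ a', g0 (a', b)) / (Fintype.card A : ℝ) = 0 := h1
        exact (div_eq_zero_iff.mp h2).resolve_right hcard
    have hslice : ∀ i, ip g0 (cexp (fun p : A × B => (κA i p.1, p.2)) g0)
        = ∑ b, ip (fun a => g0 (a, b)) (cexp (κA i) (fun a => g0 (a, b))) := by
      intro i
      unfold ip
      rw [Fintype.sum_prod_type_right]
      refine Finset.sum_congr rfl (fun b _ => Finset.sum_congr rfl (fun a _ => ?_))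
      rw [cexp_fst]
    have hgg : ip g0 g0 = ∑ b, ip (fun a => g0 (a, b)) (fun a => g0 (a, b)) := by
      unfold ip
      rw [Fintype.sum_prod_type_right]
    show ∑ i, ip g0 (cexp (fun p : A × B => (κA i p.1, p.2)) g0) ≤ 2 * ip g0 g0
    rw [Finset.sum_congr rfl (fun i _ => hslice i), Finset.sum_comm, hgg, Finset.mul_sum]
    refine Finset.sum_le_sum (fun b _ => ?_)
    have h1 := hA (fun a => g0 (a, b))
    rw [hzero b] at h1
    simpa using h1
  · -- the inequality on B for functions of b alone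
    intro g1 hQ
    have hfac : ∀ a a' b, g1 (a, b) = g1 (a', b) := by
      intro a a' b
      rw [← hQ]
      exact hQfac g1 a a' b
    show ∑ i, ip g1 (cexp (fun p : A × B => (p.1, κB i p.2)) g1)
      ≤ 2 * ip g1 g1 + (∑ x, g1 x) ^ 2 / (Fintype.card (A × B) : ℝ)
    rcases isEmpty_or_nonempty A with hemp | hne
    · have hz : ∀ f1 f2 : A × B → ℝ, ip f1 f2 = 0 := by
        intro f1 f2
        unfold ip
        rw [Finset.univ_eq_empty, Finset.sum_empty]
      rw [Finset.sum_eq_zero (fun i _ => hz _ _), hz, Finset.univ_eq_empty (α := A × B),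
        Finset.sum_empty]
      simp
    · obtain ⟨a0⟩ := hne
      have hcard : (Fintype.card A : ℝ) ≠ 0 := by
        have : 0 < Fintype.card A := Fintype.card_pos_iff.mpr ⟨a0⟩
        positivity
      have hcpos : (0 : ℝ) ≤ (Fintype.card A : ℝ) := Nat.cast_nonneg _
      have hF : ∀ i, ip g1 (cexp (fun p : A × B => (p.1, κB i p.2)) g1)
          = (Fintype.card A : ℝ)
            * ip (fun b => g1 (a0, b)) (cexp (κB i) (fun b => g1 (a0, b))) := by
        intro i
        unfold ip
        rw [Fintype.sum_prod_type]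
        have hrow : ∀ a : A, ∑ b, g1 (a, b) * cexp (fun p : A × B => (p.1, κB i p.2)) g1 (a, b)
            = ∑ b, g1 (a0, b) * cexp (κB i) (fun b => g1 (a0, b)) b := by
          intro a
          refine Finset.sum_congr rfl (fun b _ => ?_)
          rw [cexp_snd_fac (κB i) g1 hfac a a0 b, cexp_snd, hfac a a0 b]
        rw [Finset.sum_congr rfl (fun a _ => hrow a), Finset.sum_const, Finset.card_univ,
          nsmul_eq_mul]
      have hgg : ip g1 g1
          = (Fintype.card A : ℝ) * ip (fun b => g1 (a0, b)) (fun b => g1 (a0, b)) := by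
        unfold ip
        rw [Fintype.sum_prod_type]
        have hrow : ∀ a : A, ∑ b, g1 (a, b) * g1 (a, b) = ∑ b, g1 (a0, b) * g1 (a0, b) :=
          fun a => Finset.sum_congr rfl (fun b _ => by rw [hfac a a0 b])
        rw [Finset.sum_congr rfl (fun a _ => hrow a), Finset.sum_const, Finset.card_univ,
          nsmul_eq_mul]
      have hs : ∑ x, g1 x = (Fintype.card A : ℝ) * ∑ b, g1 (a0, b) := by
        rw [Fintype.sum_prod_type]
        have hrow : ∀ a : A, ∑ b, g1 (a, b) = ∑ b, g1 (a0, b) :=
          fun a => Finset.sum_congr rfl (fun b _ => hfac a a0 b)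
        rw [Finset.sum_congr rfl (fun a _ => hrow a), Finset.sum_const, Finset.card_univ,
          nsmul_eq_mul]
      have h1 := hB (fun b => g1 (a0, b))
      rw [Finset.sum_congr rfl (fun i _ => hF i), ← Finset.mul_sum, hgg, hs,
        Fintype.card_prod, Nat.cast_mul]
      have h3 : ((Fintype.card A : ℝ) * ∑ b, g1 (a0, b)) ^ 2
            / ((Fintype.card A : ℝ) * (Fintype.card B : ℝ))
          = (Fintype.card A : ℝ) * ((∑ b, g1 (a0, b)) ^ 2 / (Fintype.card B : ℝ)) := by
        rw [mul_pow, sq, mul_assoc, mul_div_mul_left _ _ hcard, mul_div_assoc]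
      rw [h3]
      have h4 := mul_le_mul_of_nonneg_left h1 hcpos
      linarith

end Vale.Agent.Lib.P328.RP
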