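import Mathlib
import Vale.Agent.Lib.P328.RP.ThreeProj
import Vale.Agent.Lib.P328.RP.ThreeProjProd

/-!
P328: the three-row inequality when every row sum is at least the total of the column sums
outside one column `j0`.

In this regime a table is determined by its columns other than `j0`, and these columns are
arbitrary: the tables are in bijection with the product over `j ≠ j0` of the compositions of
`c j` into three parts, and row `i` of the table corresponds to the `i`-th parts.  The
three-projection inequality for one column is the three-row inequality for `3 × 2` tables,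
and it passes to products.

* `Comp3 d` : compositions of `d` into three parts.
* `threeProj_comp3` : the three-projection inequality for the three parts.
* `threeProj_CP` : the same for `CP n d`, by induction on the number of columns.
* `threeRow_big_rows` : the three-row inequality in the regime above.
-/

namespace Vale.Agent.Lib.P328.RP

open Finset
open Vale.Agent.Lib.P335.Bip

/-- Compositions of `d` into three parts. -/
abbrev Comp3 (d : ℕ) : Type := {a : Fin 3 → ℕ // ∑ i, a i = d}

theorem Comp3_entry_le {d : ℕ} (a : Comp3 d) (i : Fin 3) : a.1 i ≤ d :=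
  calc a.1 i ≤ ∑ i, a.1 i :=
        Finset.single_le_sum (f := fun i => a.1 i) (fun _ _ => Nat.zero_le _)
          (Finset.mem_univ i)
    _ = d := a.2

instance instFiniteComp3 (d : ℕ) : Finite (Comp3 d) := by
  apply Finite.of_injective (fun a : Comp3 d => fun (i : Fin 3) =>
    (⟨a.1 i, Nat.lt_succ_of_le (Comp3_entry_le a i)⟩ : Fin (d + 1)))
  intro x y h
  apply Subtype.ext
  funext i
  exact Fin.mk.inj (congrFun h i)

noncomputable instance instFintypeComp3 (d : ℕ) : Fintype (Comp3 d) :=
  Fintype.ofFinite _

namespace BigRows

/-- the margins of the `3 × 2` tables that encode the compositions of `d` -/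
def r2 (d : ℕ) : Fin 3 → ℕ := fun _ => d

/-- the column sums of the `3 × 2` tables that encode the compositions of `d` -/
def c2 (d : ℕ) : Fin 2 → ℕ := fun j => if j = 0 then d else 2 * d

/-- a composition as a `3 × 2` table: first column the parts, second column the rest -/
def compTable (d : ℕ) (a : Comp3 d) : CT 3 2 (r2 d) (c2 d) :=
  ⟨fun i j => if j = 0 then a.1 i else d - a.1 i, by
    constructor
    · intro i
      have h := Comp3_entry_le a i
      rw [Fin.sum_univ_two]
      show (if (0 : Fin 2) = 0 then a.1 i else d - a.1 i)
        + (if (1 : Fin 2) = 0 then a.1 i else d - a.1 i) = d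
      rw [if_pos rfl, if_neg (by decide)]
      omega
    · intro j
      have h0 := Comp3_entry_le a 0
      have h1 := Comp3_entry_le a 1
      have h2 := Comp3_entry_le a 2
      have hs := a.2
      rw [Fin.sum_univ_three] at hs
      rw [Fin.sum_univ_three]
      show (if j = 0 then a.1 0 else d - a.1 0) + (if j = 0 then a.1 1 else d - a.1 1)
        + (if j = 0 then a.1 2 else d - a.1 2) = (if j = 0 then d else 2 * d)
      by_cases hj : j = 0
      · rw [if_pos hj, if_pos hj, if_pos hj, if_pos hj]
        exact hs
      · rw [if_neg hj, if_neg hj, if_neg hj, if_neg hj]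
        omega⟩

/-- the compositions of `d` into three parts are the `3 × 2` tables with margins
`(d, d, d)` and `(d, 2 d)` -/
def compEquiv (d : ℕ) : CT 3 2 (r2 d) (c2 d) ≃ Comp3 d where
  toFun x := ⟨fun i => x.1 i 0, (x.2.2 0).trans (if_pos rfl)⟩
  invFun a := compTable d a
  left_inv x := by
    apply Subtype.ext
    funext i j
    have hrow : x.1 i 0 + x.1 i 1 = d := by
      have h := x.2.1 i
      rw [Fin.sum_univ_two] at h
      exact h
    by_cases hj : j = 0
    · show (if j = 0 then x.1 i 0 else d - x.1 i 0) = x.1 i j
      rw [if_pos hj, hj]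
    · show (if j = 0 then x.1 i 0 else d - x.1 i 0) = x.1 i j
      rw [if_neg hj]
      have hj1 : j = 1 := by omega
      rw [hj1]
      omega
  right_inv a := by
    apply Subtype.ext
    funext i
    show (if (0 : Fin 2) = 0 then a.1 i else d - a.1 i) = a.1 i
    rw [if_pos rfl]

end BigRows

/-- The three-projection inequality for the three parts of a composition. -/
theorem threeProj_comp3 (d : ℕ) : ThreeProj (fun (i : Fin 3) (a : Comp3 d) => a.1 i) := by
  refine threeProj_equiv (BigRows.compEquiv d)
    (fun (k : Fin 3) (x : CT 3 2 (BigRows.r2 d) (BigRows.c2 d)) => x.1 k) _ ?_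
    ((threeRow_iff_threeProj _ _).mp (threeRow_two_cols _ _))
  intro i x y
  show x.1 i 0 = y.1 i 0 ↔ x.1 i = y.1 i
  constructor
  · intro h
    have hx := x.2.1 i
    have hy := y.2.1 i
    rw [Fin.sum_univ_two] at hx hy
    funext j
    by_cases hj : j = 0
    · rw [hj]
      exact h
    · have hj1 : j = 1 := by omega
      rw [hj1]
      omega
  · intro h
    rw [h]

namespace BigRows

/-- splitting off the first column -/
def consEquiv (n : ℕ) (d : Fin (n + 1) → ℕ) :
    Comp3 (d 0) × CP n (fun j => d j.succ) ≃ CP (n + 1) d where
  toFun p := ⟨Fin.cons p.1.1 p.2.1, by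
    intro j
    refine Fin.cases ?_ (fun j' => ?_) j
    · simp only [Fin.cons_zero]
      exact p.1.2
    · simp only [Fin.cons_succ]
      exact p.2.2 j'⟩
  invFun y := (⟨y.1 0, y.2 0⟩, ⟨fun j => y.1 j.succ, fun j => y.2 j.succ⟩)
  left_inv p := by
    refine Prod.ext (Subtype.ext ?_) (Subtype.ext ?_)
    · show Fin.cons (α := fun _ => Fin 3 → ℕ) p.1.1 p.2.1 0 = p.1.1
      rw [Fin.cons_zero]
    · funext j
      show Fin.cons (α := fun _ => Fin 3 → ℕ) p.1.1 p.2.1 j.succ = p.2.1 j
      rw [Fin.cons_succ]
  right_inv y := by
    apply Subtype.ext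
    funext j
    refine Fin.cases ?_ (fun j' => ?_) j
    · show Fin.cons (α := fun _ => Fin 3 → ℕ) (y.1 0) (fun j => y.1 j.succ) 0 = y.1 0
      rw [Fin.cons_zero]
    · show Fin.cons (α := fun _ => Fin 3 → ℕ) (y.1 0) (fun j => y.1 j.succ) j'.succ
        = y.1 j'.succ
      rw [Fin.cons_succ]

end BigRows

/-- The three-projection inequality for the rows of arrays with prescribed column sums and
no condition on the rows. -/
theorem threeProj_CP : ∀ (n : ℕ) (d : Fin n → ℕ),
    ThreeProj (fun (i : Fin 3) (y : CP n d) => fun j => y.1 j i) := by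
  intro n
  induction n with
  | zero =>
    intro d g
    obtain ⟨y0, hy0⟩ : ∃ y0 : CP 0 d, y0 = ⟨fun j => j.elim0, fun j => j.elim0⟩ := ⟨_, rfl⟩
    have hall : ∀ y : CP 0 d, y = y0 := by
      intro y
      rw [hy0]
      exact Subtype.ext (funext fun j => j.elim0)
    have huniv : (univ : Finset (CP 0 d)) = {y0} := by
      ext y
      simp only [Finset.mem_univ, Finset.mem_singleton, true_iff]
      exact hall y
    have hfix : ∀ i : Fin 3, cexp (fun y : CP 0 d => fun j => y.1 j i) g = g :=
      fun i => cexp_of_factor _ (fun x y _ => by rw [hall x, hall y])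
    have h3 : ∑ i : Fin 3, ip g (cexp (fun y : CP 0 d => fun j => y.1 j i) g)
        = 3 * ip g g := by
      rw [Finset.sum_congr rfl (fun i _ => by rw [hfix i]), Finset.sum_const, Finset.card_univ,
        Fintype.card_fin, nsmul_eq_mul]
      norm_num
    have hs : ∑ x, g x = g y0 := by rw [huniv, Finset.sum_singleton]
    have hc : (Fintype.card (CP 0 d) : ℝ) = 1 := by
      rw [← Finset.card_univ, huniv, Finset.card_singleton]
      norm_num
    have hip : ip g g = g y0 * g y0 := by
      unfold ip
      rw [huniv, Finset.sum_singleton]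
    rw [h3, hs, hc, hip, div_one]
    nlinarith [sq_nonneg (g y0)]
  | succ n ih =>
    intro d
    have hprod := threeProj_prod (fun (i : Fin 3) (a : Comp3 (d 0)) => a.1 i)
      (fun (i : Fin 3) (y : CP n (fun j => d j.succ)) => fun j => y.1 j i)
      (threeProj_comp3 (d 0)) (ih (fun j => d j.succ))
    refine threeProj_equiv (BigRows.consEquiv n d) _ _ ?_ hprod
    intro i p q
    show (fun j => Fin.cons (α := fun _ => Fin 3 → ℕ) p.1.1 p.2.1 j i)
        = (fun j => Fin.cons (α := fun _ => Fin 3 → ℕ) q.1.1 q.2.1 j i)
      ↔ (p.1.1 i, fun j => p.2.1 j i) = (q.1.1 i, fun j => q.2.1 j i)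
    constructor
    · intro h
      refine Prod.ext ?_ ?_
      · have h0 := congrFun h 0
        simp only [Fin.cons_zero] at h0
        exact h0
      · funext j
        have hj := congrFun h j.succ
        simp only [Fin.cons_succ] at hj
        exact hj
    · intro h
      have h1 := congrArg Prod.fst h
      have h2 := congrArg Prod.snd h
      simp only at h1 h2
      funext j
      refine Fin.cases ?_ (fun j' => ?_) j
      · simp only [Fin.cons_zero]
        exact h1
      · simp only [Fin.cons_succ]
        exact congrFun h2 j'

end Vale.Agent.Lib.P328.RP
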