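import Mathlib
import Vale.Agent.Lib.P328.RP.ThreeProj

/-!
P328: three-row tables in the hub regime are a product over the columns outside the hub.

Let `r : Fin 3 → ℕ`, `c : Fin n → ℕ` and a column `j0` be such that the column sums outside
`j0` add up to at most every row sum.  Then a table with margins `r`, `c` is determined by its
columns outside `j0`, and these columns are arbitrary: column `j0` absorbs what is left of
every row.  So the tables correspond to the arrays `CP n d`, `d j = c j` for `j ≠ j0` and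
`d j0 = 0`, and row `i` of the table corresponds to the `i`-th entries of the columns.

* `BigRowsCT.equivCT` : the bijection `CP n (dcol c j0) ≃ CT 3 n r c`.
* `threeRow_big_of` : the three-row inequality for such margins, given the three-projection
  inequality for all the arrays `CP n d`.
-/

namespace Vale.Agent.Lib.P328.RP

open Finset
open Vale.Agent.Lib.P335.Bip

namespace BigRowsCT

variable {n : ℕ}

/-- the column sums with the hub column replaced by zero -/
def dcol (c : Fin n → ℕ) (j0 : Fin n) : Fin n → ℕ := fun j => if j = j0 then 0 else c j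

theorem dcol_hub (c : Fin n → ℕ) (j0 : Fin n) : dcol c j0 j0 = 0 := by
  unfold dcol
  rw [if_pos rfl]

theorem dcol_ne (c : Fin n → ℕ) {j0 j : Fin n} (hj : j ≠ j0) : dcol c j0 j = c j := by
  unfold dcol
  rw [if_neg hj]

/-- the array of a table: the hub column is replaced by zero -/
def toArr (j0 : Fin n) (x : Fin 3 → Fin n → ℕ) : Fin n → Fin 3 → ℕ :=
  fun j i => if j = j0 then 0 else x i j

/-- the table of an array: the hub column absorbs what is left of every row -/
def toTab (r : Fin 3 → ℕ) (j0 : Fin n) (y : Fin n → Fin 3 → ℕ) : Fin 3 → Fin n → ℕ :=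
  fun i j => if j = j0 then r i - ∑ l ∈ univ.erase j0, y l i else y j i

theorem toArr_hub (j0 : Fin n) (x : Fin 3 → Fin n → ℕ) (i : Fin 3) : toArr j0 x j0 i = 0 := by
  unfold toArr
  rw [if_pos rfl]

theorem toArr_ne {j0 j : Fin n} (hj : j ≠ j0) (x : Fin 3 → Fin n → ℕ) (i : Fin 3) :
    toArr j0 x j i = x i j := by
  unfold toArr
  rw [if_neg hj]

theorem toTab_hub (r : Fin 3 → ℕ) (j0 : Fin n) (y : Fin n → Fin 3 → ℕ) (i : Fin 3) :
    toTab r j0 y i j0 = r i - ∑ l ∈ univ.erase j0, y l i := by
  unfold toTab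
  rw [if_pos rfl]

theorem toTab_ne (r : Fin 3 → ℕ) {j0 j : Fin n} (hj : j ≠ j0) (y : Fin n → Fin 3 → ℕ)
    (i : Fin 3) : toTab r j0 y i j = y j i := by
  unfold toTab
  rw [if_neg hj]

/-- the array of a table has column sums `dcol c j0` -/
theorem toArr_cols {r : Fin 3 → ℕ} {c : Fin n → ℕ} (j0 : Fin n) (x : CT 3 n r c) (j : Fin n) :
    ∑ i, toArr j0 x.1 j i = dcol c j0 j := by
  by_cases hj : j = j0
  · rw [hj, dcol_hub]
    exact Finset.sum_eq_zero (fun i _ => toArr_hub j0 x.1 i)
  · rw [dcol_ne c hj, Finset.sum_congr rfl (fun i _ => toArr_ne hj x.1 i)]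
    exact x.2.2 j

/-- the entries of the hub column of an array with column sums `dcol c j0` vanish -/
theorem arr_hub_zero {c : Fin n → ℕ} {j0 : Fin n} (y : CP n (dcol c j0)) (i : Fin 3) :
    y.1 j0 i = 0 := by
  have h := CP_entry_le y j0 i
  rw [dcol_hub] at h
  exact Nat.le_zero.mp h

/-- the part of row `i` outside the hub is at most the column sums outside the hub -/
theorem arr_row_le {c : Fin n → ℕ} {j0 : Fin n} (y : CP n (dcol c j0)) (i : Fin 3) :
    ∑ l ∈ univ.erase j0, y.1 l i ≤ ∑ l ∈ univ.erase j0, c l := by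
  refine Finset.sum_le_sum (fun l hl => ?_)
  have h := CP_entry_le y l i
  rw [dcol_ne c (Finset.ne_of_mem_erase hl)] at h
  exact h

/-- the rows of the table of an array -/
theorem toTab_rows {r : Fin 3 → ℕ} {c : Fin n → ℕ} {j0 : Fin n}
    (h : ∀ i, ∑ j ∈ univ.erase j0, c j ≤ r i) (y : CP n (dcol c j0)) (i : Fin 3) :
    ∑ j, toTab r j0 y.1 i j = r i := by
  have h1 : ∑ j, toTab r j0 y.1 i j
      = toTab r j0 y.1 i j0 + ∑ j ∈ univ.erase j0, toTab r j0 y.1 i j :=
    (Finset.add_sum_erase univ (fun j => toTab r j0 y.1 i j) (Finset.mem_univ j0)).symm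
  have h2 : ∑ j ∈ univ.erase j0, toTab r j0 y.1 i j = ∑ l ∈ univ.erase j0, y.1 l i :=
    Finset.sum_congr rfl (fun j hj => toTab_ne r (Finset.ne_of_mem_erase hj) y.1 i)
  have h3 := arr_row_le y i
  have h4 := h i
  rw [h1, h2, toTab_hub]
  omega

/-- the columns of the table of an array -/
theorem toTab_cols {r : Fin 3 → ℕ} {c : Fin n → ℕ} {j0 : Fin n}
    (h : ∀ i, ∑ j ∈ univ.erase j0, c j ≤ r i) (hsum : ∑ i, r i = ∑ j, c j)
    (y : CP n (dcol c j0)) (j : Fin n) :
    ∑ i, toTab r j0 y.1 i j = c j := by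
  by_cases hj : j = j0
  · rw [hj, Finset.sum_congr rfl (fun i _ => toTab_hub r j0 y.1 i)]
    have hle : ∀ i, ∑ l ∈ univ.erase j0, y.1 l i ≤ r i := fun i => (arr_row_le y i).trans (h i)
    have h1 : ∑ i, (r i - ∑ l ∈ univ.erase j0, y.1 l i) + ∑ i, ∑ l ∈ univ.erase j0, y.1 l i
        = ∑ i, r i := by
      rw [← Finset.sum_add_distrib]
      exact Finset.sum_congr rfl (fun i _ => Nat.sub_add_cancel (hle i))
    have h2 : ∑ i, ∑ l ∈ univ.erase j0, y.1 l i = ∑ l ∈ univ.erase j0, c l := by
      rw [Finset.sum_comm]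
      refine Finset.sum_congr rfl (fun l hl => ?_)
      rw [y.2 l, dcol_ne c (Finset.ne_of_mem_erase hl)]
    have h3 : c j0 + ∑ l ∈ univ.erase j0, c l = ∑ j, c j :=
      Finset.add_sum_erase univ c (Finset.mem_univ j0)
    omega
  · rw [Finset.sum_congr rfl (fun i _ => toTab_ne r hj y.1 i), y.2 j, dcol_ne c hj]

/-- the total of the row sums is the total of the column sums when a table exists -/
theorem sum_margins {r : Fin 3 → ℕ} {c : Fin n → ℕ} (x0 : CT 3 n r c) :
    ∑ i, r i = ∑ j, c j := by
  have h1 : ∑ i, r i = ∑ i, ∑ j, x0.1 i j :=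
    Finset.sum_congr rfl (fun i _ => (x0.2.1 i).symm)
  rw [h1, Finset.sum_comm]
  exact Finset.sum_congr rfl (fun j _ => x0.2.2 j)

/-- **The hub regime is a product.**  If the column sums outside `j0` add up to at most every
row sum (and the totals of the margins agree), the tables with margins `r`, `c` correspond to
the arrays with column sums `c` outside `j0` and no condition on the rows. -/
noncomputable def equivCT (r : Fin 3 → ℕ) (c : Fin n → ℕ) (j0 : Fin n)
    (h : ∀ i, ∑ j ∈ univ.erase j0, c j ≤ r i) (hsum : ∑ i, r i = ∑ j, c j) :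
    CP n (dcol c j0) ≃ CT 3 n r c where
  toFun y := ⟨toTab r j0 y.1, toTab_rows h y, toTab_cols h hsum y⟩
  invFun x := ⟨toArr j0 x.1, toArr_cols j0 x⟩
  left_inv y := by
    apply Subtype.ext
    funext j i
    show toArr j0 (toTab r j0 y.1) j i = y.1 j i
    by_cases hj : j = j0
    · rw [hj, toArr_hub, arr_hub_zero y i]
    · rw [toArr_ne hj, toTab_ne r hj]
  right_inv x := by
    apply Subtype.ext
    funext i j
    show toTab r j0 (toArr j0 x.1) i j = x.1 i j
    by_cases hj : j = j0
    · rw [hj, toTab_hub]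
      have h1 : ∑ l ∈ univ.erase j0, toArr j0 x.1 l i = ∑ l ∈ univ.erase j0, x.1 i l :=
        Finset.sum_congr rfl (fun l hl => toArr_ne (Finset.ne_of_mem_erase hl) x.1 i)
      have h2 : x.1 i j0 + ∑ l ∈ univ.erase j0, x.1 i l = ∑ l, x.1 i l :=
        Finset.add_sum_erase univ (fun l => x.1 i l) (Finset.mem_univ j0)
      have h3 := x.2.1 i
      rw [h1]
      omega
    · rw [toTab_ne r hj, toArr_ne hj]

theorem equivCT_val (r : Fin 3 → ℕ) (c : Fin n → ℕ) (j0 : Fin n)
    (h : ∀ i, ∑ j ∈ univ.erase j0, c j ≤ r i) (hsum : ∑ i, r i = ∑ j, c j)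
    (y : CP n (dcol c j0)) : (equivCT r c j0 h hsum y).1 = toTab r j0 y.1 := rfl

/-- two arrays give tables with the same row `i` exactly when their `i`-th entries agree -/
theorem row_iff (r : Fin 3 → ℕ) (c : Fin n → ℕ) (j0 : Fin n) (i : Fin 3)
    (y y' : CP n (dcol c j0)) :
    toTab r j0 y.1 i = toTab r j0 y'.1 i ↔ (fun j => y.1 j i) = (fun j => y'.1 j i) := by
  constructor
  · intro hrow
    funext j
    by_cases hj : j = j0
    · rw [hj, arr_hub_zero y i, arr_hub_zero y' i]
    · have h1 := congrFun hrow j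
      rw [toTab_ne r hj, toTab_ne r hj] at h1
      exact h1
  · intro hent
    funext j
    by_cases hj : j = j0
    · rw [hj, toTab_hub, toTab_hub,
        Finset.sum_congr rfl (fun l _ => congrFun hent l)]
    · rw [toTab_ne r hj, toTab_ne r hj]
      exact congrFun hent j

end BigRowsCT

open BigRowsCT in
/-- **Three big rows.**  If the column sums outside one column `j0` add up to at most each of
the three row sums, the three-row inequality for the margins `r`, `c` follows from the
three-projection inequality for the arrays `CP n d` (columns of three entries with prescribed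
sums, the three maps being the three rows of entries). -/
theorem threeRow_big_of
    (hCP : ∀ (n : ℕ) (d : Fin n → ℕ),
      ThreeProj (fun (i : Fin 3) (y : CP n d) => fun j => y.1 j i))
    {n : ℕ} (r : Fin 3 → ℕ) (c : Fin n → ℕ) (j0 : Fin n)
    (h : ∀ i, ∑ j ∈ univ.erase j0, c j ≤ r i) (g : CT 3 n r c → ℝ) :
    ∑ q ∈ (univ : Finset (Fin 3)).powersetCard 2, ip g (R q g)
      ≤ 2 * ip g g + ip g (R univ g) := by
  by_cases hne : Nonempty (CT 3 n r c)
  swap
  · have hemp : IsEmpty (CT 3 n r c) := not_nonempty_iff.mp hne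
    have hz : ∀ g1 g2 : CT 3 n r c → ℝ, ip g1 g2 = 0 := by
      intro g1 g2
      unfold ip
      rw [Finset.univ_eq_empty, Finset.sum_empty]
    rw [hz, hz, Finset.sum_eq_zero (fun q _ => hz _ _)]
    norm_num
  obtain ⟨x0⟩ := hne
  have hsum := sum_margins x0
  have key : ThreeProj (fun (k : Fin 3) (x : CT 3 n r c) => x.1 k) := by
    refine threeProj_equiv (equivCT r c j0 h hsum)
      (fun (i : Fin 3) (y : CP n (dcol c j0)) => fun j => y.1 j i)
      (fun (k : Fin 3) (x : CT 3 n r c) => x.1 k) ?_ (hCP n (dcol c j0))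
    intro i y y'
    exact row_iff r c j0 i y y'
  exact (threeRow_iff_threeProj r c).mpr key g

end Vale.Agent.Lib.P328.RP
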