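import Mathlib
import Vale.Agent.Lib.P328.RP.Defs
import Vale.Agent.Lib.P335.helper48.Generic

/-!
P328: from the row-pair heat-bath gap to a bound on the mixing time of the row-pair heat bath
on contingency tables.
-/

namespace Vale.Agent.Lib.P328.RP

open Finset
open Vale.Agent.Lib.P335.Bip
open Vale.Agent.Lib.P335.H48

namespace Mixing

variable {m n : ℕ} {r : Fin m → ℕ} {c : Fin n → ℕ}

theorem self_mem_fibre (p : Finset (Fin m)) (x : CT m n r c) : x ∈ fibre p x :=
  (mem_fibre p x x).mpr (fun _ _ => rfl)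

theorem mem_fibre_comm (p : Finset (Fin m)) (x y : CT m n r c) :
    y ∈ fibre p x ↔ x ∈ fibre p y := by
  rw [mem_fibre, mem_fibre]
  exact ⟨fun h i hi => (h i hi).symm, fun h i hi => (h i hi).symm⟩

theorem fibre_eq_of_mem (p : Finset (Fin m)) {x y : CT m n r c} (h : y ∈ fibre p x) :
    fibre p y = fibre p x := by
  rw [mem_fibre] at h
  ext z
  rw [mem_fibre, mem_fibre]
  exact ⟨fun hz i hi => (hz i hi).trans (h i hi), fun hz i hi => (hz i hi).trans (h i hi).symm⟩

theorem heatBath_symm (x y : CT m n r c) : heatBath m n r c x y = heatBath m n r c y x := by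
  unfold heatBath
  congr 1
  refine Finset.sum_congr rfl (fun p _ => ?_)
  by_cases h : y ∈ fibre p x
  · rw [if_pos h, if_pos ((mem_fibre_comm p x y).mp h), fibre_eq_of_mem p h]
  · rw [if_neg h, if_neg (fun h' => h ((mem_fibre_comm p x y).mpr h'))]

theorem app_heatBath (f : CT m n r c → ℝ) (x : CT m n r c) :
    app (heatBath m n r c) f x
      = (∑ p ∈ (univ : Finset (Fin m)).powersetCard 2, R p f x) / (m.choose 2 : ℝ) := by
  classical
  unfold app heatBath
  simp only [div_mul_eq_mul_div]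
  rw [← Finset.sum_div]
  congr 1
  simp only [Finset.sum_mul]
  rw [Finset.sum_comm]
  refine Finset.sum_congr rfl (fun p _ => ?_)
  rw [R_apply_fibre]
  simp only [ite_mul, zero_mul]
  rw [Finset.sum_ite_mem, Finset.univ_inter, Finset.sum_div]
  refine Finset.sum_congr rfl (fun y _ => ?_)
  ring

theorem R_one (p : Finset (Fin m)) : R p (fun _ : CT m n r c => (1 : ℝ)) = fun _ => (1 : ℝ) :=
  cexp_of_factor _ (fun _ _ _ => rfl)

theorem choose_pos (hm : 2 ≤ m) : (0 : ℝ) < (m.choose 2 : ℝ) := by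
  exact_mod_cast Nat.choose_pos hm

theorem heatBath_row_sum (hm : 2 ≤ m) (x : CT m n r c) : ∑ y, heatBath m n r c x y = 1 := by
  have h1 := app_heatBath (fun _ : CT m n r c => (1 : ℝ)) x
  unfold app at h1
  simp only [mul_one] at h1
  rw [h1]
  simp only [R_one]
  rw [Finset.sum_const, Finset.card_powersetCard, Finset.card_univ, Fintype.card_fin,
    nsmul_eq_mul, mul_one]
  exact div_self (choose_pos hm).ne'

theorem bil_heatBath (f : CT m n r c → ℝ) :
    bil (heatBath m n r c) f f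
      = (∑ p ∈ (univ : Finset (Fin m)).powersetCard 2, ip f (R p f)) / (m.choose 2 : ℝ) := by
  rw [bil_eq]
  simp only [app_heatBath, mul_div_assoc']
  rw [← Finset.sum_div]
  congr 1
  simp only [Finset.mul_sum]
  rw [Finset.sum_comm]
  rfl

theorem bil_heatBath_nonneg (f : CT m n r c → ℝ) : 0 ≤ bil (heatBath m n r c) f f := by
  rw [bil_heatBath]
  exact div_nonneg (Finset.sum_nonneg (fun p _ => ip_cexp_self_nonneg _ f)) (Nat.cast_nonneg _)

theorem bil_heatBath_gap (hm : 2 ≤ m)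
    (hgap : ∀ f : CT m n r c → ℝ, ip f f - ip f (R univ f)
      ≤ ∑ p ∈ (univ : Finset (Fin m)).powersetCard 2, (ip f f - ip f (R p f)))
    (f : CT m n r c → ℝ) (hf : ∑ x, f x = 0) :
    bil (heatBath m n r c) f f ≤ (1 - 1 / (m.choose 2 : ℝ)) * ∑ x, f x ^ 2 := by
  have hC := choose_pos hm
  have hmean : R (univ : Finset (Fin m)) f = 0 := by
    funext x
    rw [R_univ_apply, hf, zero_div]
    rfl
  have h1 := hgap f
  rw [hmean, ip_zero_right, sub_zero, Finset.sum_sub_distrib, Finset.sum_const,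
    Finset.card_powersetCard, Finset.card_univ, Fintype.card_fin, nsmul_eq_mul] at h1
  rw [bil_heatBath, ← ip_eq_sum_sq, div_le_iff₀ hC]
  have h2 : (1 - 1 / (m.choose 2 : ℝ)) * ip f f * (m.choose 2 : ℝ)
      = (m.choose 2 : ℝ) * ip f f - ip f f := by
    field_simp
  rw [h2]
  linarith

/-- Decay of the distance to the uniform distribution, given the gap. -/
theorem l1_decay (hm : 2 ≤ m)
    (hgap : ∀ f : CT m n r c → ℝ, ip f f - ip f (R univ f)
      ≤ ∑ p ∈ (univ : Finset (Fin m)).powersetCard 2, (ip f f - ip f (R p f)))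
    (t : ℕ) (x : CT m n r c) :
    ∑ y, |(heatBath m n r c ^ t) x y - 1 / (Fintype.card (CT m n r c) : ℝ)|
      ≤ Real.sqrt (Fintype.card (CT m n r c)) * (1 - 1 / (m.choose 2 : ℝ)) ^ t := by
  have hC := choose_pos hm
  have hC1 : (1 : ℝ) ≤ (m.choose 2 : ℝ) := by
    exact_mod_cast Nat.choose_pos hm
  refine l1_le_of_poincare (heatBath m n r c) heatBath_symm (heatBath_row_sum hm)
    bil_heatBath_nonneg (1 / (m.choose 2 : ℝ)) ?_ (bil_heatBath_gap hm hgap) t x
  rw [div_le_one hC]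
  exact hC1

theorem card_CT_le : Fintype.card (CT m n r c) ≤ (∑ i, r i + 1) ^ (m * n) := by
  have hinj : Function.Injective (fun x : CT m n r c => fun (i : Fin m) (j : Fin n) =>
      (⟨x.1 i j, Nat.lt_succ_of_le ((entry_le x i j).trans
        (Finset.single_le_sum (f := r) (fun _ _ => Nat.zero_le _) (Finset.mem_univ i)))⟩ :
        Fin (∑ i, r i + 1))) := by
    intro x y h
    apply Subtype.ext
    funext i j
    have h1 := congrFun (congrFun h i) j
    exact Fin.mk.inj h1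
  have h1 := Fintype.card_le_of_injective _ hinj
  rw [Fintype.card_fun, Fintype.card_fun, Fintype.card_fin, Fintype.card_fin, Fintype.card_fin,
    ← pow_mul, mul_comm n m] at h1
  exact h1

end Mixing

open Mixing in
/-- The mixing bound for the row-pair heat bath on `CT m n r c`, given the gap. -/
theorem mixing_of_hgap {m n : ℕ} (hm : 2 ≤ m) (r : Fin m → ℕ) (c : Fin n → ℕ)
    (hgap : ∀ f : CT m n r c → ℝ, ip f f - ip f (R univ f)
      ≤ ∑ p ∈ (univ : Finset (Fin m)).powersetCard 2, (ip f f - ip f (R p f)))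
    (x : CT m n r c) (ε : ℝ) (hε : 0 < ε) (hε1 : ε ≤ 1) (t : ℕ)
    (ht : (m : ℝ) ^ 2 * (m * n * Real.log (((∑ i, r i : ℕ) : ℝ) + 1) + Real.log (1 / ε)) ≤ t) :
    (1 / 2) * ∑ y, |(heatBath m n r c ^ t) x y - 1 / (Fintype.card (CT m n r c) : ℝ)| ≤ ε := by
  have hdecay := l1_decay hm hgap t x
  have hC := choose_pos hm
  have hC1 : (1 : ℝ) ≤ (m.choose 2 : ℝ) := by
    exact_mod_cast Nat.choose_pos hm
  have hCm : (m.choose 2 : ℝ) ≤ (m : ℝ) ^ 2 := by
    exact_mod_cast Nat.choose_le_pow m 2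
  set L : ℝ := Real.log (((∑ i, r i : ℕ) : ℝ) + 1) with hL
  have hN1 : (1 : ℝ) ≤ ((∑ i, r i : ℕ) : ℝ) + 1 := by
    have : (0 : ℝ) ≤ ((∑ i, r i : ℕ) : ℝ) := Nat.cast_nonneg _
    linarith
  have hL0 : 0 ≤ L := Real.log_nonneg hN1
  have hlogε : 0 ≤ Real.log (1 / ε) := by
    apply Real.log_nonneg
    rw [le_div_iff₀ hε]
    linarith
  set X : ℝ := (m : ℝ) * n * L + Real.log (1 / ε) with hX
  have hX0 : 0 ≤ X := by
    have : 0 ≤ (m : ℝ) * n * L := by positivity
    linarith
  -- the number of tables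
  have hcard1 : (1 : ℝ) ≤ (Fintype.card (CT m n r c) : ℝ) := by
    have : 0 < Fintype.card (CT m n r c) := Fintype.card_pos_iff.mpr ⟨x⟩
    exact_mod_cast this
  have hcard : (Fintype.card (CT m n r c) : ℝ) ≤ Real.exp ((m : ℝ) * n * L) := by
    have h1 : (Fintype.card (CT m n r c) : ℝ) ≤ (((∑ i, r i : ℕ) : ℝ) + 1) ^ (m * n) := by
      exact_mod_cast (card_CT_le (m := m) (n := n) (r := r) (c := c))
    refine h1.trans (le_of_eq ?_)
    have h2 : (m : ℝ) * n * L = ((m * n : ℕ) : ℝ) * L := by push_cast; ring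
    rw [h2, Real.exp_nat_mul, hL, Real.exp_log (by linarith)]
  have hsqrt : Real.sqrt (Fintype.card (CT m n r c)) ≤ Real.exp ((m : ℝ) * n * L) := by
    refine le_trans ?_ hcard
    rw [Real.sqrt_le_left (by linarith)]
    nlinarith
  -- the decay factor
  have hbase0 : 0 ≤ 1 - 1 / (m.choose 2 : ℝ) := by
    have : 1 / (m.choose 2 : ℝ) ≤ 1 := by
      rw [div_le_one hC]
      exact hC1
    linarith
  have hpow : (1 - 1 / (m.choose 2 : ℝ)) ^ t ≤ Real.exp (-((t : ℝ) / (m.choose 2 : ℝ))) := by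
    have h1 : (1 - 1 / (m.choose 2 : ℝ)) ^ t ≤ Real.exp (-(1 / (m.choose 2 : ℝ))) ^ t :=
      pow_le_pow_left₀ hbase0 (Real.one_sub_le_exp_neg _) t
    refine h1.trans (le_of_eq ?_)
    rw [← Real.exp_nat_mul]
    congr 1
    ring
  have htC : X ≤ (t : ℝ) / (m.choose 2 : ℝ) := by
    rw [le_div_iff₀ hC]
    have h1 : X * (m.choose 2 : ℝ) ≤ X * (m : ℝ) ^ 2 := mul_le_mul_of_nonneg_left hCm hX0
    have h2 : X * (m : ℝ) ^ 2 = (m : ℝ) ^ 2 * ((m : ℝ) * n * L + Real.log (1 / ε)) := by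
      rw [hX]; ring
    linarith
  have hfin : Real.sqrt (Fintype.card (CT m n r c)) * (1 - 1 / (m.choose 2 : ℝ)) ^ t ≤ ε := by
    calc Real.sqrt (Fintype.card (CT m n r c)) * (1 - 1 / (m.choose 2 : ℝ)) ^ t
        ≤ Real.exp ((m : ℝ) * n * L) * Real.exp (-((t : ℝ) / (m.choose 2 : ℝ))) :=
          mul_le_mul hsqrt hpow (pow_nonneg hbase0 t) (Real.exp_pos _).le
      _ = Real.exp ((m : ℝ) * n * L - (t : ℝ) / (m.choose 2 : ℝ)) := by
          rw [← Real.exp_add]
          congr 1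
      _ ≤ Real.exp (-Real.log (1 / ε)) := by
          apply Real.exp_le_exp.mpr
          rw [hX] at htC
          linarith
      _ = ε := by
          rw [one_div, Real.log_inv, neg_neg, Real.exp_log hε]
  linarith

end Vale.Agent.Lib.P328.RP
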