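import Mathlib
import Vale.Agent.Lib.P328.RP.Defs
import Vale.Agent.Lib.P328.RP.BlockDefs
import Vale.Agent.Lib.P328.RP.Mixing
import Vale.Agent.Lib.P335.helper48.Generic

/-!
P328: from a gap of the heat bath on two-by-two blocks to a bound on its mixing time.
-/

namespace Vale.Agent.Lib.P328.RP

open Finset
open Vale.Agent.Lib.P335.Bip
open Vale.Agent.Lib.P335.H48

namespace Mixing22

variable {m n : ℕ} {r : Fin m → ℕ} {c : Fin n → ℕ}

theorem mem_bfibre_comm (p : Finset (Fin m)) (q : Finset (Fin n)) (x y : CT m n r c) :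
    y ∈ bfibre p q x ↔ x ∈ bfibre p q y := by
  rw [mem_bfibre, mem_bfibre]
  exact ⟨fun h i j hij => (h i j hij).symm, fun h i j hij => (h i j hij).symm⟩

theorem bfibre_eq_of_mem (p : Finset (Fin m)) (q : Finset (Fin n)) {x y : CT m n r c}
    (h : y ∈ bfibre p q x) : bfibre p q y = bfibre p q x := by
  rw [mem_bfibre] at h
  ext z
  rw [mem_bfibre, mem_bfibre]
  exact ⟨fun hz i j hij => (hz i j hij).trans (h i j hij),
    fun hz i j hij => (hz i j hij).trans (h i j hij).symm⟩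

theorem heatBath22_symm (x y : CT m n r c) :
    heatBath22 m n r c x y = heatBath22 m n r c y x := by
  unfold heatBath22
  congr 1
  refine Finset.sum_congr rfl (fun p _ => Finset.sum_congr rfl (fun q _ => ?_))
  by_cases h : y ∈ bfibre p q x
  · rw [if_pos h, if_pos ((mem_bfibre_comm p q x y).mp h), bfibre_eq_of_mem p q h]
  · rw [if_neg h, if_neg (fun h' => h ((mem_bfibre_comm p q x y).mpr h'))]

theorem app_heatBath22 (f : CT m n r c → ℝ) (x : CT m n r c) :
    app (heatBath22 m n r c) f x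
      = (∑ p ∈ (univ : Finset (Fin m)).powersetCard 2,
          ∑ q ∈ (univ : Finset (Fin n)).powersetCard 2, E p q f x) /
        ((m.choose 2 : ℝ) * (n.choose 2 : ℝ)) := by
  classical
  unfold app heatBath22
  simp only [div_mul_eq_mul_div]
  rw [← Finset.sum_div]
  congr 1
  simp only [Finset.sum_mul]
  rw [Finset.sum_comm]
  refine Finset.sum_congr rfl (fun p _ => ?_)
  rw [Finset.sum_comm]
  refine Finset.sum_congr rfl (fun q _ => ?_)
  rw [E_apply_bfibre]
  simp only [ite_mul, zero_mul]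
  rw [Finset.sum_ite_mem, Finset.univ_inter, Finset.sum_div]
  refine Finset.sum_congr rfl (fun y _ => ?_)
  ring

theorem E_one (p : Finset (Fin m)) (q : Finset (Fin n)) :
    E p q (fun _ : CT m n r c => (1 : ℝ)) = fun _ => (1 : ℝ) :=
  cexp_of_factor _ (fun _ _ _ => rfl)

theorem cc_pos (hm : 2 ≤ m) (hn : 2 ≤ n) : (0 : ℝ) < (m.choose 2 : ℝ) * (n.choose 2 : ℝ) :=
  mul_pos (Mixing.choose_pos hm) (Mixing.choose_pos hn)

theorem heatBath22_row_sum (hm : 2 ≤ m) (hn : 2 ≤ n) (x : CT m n r c) :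
    ∑ y, heatBath22 m n r c x y = 1 := by
  have h1 := app_heatBath22 (fun _ : CT m n r c => (1 : ℝ)) x
  unfold app at h1
  simp only [mul_one] at h1
  rw [h1]
  simp only [E_one]
  rw [Finset.sum_const, Finset.sum_const, Finset.card_powersetCard, Finset.card_powersetCard,
    Finset.card_univ, Finset.card_univ, Fintype.card_fin, Fintype.card_fin, nsmul_eq_mul,
    nsmul_eq_mul, mul_one]
  exact div_self (cc_pos hm hn).ne'

theorem bil_heatBath22 (f : CT m n r c → ℝ) :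
    bil (heatBath22 m n r c) f f
      = (∑ p ∈ (univ : Finset (Fin m)).powersetCard 2,
          ∑ q ∈ (univ : Finset (Fin n)).powersetCard 2, ip f (E p q f)) /
        ((m.choose 2 : ℝ) * (n.choose 2 : ℝ)) := by
  rw [bil_eq]
  simp only [app_heatBath22, mul_div_assoc']
  rw [← Finset.sum_div]
  congr 1
  simp only [Finset.mul_sum]
  rw [Finset.sum_comm]
  refine Finset.sum_congr rfl (fun p _ => ?_)
  rw [Finset.sum_comm]
  rfl

theorem bil_heatBath22_nonneg (f : CT m n r c → ℝ) : 0 ≤ bil (heatBath22 m n r c) f f := by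
  rw [bil_heatBath22]
  exact div_nonneg
    (Finset.sum_nonneg (fun p _ => Finset.sum_nonneg (fun q _ => ip_E_nonneg p q f)))
    (mul_nonneg (Nat.cast_nonneg _) (Nat.cast_nonneg _))

theorem bil_heatBath22_gap (hm : 2 ≤ m) (hn : 2 ≤ n) (κ : ℝ)
    (hgap : ∀ f : CT m n r c → ℝ, κ * (ip f f - ip f (R univ f))
      ≤ ∑ p ∈ (univ : Finset (Fin m)).powersetCard 2,
          ∑ q ∈ (univ : Finset (Fin n)).powersetCard 2, (ip f f - ip f (E p q f)))
    (f : CT m n r c → ℝ) (hf : ∑ x, f x = 0) :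
    bil (heatBath22 m n r c) f f
      ≤ (1 - κ / ((m.choose 2 : ℝ) * (n.choose 2 : ℝ))) * ∑ x, f x ^ 2 := by
  have hC := cc_pos hm hn
  have hmean : R (univ : Finset (Fin m)) f = 0 := by
    funext x
    rw [R_univ_apply, hf, zero_div]
    rfl
  have h1 := hgap f
  have h2 : ∑ p ∈ (univ : Finset (Fin m)).powersetCard 2,
      ∑ q ∈ (univ : Finset (Fin n)).powersetCard 2, (ip f f - ip f (E p q f))
      = (m.choose 2 : ℝ) * (n.choose 2 : ℝ) * ip f f
        - ∑ p ∈ (univ : Finset (Fin m)).powersetCard 2,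
          ∑ q ∈ (univ : Finset (Fin n)).powersetCard 2, ip f (E p q f) := by
    simp only [Finset.sum_sub_distrib, Finset.sum_const, Finset.card_powersetCard,
      Finset.card_univ, Fintype.card_fin, nsmul_eq_mul]
    ring
  rw [hmean, ip_zero_right, sub_zero, h2] at h1
  rw [bil_heatBath22, ← ip_eq_sum_sq, div_le_iff₀ hC]
  have h3 : (1 - κ / ((m.choose 2 : ℝ) * (n.choose 2 : ℝ))) * ip f f *
      ((m.choose 2 : ℝ) * (n.choose 2 : ℝ))
      = (m.choose 2 : ℝ) * (n.choose 2 : ℝ) * ip f f - κ * ip f f := by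
    have e : κ / ((m.choose 2 : ℝ) * (n.choose 2 : ℝ)) * ((m.choose 2 : ℝ) * (n.choose 2 : ℝ))
        = κ := div_mul_cancel₀ κ hC.ne'
    calc (1 - κ / ((m.choose 2 : ℝ) * (n.choose 2 : ℝ))) * ip f f *
          ((m.choose 2 : ℝ) * (n.choose 2 : ℝ))
        = (m.choose 2 : ℝ) * (n.choose 2 : ℝ) * ip f f
          - κ / ((m.choose 2 : ℝ) * (n.choose 2 : ℝ)) * ((m.choose 2 : ℝ) * (n.choose 2 : ℝ))
            * ip f f := by ring
      _ = (m.choose 2 : ℝ) * (n.choose 2 : ℝ) * ip f f - κ * ip f f := by rw [e]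
  rw [h3]
  linarith

end Mixing22

open Mixing22 in
/-- Decay of the distance to the uniform distribution for the heat bath on two-by-two blocks,
given a gap with constant `κ`. -/
theorem l1_decay22 {m n : ℕ} (hm : 2 ≤ m) (hn : 2 ≤ n) (r : Fin m → ℕ) (c : Fin n → ℕ) (κ : ℝ)
    (hκ : κ ≤ (m.choose 2 : ℝ) * (n.choose 2 : ℝ))
    (hgap : ∀ f : CT m n r c → ℝ, κ * (ip f f - ip f (R univ f))
      ≤ ∑ p ∈ (univ : Finset (Fin m)).powersetCard 2,
          ∑ q ∈ (univ : Finset (Fin n)).powersetCard 2, (ip f f - ip f (E p q f)))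
    (t : ℕ) (x : CT m n r c) :
    ∑ y, |(heatBath22 m n r c ^ t) x y - 1 / (Fintype.card (CT m n r c) : ℝ)|
      ≤ Real.sqrt (Fintype.card (CT m n r c)) *
        (1 - κ / ((m.choose 2 : ℝ) * (n.choose 2 : ℝ))) ^ t := by
  have hC := cc_pos hm hn
  refine l1_le_of_poincare (heatBath22 m n r c) heatBath22_symm (heatBath22_row_sum hm hn)
    bil_heatBath22_nonneg (κ / ((m.choose 2 : ℝ) * (n.choose 2 : ℝ))) ?_
    (bil_heatBath22_gap hm hn κ hgap) t x
  rw [div_le_one hC]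
  exact hκ

open Mixing Mixing22 in
/-- The mixing bound for the heat bath on two-by-two blocks of `CT m n r c`, given a gap with
constant `κ` in `(0, 1]`. -/
theorem mixing22_of_gap {m n : ℕ} (hm : 2 ≤ m) (hn : 2 ≤ n) (r : Fin m → ℕ) (c : Fin n → ℕ)
    (κ : ℝ) (hκ0 : 0 < κ) (hκ1 : κ ≤ 1)
    (hgap : ∀ f : CT m n r c → ℝ, κ * (ip f f - ip f (R univ f))
      ≤ ∑ p ∈ (univ : Finset (Fin m)).powersetCard 2,
          ∑ q ∈ (univ : Finset (Fin n)).powersetCard 2, (ip f f - ip f (E p q f)))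
    (x : CT m n r c) (ε : ℝ) (hε : 0 < ε) (hε1 : ε ≤ 1) (t : ℕ)
    (ht : (m : ℝ) ^ 2 * (n : ℝ) ^ 2 / κ *
      (m * n * Real.log (((∑ i, r i : ℕ) : ℝ) + 1) + Real.log (1 / ε)) ≤ t) :
    (1 / 2) * ∑ y, |(heatBath22 m n r c ^ t) x y - 1 / (Fintype.card (CT m n r c) : ℝ)| ≤ ε := by
  have hC := cc_pos hm hn
  have hCm1 : (1 : ℝ) ≤ (m.choose 2 : ℝ) := by
    exact_mod_cast Nat.choose_pos hm
  have hCn1 : (1 : ℝ) ≤ (n.choose 2 : ℝ) := by
    exact_mod_cast Nat.choose_pos hn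
  have hCC1 : (1 : ℝ) ≤ (m.choose 2 : ℝ) * (n.choose 2 : ℝ) := by nlinarith
  have hdecay := l1_decay22 hm hn r c κ (hκ1.trans hCC1) hgap t x
  have hCm : (m.choose 2 : ℝ) ≤ (m : ℝ) ^ 2 := by
    exact_mod_cast Nat.choose_le_pow m 2
  have hCn : (n.choose 2 : ℝ) ≤ (n : ℝ) ^ 2 := by
    exact_mod_cast Nat.choose_le_pow n 2
  have hCC : (m.choose 2 : ℝ) * (n.choose 2 : ℝ) ≤ (m : ℝ) ^ 2 * (n : ℝ) ^ 2 :=
    mul_le_mul hCm hCn (by linarith) (by positivity)
  set CC : ℝ := (m.choose 2 : ℝ) * (n.choose 2 : ℝ) with hCCdef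
  set L : ℝ := Real.log (((∑ i, r i : ℕ) : ℝ) + 1) with hL
  have hN1 : (1 : ℝ) ≤ ((∑ i, r i : ℕ) : ℝ) + 1 := by
    have : (0 : ℝ) ≤ ((∑ i, r i : ℕ) : ℝ) := Nat.cast_nonneg _
    linarith
  have hL0 : 0 ≤ L := Real.log_nonneg hN1
  have hlogε : 0 ≤ Real.log (1 / ε) := by
    apply Real.log_nonneg
    rw [le_div_iff₀ hε]
    linarith
  set X : ℝ := (m : ℝ) * n * L + Real.log (1 / ε) with hX
  have hX0 : 0 ≤ X := by
    have : 0 ≤ (m : ℝ) * n * L := by positivity
    linarith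
  have hcard1 : (1 : ℝ) ≤ (Fintype.card (CT m n r c) : ℝ) := by
    have : 0 < Fintype.card (CT m n r c) := Fintype.card_pos_iff.mpr ⟨x⟩
    exact_mod_cast this
  have hcard : (Fintype.card (CT m n r c) : ℝ) ≤ Real.exp ((m : ℝ) * n * L) := by
    have h1 : (Fintype.card (CT m n r c) : ℝ) ≤ (((∑ i, r i : ℕ) : ℝ) + 1) ^ (m * n) := by
      exact_mod_cast (card_CT_le (m := m) (n := n) (r := r) (c := c))
    refine h1.trans (le_of_eq ?_)
    have h2 : (m : ℝ) * n * L = ((m * n : ℕ) : ℝ) * L := by push_cast; ring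
    rw [h2, Real.exp_nat_mul, hL, Real.exp_log (by linarith)]
  have hsqrt : Real.sqrt (Fintype.card (CT m n r c)) ≤ Real.exp ((m : ℝ) * n * L) := by
    refine le_trans ?_ hcard
    rw [Real.sqrt_le_left (by linarith)]
    nlinarith
  have hγ1 : κ / CC ≤ 1 := by
    rw [div_le_one hC]
    exact hκ1.trans hCC1
  have hbase0 : 0 ≤ 1 - κ / CC := by linarith
  have hpow : (1 - κ / CC) ^ t ≤ Real.exp (-((t : ℝ) * (κ / CC))) := by
    have h1 : (1 - κ / CC) ^ t ≤ Real.exp (-(κ / CC)) ^ t :=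
      pow_le_pow_left₀ hbase0 (Real.one_sub_le_exp_neg _) t
    refine h1.trans (le_of_eq ?_)
    rw [← Real.exp_nat_mul]
    congr 1
    ring
  have htC : X ≤ (t : ℝ) * (κ / CC) := by
    have h1 : (m : ℝ) ^ 2 * (n : ℝ) ^ 2 / κ * X ≤ t := ht
    have h2 : CC / κ * X ≤ (m : ℝ) ^ 2 * (n : ℝ) ^ 2 / κ * X := by
      apply mul_le_mul_of_nonneg_right _ hX0
      exact div_le_div_of_nonneg_right hCC hκ0.le
    have h3 : CC / κ * X ≤ t := h2.trans h1
    have h4 : X = CC / κ * X * (κ / CC) := by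
      field_simp
    rw [h4]
    exact mul_le_mul_of_nonneg_right h3 (div_nonneg hκ0.le hC.le)
  have hfin : Real.sqrt (Fintype.card (CT m n r c)) * (1 - κ / CC) ^ t ≤ ε := by
    calc Real.sqrt (Fintype.card (CT m n r c)) * (1 - κ / CC) ^ t
        ≤ Real.exp ((m : ℝ) * n * L) * Real.exp (-((t : ℝ) * (κ / CC))) :=
          mul_le_mul hsqrt hpow (pow_nonneg hbase0 t) (Real.exp_pos _).le
      _ = Real.exp ((m : ℝ) * n * L - (t : ℝ) * (κ / CC)) := by
          rw [← Real.exp_add]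
          congr 1
      _ ≤ Real.exp (-Real.log (1 / ε)) := by
          apply Real.exp_le_exp.mpr
          rw [hX] at htC
          linarith
      _ = ε := by
          rw [one_div, Real.log_inv, neg_neg, Real.exp_log hε]
  linarith

end Vale.Agent.Lib.P328.RP
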