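import Mathlib
import Vale.Agent.Lib.P328.RP.Defs
import Vale.Agent.Lib.P328.RP.BlockDefs

/-!
P328: block inequalities transfer from `k × n` tables to `k` rows of `m × n` tables.

For an injection `φ : Fin k ↪ Fin m`, the class of the `m × n` tables that agree with a given
table `x0` outside the rows in the range of `φ` is the image of an injective map `iota φ x0`
from the `k × n` tables with row sums `r ∘ φ` and column sums `j ↦ ∑ a, x0 (φ a) j`.
Resampling the block `(P.map φ) × Q` of `iota φ x0 z` is resampling the block `P × Q` of `z`,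
so every linear inequality between the quadratic forms of block resamplings that holds for all
`k × n` margins holds inside the rows `φ a` of every `m × n` system.
-/

namespace Vale.Agent.Lib.P328.RP

open Finset
open Vale.Agent.Lib.P335.Bip

namespace BlockTransfer

section transfer

variable {m n k : ℕ}

/-- restriction of an array to the rows `φ a` -/
def res (φ : Fin k ↪ Fin m) (x : Fin m → Fin n → ℕ) : Fin k → Fin n → ℕ := fun a => x (φ a)

/-- the array with rows `z a` at `φ a` and the rows of `x0` elsewhere -/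
noncomputable def emb (φ : Fin k ↪ Fin m) (x0 : Fin m → Fin n → ℕ) (z : Fin k → Fin n → ℕ) :
    Fin m → Fin n → ℕ :=
  fun i => if h : ∃ a, φ a = i then z h.choose else x0 i

lemma emb_apply_emb (φ : Fin k ↪ Fin m) (x0 : Fin m → Fin n → ℕ) (z : Fin k → Fin n → ℕ)
    (a : Fin k) : emb φ x0 z (φ a) = z a := by
  have h : ∃ b, φ b = φ a := ⟨a, rfl⟩
  unfold emb
  rw [dif_pos h]
  congr 1
  exact φ.injective h.choose_spec

lemma mem_univ_map_iff (φ : Fin k ↪ Fin m) (i : Fin m) :
    i ∈ (univ : Finset (Fin k)).map φ ↔ ∃ a, φ a = i := by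
  simp only [mem_map, mem_univ, true_and]

lemma emb_apply_of_not (φ : Fin k ↪ Fin m) (x0 : Fin m → Fin n → ℕ) (z : Fin k → Fin n → ℕ)
    {i : Fin m} (hi : i ∉ (univ : Finset (Fin k)).map φ) : emb φ x0 z i = x0 i := by
  have h : ¬ ∃ a, φ a = i := fun h' => hi ((mem_univ_map_iff φ i).mpr h')
  unfold emb
  rw [dif_neg h]

lemma res_emb (φ : Fin k ↪ Fin m) (x0 : Fin m → Fin n → ℕ) (z : Fin k → Fin n → ℕ) :
    res φ (emb φ x0 z) = z := by
  funext a
  exact emb_apply_emb φ x0 z a

/-- a column sum splits into the rows in the range of `φ` and the other rows -/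
lemma colSum_split (φ : Fin k ↪ Fin m) (x : Fin m → Fin n → ℕ) (j : Fin n) :
    ∑ i, x i j = ∑ a, x (φ a) j
      + ∑ i ∈ univ.filter (fun i => i ∉ (univ : Finset (Fin k)).map φ), x i j := by
  have h1 : ∑ a, x (φ a) j
      = ∑ i ∈ univ.filter (fun i => i ∈ (univ : Finset (Fin k)).map φ), x i j := by
    rw [← Finset.sum_map (univ : Finset (Fin k)) φ (fun i => x i j)]
    refine Finset.sum_congr ?_ (fun _ _ => rfl)
    ext i
    simp only [mem_filter, mem_univ, true_and]
  rw [h1]
  exact (Finset.sum_filter_add_sum_filter_not univ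
    (fun i => i ∈ (univ : Finset (Fin k)).map φ) (fun i => x i j)).symm

variable {r : Fin m → ℕ} {c : Fin n → ℕ}

lemma emb_rows (φ : Fin k ↪ Fin m) (x0 : CT m n r c)
    (z : CT k n (r ∘ φ) (fun j => ∑ a, x0.1 (φ a) j)) (i : Fin m) :
    ∑ j, emb φ x0.1 z.1 i j = r i := by
  by_cases h : i ∈ (univ : Finset (Fin k)).map φ
  · obtain ⟨a, rfl⟩ := (mem_univ_map_iff φ i).mp h
    rw [emb_apply_emb]
    exact z.2.1 a
  · rw [emb_apply_of_not φ x0.1 z.1 h]
    exact x0.2.1 i

lemma emb_cols (φ : Fin k ↪ Fin m) (x0 : CT m n r c)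
    (z : CT k n (r ∘ φ) (fun j => ∑ a, x0.1 (φ a) j)) (j : Fin n) :
    ∑ i, emb φ x0.1 z.1 i j = c j := by
  have h3 : ∑ i ∈ univ.filter (fun i => i ∉ (univ : Finset (Fin k)).map φ),
        emb φ x0.1 z.1 i j
      = ∑ i ∈ univ.filter (fun i => i ∉ (univ : Finset (Fin k)).map φ), x0.1 i j := by
    refine Finset.sum_congr rfl (fun i hi => ?_)
    rw [emb_apply_of_not φ x0.1 z.1 (mem_filter.mp hi).2]
  have h4 : ∑ a, emb φ x0.1 z.1 (φ a) j = ∑ a, x0.1 (φ a) j := by
    have h5 : ∑ a, emb φ x0.1 z.1 (φ a) j = ∑ a, z.1 a j :=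
      Finset.sum_congr rfl (fun a _ => by rw [emb_apply_emb])
    rw [h5]
    exact z.2.2 j
  have h1 := colSum_split φ (emb φ x0.1 z.1) j
  have h2 := colSum_split φ x0.1 j
  rw [h4, h3] at h1
  rw [x0.2.2 j] at h2
  rw [h1, h2]

/-- the embedding of the `k`-row system into the class of `x0` -/
noncomputable def iota (φ : Fin k ↪ Fin m) (x0 : CT m n r c)
    (z : CT k n (r ∘ φ) (fun j => ∑ a, x0.1 (φ a) j)) : CT m n r c :=
  ⟨emb φ x0.1 z.1, emb_rows φ x0 z, emb_cols φ x0 z⟩

lemma iota_val (φ : Fin k ↪ Fin m) (x0 : CT m n r c)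
    (z : CT k n (r ∘ φ) (fun j => ∑ a, x0.1 (φ a) j)) :
    (iota φ x0 z).1 = emb φ x0.1 z.1 := rfl

lemma iota_injective (φ : Fin k ↪ Fin m) (x0 : CT m n r c) :
    Function.Injective (iota φ x0) := by
  intro z z' h
  apply Subtype.ext
  have h1 := congrArg (fun y : CT m n r c => res φ y.1) h
  simp only [iota_val, res_emb] at h1
  exact h1

lemma iota_agree (φ : Fin k ↪ Fin m) (x0 : CT m n r c)
    (z : CT k n (r ∘ φ) (fun j => ∑ a, x0.1 (φ a) j)) {i : Fin m}
    (hi : i ∉ (univ : Finset (Fin k)).map φ) : (iota φ x0 z).1 i = x0.1 i :=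
  emb_apply_of_not φ x0.1 z.1 hi

lemma exists_iota_eq (φ : Fin k ↪ Fin m) (x0 y : CT m n r c)
    (h : ∀ i, i ∉ (univ : Finset (Fin k)).map φ → y.1 i = x0.1 i) :
    ∃ z, iota φ x0 z = y := by
  have hcols : ∀ j, ∑ a, y.1 (φ a) j = ∑ a, x0.1 (φ a) j := by
    intro j
    have h1 := colSum_split φ y.1 j
    have h2 := colSum_split φ x0.1 j
    rw [y.2.2 j] at h1
    rw [x0.2.2 j] at h2
    have h3 : ∑ i ∈ univ.filter (fun i => i ∉ (univ : Finset (Fin k)).map φ), y.1 i j
        = ∑ i ∈ univ.filter (fun i => i ∉ (univ : Finset (Fin k)).map φ), x0.1 i j := by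
      refine Finset.sum_congr rfl (fun i hi => ?_)
      rw [h i (mem_filter.mp hi).2]
    rw [h3] at h1
    omega
  refine ⟨⟨res φ y.1, fun a => y.2.1 (φ a), hcols⟩, ?_⟩
  apply Subtype.ext
  funext i
  by_cases hi : i ∈ (univ : Finset (Fin k)).map φ
  · obtain ⟨a, rfl⟩ := (mem_univ_map_iff φ i).mp hi
    rw [iota_val, emb_apply_emb]
    rfl
  · rw [iota_val, emb_apply_of_not φ x0.1 _ hi, h i hi]

lemma class_eq_image (φ : Fin k ↪ Fin m) (x0 : CT m n r c) :
    univ.filter (fun y : CT m n r c =>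
        mask ((univ : Finset (Fin k)).map φ) y.1 = mask ((univ : Finset (Fin k)).map φ) x0.1)
      = univ.image (iota φ x0) := by
  ext y
  simp only [mem_filter, mem_univ, true_and, mem_image]
  rw [mask_eq_iff]
  constructor
  · intro h
    exact exists_iota_eq φ x0 y h
  · rintro ⟨z, rfl⟩ i hi
    exact iota_agree φ x0 z hi

lemma sum_class (φ : Fin k ↪ Fin m) (x0 : CT m n r c) (G : CT m n r c → ℝ) :
    ∑ y ∈ univ.filter (fun y : CT m n r c =>
        mask ((univ : Finset (Fin k)).map φ) y.1 = mask ((univ : Finset (Fin k)).map φ) x0.1),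
      G y = ∑ z, G (iota φ x0 z) := by
  rw [class_eq_image, Finset.sum_image]
  intro z _ z' _ h
  exact iota_injective φ x0 h

/-- block version: two tables of the class have the same entries outside the block
`(p.map φ) × q` exactly when their preimages have the same entries outside `p × q` -/
lemma bmask_iota_iff (φ : Fin k ↪ Fin m) (x0 : CT m n r c) (p : Finset (Fin k))
    (q : Finset (Fin n)) (z z' : CT k n (r ∘ φ) (fun j => ∑ a, x0.1 (φ a) j)) :
    bmask (p.map φ) q (iota φ x0 z').1 = bmask (p.map φ) q (iota φ x0 z).1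
      ↔ bmask p q z'.1 = bmask p q z.1 := by
  rw [bmask_eq_iff, bmask_eq_iff]
  constructor
  · intro h a j haj
    have h1 := h (φ a) j (fun hq => haj ⟨(mem_map' φ).mp hq.1, hq.2⟩)
    rw [iota_val, iota_val, emb_apply_emb, emb_apply_emb] at h1
    exact h1
  · intro h i j hij
    by_cases hi' : i ∈ (univ : Finset (Fin k)).map φ
    · obtain ⟨a, rfl⟩ := (mem_univ_map_iff φ i).mp hi'
      rw [iota_val, iota_val, emb_apply_emb, emb_apply_emb]
      exact h a j (fun ha => hij ⟨mem_map_of_mem φ ha.1, ha.2⟩)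
    · rw [iota_agree φ x0 z' hi', iota_agree φ x0 z hi']

lemma bfibre_iota (φ : Fin k ↪ Fin m) (x0 : CT m n r c) (p : Finset (Fin k))
    (q : Finset (Fin n)) (z : CT k n (r ∘ φ) (fun j => ∑ a, x0.1 (φ a) j)) :
    univ.filter (fun y : CT m n r c =>
        bmask (p.map φ) q y.1 = bmask (p.map φ) q (iota φ x0 z).1)
      = (univ.filter (fun z' : CT k n (r ∘ φ) (fun j => ∑ a, x0.1 (φ a) j) =>
          bmask p q z'.1 = bmask p q z.1)).image (iota φ x0) := by
  ext y
  simp only [mem_filter, mem_univ, true_and, mem_image]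
  constructor
  · intro h
    have h1 : ∀ i, i ∉ (univ : Finset (Fin k)).map φ → y.1 i = x0.1 i := by
      intro i hi
      funext j
      have h2 := (bmask_eq_iff _ _ _ _).mp h i j
        (fun hq => hi (map_subset_map.mpr (subset_univ p) hq.1))
      rw [h2, iota_agree φ x0 z hi]
    obtain ⟨z', rfl⟩ := exists_iota_eq φ x0 y h1
    exact ⟨z', (bmask_iota_iff φ x0 p q z z').mp h, rfl⟩
  · rintro ⟨z', hz', rfl⟩
    exact (bmask_iota_iff φ x0 p q z z').mpr hz'

lemma E_iota (φ : Fin k ↪ Fin m) (x0 : CT m n r c) (p : Finset (Fin k)) (q : Finset (Fin n))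
    (f : CT m n r c → ℝ) (z : CT k n (r ∘ φ) (fun j => ∑ a, x0.1 (φ a) j)) :
    E (p.map φ) q f (iota φ x0 z) = E p q (fun z' => f (iota φ x0 z')) z := by
  rw [E_apply, E_apply, bfibre_iota, Finset.sum_image,
    Finset.card_image_of_injective _ (iota_injective φ x0)]
  intro a _ b _ h
  exact iota_injective φ x0 h

/-- an inequality between sums over the whole system follows from the inequalities between the
sums over each class of tables with the same rows outside `T` -/
lemma sum_le_sum_of_classes (T : Finset (Fin m)) (H1 H2 : CT m n r c → ℝ)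
    (h : ∀ x0 : CT m n r c,
      ∑ y ∈ univ.filter (fun y : CT m n r c => mask T y.1 = mask T x0.1), H1 y
        ≤ ∑ y ∈ univ.filter (fun y : CT m n r c => mask T y.1 = mask T x0.1), H2 y) :
    ∑ x, H1 x ≤ ∑ x, H2 x := by
  have hmaps : ∀ x ∈ (univ : Finset (CT m n r c)),
      mask T x.1 ∈ univ.image (fun x : CT m n r c => mask T x.1) :=
    fun x _ => mem_image_of_mem _ (mem_univ x)
  rw [← Finset.sum_fiberwise_of_maps_to hmaps H1, ← Finset.sum_fiberwise_of_maps_to hmaps H2]
  apply Finset.sum_le_sum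
  intro μ hμ
  obtain ⟨x0, -, rfl⟩ := mem_image.mp hμ
  exact h x0

end transfer

end BlockTransfer

open BlockTransfer

/-- **Transfer of block inequalities.**  Every linear inequality between the quadratic forms
of block resamplings that holds on all `k × n` tables (all margins) holds, inside the `k` rows
`φ a`, on all `m × n` tables. -/
theorem block_transfer {k n : ℕ} {ι : Type*} (s : Finset ι) (a : ι → ℝ)
    (P : ι → Finset (Fin k)) (Q : ι → Finset (Fin n)) (b : ℝ)
    (h : ∀ (r : Fin k → ℕ) (c : Fin n → ℕ) (g : CT k n r c → ℝ),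
      ∑ α ∈ s, a α * ip g (E (P α) (Q α) g) ≤ b * ip g g)
    {m : ℕ} {r : Fin m → ℕ} {c : Fin n → ℕ} (φ : Fin k ↪ Fin m) (f : CT m n r c → ℝ) :
    ∑ α ∈ s, a α * ip f (E ((P α).map φ) (Q α) f) ≤ b * ip f f := by
  have hL : ∑ α ∈ s, a α * ip f (E ((P α).map φ) (Q α) f)
      = ∑ x, ∑ α ∈ s, a α * (f x * E ((P α).map φ) (Q α) f x) := by
    unfold ip
    rw [Finset.sum_comm]
    refine Finset.sum_congr rfl (fun α _ => ?_)
    rw [Finset.mul_sum]
  have hR : b * ip f f = ∑ x, b * (f x * f x) := by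
    unfold ip
    rw [Finset.mul_sum]
  rw [hL, hR]
  apply sum_le_sum_of_classes ((univ : Finset (Fin k)).map φ)
  intro x0
  rw [sum_class, sum_class]
  have key := h (r ∘ φ) (fun j => ∑ a, x0.1 (φ a) j) (fun z => f (iota φ x0 z))
  have hLk : ∑ α ∈ s, a α * ip (fun z => f (iota φ x0 z))
        (E (P α) (Q α) (fun z => f (iota φ x0 z)))
      = ∑ z, ∑ α ∈ s, a α * (f (iota φ x0 z) * E ((P α).map φ) (Q α) f (iota φ x0 z)) := by
    unfold ip
    rw [Finset.sum_comm]
    refine Finset.sum_congr rfl (fun α _ => ?_)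
    rw [Finset.mul_sum]
    refine Finset.sum_congr rfl (fun z _ => ?_)
    rw [E_iota]
  have hRk : b * ip (fun z => f (iota φ x0 z)) (fun z => f (iota φ x0 z))
      = ∑ z, b * (f (iota φ x0 z) * f (iota φ x0 z)) := by
    unfold ip
    rw [Finset.mul_sum]
  rw [← hLk, ← hRk]
  exact key

end Vale.Agent.Lib.P328.RP
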