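import Mathlib
import Vale.Agent.Lib.P328.RP.Defs

/-!
Resamplings of disjoint row sets commute: for disjoint row sets `p`, `q` of the contingency
tables `CT m n r c` one has `R p ∘ R q = R q ∘ R p`.
-/

namespace Vale.Agent.Lib.P328.RP

open Finset
open Vale.Agent.Lib.P335.Bip

variable {m n : ℕ} {r : Fin m → ℕ} {c : Fin n → ℕ}

namespace Commute

/-- The table with the rows in `q` taken from `z` and all other rows taken from `y`. -/
def mrg (q : Finset (Fin m)) (y z : Fin m → Fin n → ℕ) : Fin m → Fin n → ℕ :=
  fun i => if i ∈ q then z i else y i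

/-- Merging keeps the margins: if `y` agrees with `x` outside `p` and `z` agrees with `x` outside
`q`, `p` and `q` disjoint, then the merged table has the same margins. -/
theorem mrg_mem {p q : Finset (Fin m)} (hd : Disjoint p q) (x y z : CT m n r c)
    (hy : mask p y.1 = mask p x.1) (hz : mask q z.1 = mask q x.1) :
    (∀ i, ∑ j, mrg q y.1 z.1 i j = r i) ∧ ∀ j, ∑ i, mrg q y.1 z.1 i j = c j := by
  rw [mask_eq_iff] at hy hz
  constructor
  · intro i
    unfold mrg
    split_ifs
    · exact z.2.1 i
    · exact y.2.1 i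
  · intro j
    have hx := x.2.2 j
    have hyc := y.2.2 j
    have hzc := z.2.2 j
    have key : ∑ i, mrg q y.1 z.1 i j + ∑ i, x.1 i j = ∑ i, z.1 i j + ∑ i, y.1 i j := by
      rw [← Finset.sum_add_distrib, ← Finset.sum_add_distrib]
      apply Finset.sum_congr rfl
      intro i _
      by_cases hi : i ∈ q
      · have hip : i ∉ p := fun h => (Finset.disjoint_left.mp hd h) hi
        simp only [mrg, hi, if_true]
        rw [hy i hip]
      · simp only [mrg, hi, if_false]
        rw [hz i hi, add_comm]
    omega

/-- The merged table as an element of `CT` (junk value `y` if the margins are wrong). -/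
noncomputable def mg (q : Finset (Fin m)) (y z : CT m n r c) : CT m n r c :=
  if h : (∀ i, ∑ j, mrg q y.1 z.1 i j = r i) ∧ ∀ j, ∑ i, mrg q y.1 z.1 i j = c j then
    ⟨mrg q y.1 z.1, h⟩ else y

theorem mg_val {p q : Finset (Fin m)} (hd : Disjoint p q) (x y z : CT m n r c)
    (hy : mask p y.1 = mask p x.1) (hz : mask q z.1 = mask q x.1) :
    (mg q y z).1 = mrg q y.1 z.1 := by
  unfold mg
  rw [dif_pos (mrg_mem hd x y z hy hz)]

/-- Sum over the `q`-fibre through `y`, re-indexed by the `q`-fibre through `x`, when `y` lies in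
the `p`-fibre of `x`. -/
theorem fibre_sum {p q : Finset (Fin m)} (hd : Disjoint p q) (x y : CT m n r c)
    (hy : mask p y.1 = mask p x.1) (F : CT m n r c → ℝ) :
    ∑ w ∈ univ.filter (fun w : CT m n r c => mask q w.1 = mask q y.1), F w
      = ∑ z ∈ univ.filter (fun z : CT m n r c => mask q z.1 = mask q x.1), F (mg q y z) := by
  have hy' := (mask_eq_iff p y.1 x.1).mp hy
  apply Finset.sum_nbij' (fun w => mg p w x) (fun z => mg q y z)
  · intro w hw
    rw [mem_filter] at hw ⊢
    refine ⟨mem_univ _, ?_⟩
    have hw' := (mask_eq_iff q w.1 y.1).mp hw.2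
    rw [mg_val hd.symm y w x hw.2 hy.symm, mask_eq_iff]
    intro i hi
    unfold mrg
    split_ifs with hip
    · rfl
    · rw [hw' i hi, hy' i hip]
  · intro z hz
    rw [mem_filter] at hz ⊢
    refine ⟨mem_univ _, ?_⟩
    rw [mg_val hd x y z hy hz.2, mask_eq_iff]
    intro i hi
    unfold mrg
    rw [if_neg hi]
  · intro w hw
    rw [mem_filter] at hw
    have hw' := (mask_eq_iff q w.1 y.1).mp hw.2
    have hval : (mg p w x).1 = mrg p w.1 x.1 := mg_val hd.symm y w x hw.2 hy.symm
    have hz : mask q (mg p w x).1 = mask q x.1 := by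
      rw [hval, mask_eq_iff]
      intro i hi
      unfold mrg
      split_ifs with hip
      · rfl
      · rw [hw' i hi, hy' i hip]
    apply Subtype.ext
    rw [mg_val hd x y (mg p w x) hy hz, hval]
    funext i
    unfold mrg
    by_cases hi : i ∈ q
    · have hip : i ∉ p := fun h => (Finset.disjoint_left.mp hd h) hi
      rw [if_pos hi, if_neg hip]
    · rw [if_neg hi, hw' i hi]
  · intro z hz
    rw [mem_filter] at hz
    have hz' := (mask_eq_iff q z.1 x.1).mp hz.2
    have hval : (mg q y z).1 = mrg q y.1 z.1 := mg_val hd x y z hy hz.2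
    have hw : mask q (mg q y z).1 = mask q y.1 := by
      rw [hval, mask_eq_iff]
      intro i hi
      unfold mrg
      rw [if_neg hi]
    apply Subtype.ext
    rw [mg_val hd.symm y (mg q y z) x hw hy.symm, hval]
    funext i
    unfold mrg
    by_cases hip : i ∈ p
    · have hi : i ∉ q := fun h => (Finset.disjoint_left.mp hd hip) h
      rw [if_pos hip, hz' i hi]
    · rw [if_neg hip]
      by_cases hi : i ∈ q
      · rw [if_pos hi]
      · rw [if_neg hi, hy' i hip, hz' i hi]
  · intro w hw
    rw [mem_filter] at hw
    have hw' := (mask_eq_iff q w.1 y.1).mp hw.2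
    have hval : (mg p w x).1 = mrg p w.1 x.1 := mg_val hd.symm y w x hw.2 hy.symm
    have hz : mask q (mg p w x).1 = mask q x.1 := by
      rw [hval, mask_eq_iff]
      intro i hi
      unfold mrg
      split_ifs with hip
      · rfl
      · rw [hw' i hi, hy' i hip]
    congr 1
    apply Subtype.ext
    rw [mg_val hd x y (mg p w x) hy hz, hval]
    funext i
    unfold mrg
    by_cases hi : i ∈ q
    · have hip : i ∉ p := fun h => (Finset.disjoint_left.mp hd h) hi
      rw [if_pos hi, if_neg hip]
    · rw [if_neg hi, hw' i hi]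

/-- The `q`-fibres through two points of one `p`-fibre have the same size. -/
theorem fibre_card {p q : Finset (Fin m)} (hd : Disjoint p q) (x y : CT m n r c)
    (hy : mask p y.1 = mask p x.1) :
    ((univ.filter (fun w : CT m n r c => mask q w.1 = mask q y.1)).card : ℝ)
      = ((univ.filter (fun z : CT m n r c => mask q z.1 = mask q x.1)).card : ℝ) := by
  have h := fibre_sum hd x y hy (fun _ => (1 : ℝ))
  simpa using h

end Commute

open Vale.Agent.Lib.P328.RP.Commute in
/-- **Resamplings of disjoint row sets commute.** -/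
theorem R_comm_of_disjoint (p q : Finset (Fin m)) (hd : Disjoint p q) (f : CT m n r c → ℝ) :
    R p (R q f) = R q (R p f) := by
  funext x
  rw [R_apply p, R_apply q]
  have h1 : ∀ y ∈ univ.filter (fun y : CT m n r c => mask p y.1 = mask p x.1),
      R q f y = (∑ z ∈ univ.filter (fun z : CT m n r c => mask q z.1 = mask q x.1),
        f (mg q y z)) /
        ((univ.filter (fun z : CT m n r c => mask q z.1 = mask q x.1)).card : ℝ) := by
    intro y hy
    rw [mem_filter] at hy
    rw [R_apply q, fibre_sum hd x y hy.2 f, fibre_card hd x y hy.2]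
  have h2 : ∀ z ∈ univ.filter (fun z : CT m n r c => mask q z.1 = mask q x.1),
      R p f z = (∑ y ∈ univ.filter (fun y : CT m n r c => mask p y.1 = mask p x.1),
        f (mg q y z)) /
        ((univ.filter (fun y : CT m n r c => mask p y.1 = mask p x.1)).card : ℝ) := by
    intro z hz
    rw [mem_filter] at hz
    rw [R_apply p, fibre_sum hd.symm x z hz.2 f, fibre_card hd.symm x z hz.2]
    congr 1
    apply Finset.sum_congr rfl
    intro y hy
    rw [mem_filter] at hy
    congr 1
    apply Subtype.ext
    rw [mg_val hd.symm x z y hz.2 hy.2, mg_val hd x y z hy.2 hz.2]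
    have hy' := (mask_eq_iff p y.1 x.1).mp hy.2
    have hz' := (mask_eq_iff q z.1 x.1).mp hz.2
    funext i
    unfold mrg
    by_cases hip : i ∈ p
    · have hi : i ∉ q := fun h => (Finset.disjoint_left.mp hd hip) h
      rw [if_pos hip, if_neg hi]
    · rw [if_neg hip]
      by_cases hi : i ∈ q
      · rw [if_pos hi]
      · rw [if_neg hi, hy' i hip, hz' i hi]
  rw [Finset.sum_congr rfl h1, Finset.sum_congr rfl h2, ← Finset.sum_div, ← Finset.sum_div,
    Finset.sum_comm, div_div, div_div, mul_comm]

end Vale.Agent.Lib.P328.RP
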