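import Mathlib
import Vale.Agent.Lib.P328.RP.Defs

/-!
P328: contingency tables with fixed margins are connected under moves that change two rows.
-/

namespace Vale.Agent.Lib.P328.RP

open Finset
open Vale.Agent.Lib.P335.Bip

namespace Connected

variable {m n : ℕ}

/-- total distance between two arrays -/
def D (x y : Fin m → Fin n → ℕ) : ℕ := ∑ a, ∑ b, Nat.dist (x a b) (y a b)

/-- the cells lowered by the move -/
def od (i i2 : Fin m) (j1 j2 : Fin n) (a : Fin m) (b : Fin n) : ℕ :=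
  (if a = i then (if b = j1 then 1 else 0) else 0) +
    (if a = i2 then (if b = j2 then 1 else 0) else 0)

/-- the cells raised by the move -/
def ev (i i2 : Fin m) (j1 j2 : Fin n) (a : Fin m) (b : Fin n) : ℕ :=
  (if a = i then (if b = j2 then 1 else 0) else 0) +
    (if a = i2 then (if b = j1 then 1 else 0) else 0)

/-- the move: lower `(i, j1)` and `(i2, j2)`, raise `(i, j2)` and `(i2, j1)` -/
def mv (x : Fin m → Fin n → ℕ) (i i2 : Fin m) (j1 j2 : Fin n) : Fin m → Fin n → ℕ :=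
  fun a b => x a b + ev i i2 j1 j2 a b - od i i2 j1 j2 a b

lemma od_le (x : Fin m → Fin n → ℕ) (i i2 : Fin m) (j1 j2 : Fin n) (hi : i ≠ i2)
    (h1 : 1 ≤ x i j1) (h2 : 1 ≤ x i2 j2) (a : Fin m) (b : Fin n) :
    od i i2 j1 j2 a b ≤ x a b := by
  unfold od
  by_cases ha : a = i
  · have ha2 : a ≠ i2 := fun h => hi (ha.symm.trans h)
    rw [if_pos ha, if_neg ha2, add_zero]
    by_cases hb : b = j1
    · rw [if_pos hb, ha, hb]
      exact h1
    · rw [if_neg hb]
      exact Nat.zero_le _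
  · rw [if_neg ha, zero_add]
    by_cases ha2 : a = i2
    · rw [if_pos ha2]
      by_cases hb : b = j2
      · rw [if_pos hb, ha2, hb]
        exact h2
      · rw [if_neg hb]
        exact Nat.zero_le _
    · rw [if_neg ha2]
      exact Nat.zero_le _

lemma mv_add (x : Fin m → Fin n → ℕ) (i i2 : Fin m) (j1 j2 : Fin n) (hi : i ≠ i2)
    (h1 : 1 ≤ x i j1) (h2 : 1 ≤ x i2 j2) (a : Fin m) (b : Fin n) :
    mv x i i2 j1 j2 a b + od i i2 j1 j2 a b = x a b + ev i i2 j1 j2 a b := by
  have h := od_le x i i2 j1 j2 hi h1 h2 a b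
  unfold mv
  omega

lemma sum_ite_row (i : Fin m) (j : Fin n) (a : Fin m) :
    ∑ b, (if a = i then (if b = j then 1 else 0) else 0) = if a = i then 1 else 0 := by
  by_cases ha : a = i
  · simp only [if_pos ha]
    rw [Finset.sum_ite_eq', if_pos (mem_univ j)]
  · simp only [if_neg ha]
    exact Finset.sum_const_zero

lemma sum_ite_col (i : Fin m) (j : Fin n) (b : Fin n) :
    ∑ a, (if a = i then (if b = j then 1 else 0) else 0) = if b = j then 1 else 0 := by
  rw [Finset.sum_ite_eq', if_pos (mem_univ i)]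

lemma sum_od_row (i i2 : Fin m) (j1 j2 : Fin n) (a : Fin m) :
    ∑ b, od i i2 j1 j2 a b = (if a = i then 1 else 0) + (if a = i2 then 1 else 0) := by
  unfold od
  rw [Finset.sum_add_distrib, sum_ite_row, sum_ite_row]

lemma sum_ev_row (i i2 : Fin m) (j1 j2 : Fin n) (a : Fin m) :
    ∑ b, ev i i2 j1 j2 a b = (if a = i then 1 else 0) + (if a = i2 then 1 else 0) := by
  unfold ev
  rw [Finset.sum_add_distrib, sum_ite_row, sum_ite_row]

lemma sum_od_col (i i2 : Fin m) (j1 j2 : Fin n) (b : Fin n) :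
    ∑ a, od i i2 j1 j2 a b = (if b = j1 then 1 else 0) + (if b = j2 then 1 else 0) := by
  unfold od
  rw [Finset.sum_add_distrib, sum_ite_col, sum_ite_col]

lemma sum_ev_col (i i2 : Fin m) (j1 j2 : Fin n) (b : Fin n) :
    ∑ a, ev i i2 j1 j2 a b = (if b = j2 then 1 else 0) + (if b = j1 then 1 else 0) := by
  unfold ev
  rw [Finset.sum_add_distrib, sum_ite_col, sum_ite_col]

/-- the move keeps the row sums -/
lemma mv_row (x : Fin m → Fin n → ℕ) (i i2 : Fin m) (j1 j2 : Fin n) (hi : i ≠ i2)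
    (h1 : 1 ≤ x i j1) (h2 : 1 ≤ x i2 j2) (a : Fin m) :
    ∑ b, mv x i i2 j1 j2 a b = ∑ b, x a b := by
  have h : ∑ b, (mv x i i2 j1 j2 a b + od i i2 j1 j2 a b) =
      ∑ b, (x a b + ev i i2 j1 j2 a b) :=
    Finset.sum_congr rfl (fun b _ => mv_add x i i2 j1 j2 hi h1 h2 a b)
  rw [Finset.sum_add_distrib, Finset.sum_add_distrib, sum_od_row, sum_ev_row] at h
  exact Nat.add_right_cancel h

/-- the move keeps the column sums -/
lemma mv_col (x : Fin m → Fin n → ℕ) (i i2 : Fin m) (j1 j2 : Fin n) (hi : i ≠ i2)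
    (h1 : 1 ≤ x i j1) (h2 : 1 ≤ x i2 j2) (b : Fin n) :
    ∑ a, mv x i i2 j1 j2 a b = ∑ a, x a b := by
  have h : ∑ a, (mv x i i2 j1 j2 a b + od i i2 j1 j2 a b) =
      ∑ a, (x a b + ev i i2 j1 j2 a b) :=
    Finset.sum_congr rfl (fun a _ => mv_add x i i2 j1 j2 hi h1 h2 a b)
  rw [Finset.sum_add_distrib, Finset.sum_add_distrib, sum_od_col, sum_ev_col] at h
  omega

/-- the move changes the rows `i` and `i2` only -/
lemma mv_other (x : Fin m → Fin n → ℕ) (i i2 : Fin m) (j1 j2 : Fin n) (a : Fin m)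
    (ha : a ≠ i) (ha2 : a ≠ i2) : mv x i i2 j1 j2 a = x a := by
  funext b
  unfold mv ev od
  rw [if_neg ha, if_neg ha2, if_neg ha, if_neg ha2]
  rfl

/-- the distance to `y` at one cell -/
lemma dist_mv (x y : Fin m → Fin n → ℕ) (i i2 : Fin m) (j1 j2 : Fin n) (hi : i ≠ i2)
    (hj : j1 ≠ j2) (hA : y i j1 < x i j1) (hB : x i j2 < y i j2) (hC : y i2 j2 < x i2 j2)
    (a : Fin m) (b : Fin n) :
    Nat.dist (mv x i i2 j1 j2 a b) (y a b) +
        (od i i2 j1 j2 a b + (if a = i then (if b = j2 then 1 else 0) else 0)) ≤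
      Nat.dist (x a b) (y a b) + (if a = i2 then (if b = j1 then 1 else 0) else 0) := by
  unfold mv od ev Nat.dist
  split_ifs <;> subst_vars <;> first | contradiction | omega

/-- the move decreases the distance to `y` -/
lemma D_mv_lt (x y : Fin m → Fin n → ℕ) (i i2 : Fin m) (j1 j2 : Fin n) (hi : i ≠ i2)
    (hj : j1 ≠ j2) (hA : y i j1 < x i j1) (hB : x i j2 < y i j2) (hC : y i2 j2 < x i2 j2) :
    D (mv x i i2 j1 j2) y < D x y := by
  have h : ∑ a, ∑ b, (Nat.dist (mv x i i2 j1 j2 a b) (y a b) +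
        (od i i2 j1 j2 a b + (if a = i then (if b = j2 then 1 else 0) else 0))) ≤
      ∑ a, ∑ b, (Nat.dist (x a b) (y a b) +
        (if a = i2 then (if b = j1 then 1 else 0) else 0)) :=
    Finset.sum_le_sum (fun a _ => Finset.sum_le_sum
      (fun b _ => dist_mv x y i i2 j1 j2 hi hj hA hB hC a b))
  simp only [Finset.sum_add_distrib, sum_od_row, sum_ite_row, Finset.sum_ite_eq', mem_univ,
    if_true] at h
  unfold D
  omega

end Connected

variable {m n : ℕ} {r : Fin m → ℕ} {c : Fin n → ℕ}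

/-- Contingency tables with fixed margins are connected under moves that change two rows only:
a function invariant under such moves is constant. -/
theorem const_of_pair_invariant (f : CT m n r c → ℝ)
    (h : ∀ p : Finset (Fin m), p.card = 2 → ∀ x y : CT m n r c,
      (∀ i, i ∉ p → x.1 i = y.1 i) → f x = f y) (x y : CT m n r c) : f x = f y := by
  induction hk : Connected.D x.1 y.1 using Nat.strong_induction_on generalizing x with
  | _ k ih =>
    by_cases hxy : x = y
    · rw [hxy]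
    · have hne : x.1 ≠ y.1 := fun h' => hxy (Subtype.ext h')
      obtain ⟨i, hi⟩ := Function.ne_iff.1 hne
      obtain ⟨j, hj⟩ := Function.ne_iff.1 hi
      have hrow : ∑ b, x.1 i b = ∑ b, y.1 i b := (x.2.1 i).trans (y.2.1 i).symm
      obtain ⟨j1, hj1⟩ : ∃ j1, y.1 i j1 < x.1 i j1 := by
        by_contra hcon
        have hle : ∀ b ∈ (univ : Finset (Fin n)), x.1 i b ≤ y.1 i b :=
          fun b _ => not_lt.1 (fun hlt => hcon ⟨b, hlt⟩)
        exact hj ((Finset.sum_eq_sum_iff_of_le hle).1 hrow j (mem_univ j))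
      obtain ⟨j2, hj2⟩ : ∃ j2, x.1 i j2 < y.1 i j2 := by
        by_contra hcon
        have hle : ∀ b ∈ (univ : Finset (Fin n)), y.1 i b ≤ x.1 i b :=
          fun b _ => not_lt.1 (fun hlt => hcon ⟨b, hlt⟩)
        exact hj ((Finset.sum_eq_sum_iff_of_le hle).1 hrow.symm j (mem_univ j)).symm
      have hcol : ∑ a, x.1 a j2 = ∑ a, y.1 a j2 := (x.2.2 j2).trans (y.2.2 j2).symm
      obtain ⟨i2, hi2⟩ : ∃ i2, y.1 i2 j2 < x.1 i2 j2 := by
        by_contra hcon
        have hle : ∀ a ∈ (univ : Finset (Fin m)), x.1 a j2 ≤ y.1 a j2 :=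
          fun a _ => not_lt.1 (fun hlt => hcon ⟨a, hlt⟩)
        have hlt := Finset.sum_lt_sum hle ⟨i, mem_univ i, hj2⟩
        omega
      have hii2 : i ≠ i2 := by
        intro h'
        rw [← h'] at hi2
        omega
      have hj12 : j1 ≠ j2 := by
        intro h'
        rw [h'] at hj1
        omega
      have h1 : 1 ≤ x.1 i j1 := by omega
      have h2 : 1 ≤ x.1 i2 j2 := by omega
      have hz : (∀ a, ∑ b, Connected.mv x.1 i i2 j1 j2 a b = r a) ∧
          ∀ b, ∑ a, Connected.mv x.1 i i2 j1 j2 a b = c b :=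
        ⟨fun a => (Connected.mv_row x.1 i i2 j1 j2 hii2 h1 h2 a).trans (x.2.1 a),
          fun b => (Connected.mv_col x.1 i i2 j1 j2 hii2 h1 h2 b).trans (x.2.2 b)⟩
      have hfz : f x = f ⟨Connected.mv x.1 i i2 j1 j2, hz⟩ := by
        refine h {i, i2} (Finset.card_pair hii2) x _ (fun a ha => ?_)
        rw [mem_insert, mem_singleton, not_or] at ha
        exact (Connected.mv_other x.1 i i2 j1 j2 a ha.1 ha.2).symm
      have hD : Connected.D (Connected.mv x.1 i i2 j1 j2) y.1 < k := by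
        rw [← hk]
        exact Connected.D_mv_lt x.1 y.1 i i2 j1 j2 hii2 hj12 hj1 hj2 hi2
      rw [hfz]
      exact ih _ hD ⟨Connected.mv x.1 i i2 j1 j2, hz⟩ rfl

end Vale.Agent.Lib.P328.RP
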