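import Mathlib
import Vale.Agent.Lib.P328.RP.Defs
import Vale.Agent.Lib.P328.RP.BlockDefs
import Vale.Agent.Lib.P328.RP.BlockTransfer

/-!
P328: the three-row inequality transfers to every triple of rows (from `block_transfer`).
-/

namespace Vale.Agent.Lib.P328.RP

open Finset
open Vale.Agent.Lib.P335.Bip

/-- **Row triples.**  The three-row inequality for tables with `n` columns transfers to every
row triple of a table with any number of rows and `n` columns. -/
theorem triple_of_threeRow_E {n : ℕ}
    (h3 : ∀ (r : Fin 3 → ℕ) (c : Fin n → ℕ) (g : CT 3 n r c → ℝ),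
      ∑ q ∈ (univ : Finset (Fin 3)).powersetCard 2, ip g (R q g) ≤ 2 * ip g g + ip g (R univ g))
    {m : ℕ} {r : Fin m → ℕ} {c : Fin n → ℕ} (T : Finset (Fin m)) (hT : T.card = 3)
    (f : CT m n r c → ℝ) :
    ∑ p ∈ T.powersetCard 2, ip f (R p f) ≤ 2 * ip f f + ip f (R T f) := by
  classical
  obtain ⟨φ, rfl⟩ : ∃ φ : Fin 3 ↪ Fin m, (univ : Finset (Fin 3)).map φ = T :=
    ⟨(T.orderEmbOfFin hT).toEmbedding, map_orderEmbOfFin_univ T hT⟩
  set s : Finset (Option (Finset (Fin 3))) :=
    insertNone ((univ : Finset (Fin 3)).powersetCard 2) with hs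
  set a : Option (Finset (Fin 3)) → ℝ := fun o => if o = none then -1 else 1 with ha
  set P : Option (Finset (Fin 3)) → Finset (Fin 3) := fun o => o.getD univ with hP
  have h : ∀ (r : Fin 3 → ℕ) (c : Fin n → ℕ) (g : CT 3 n r c → ℝ),
      ∑ α ∈ s, a α * ip g (E (P α) (univ : Finset (Fin n)) g) ≤ 2 * ip g g := by
    intro r c g
    have h' := h3 r c g
    rw [hs, Finset.sum_insertNone]
    simp only [ha, hP, Option.getD_none, Option.getD_some, if_true, reduceCtorEq, if_false,
      one_mul, E_univ_right]
    linarith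
  have key := block_transfer s a P (fun _ => (univ : Finset (Fin n))) 2 h φ f
  rw [hs, Finset.sum_insertNone] at key
  simp only [ha, hP, Option.getD_none, Option.getD_some, if_true, reduceCtorEq, if_false,
    one_mul, E_univ_right] at key
  rw [powersetCard_map, Finset.sum_map]
  simp only [RelEmbedding.coe_toEmbedding, mapEmbedding_apply]
  linarith

end Vale.Agent.Lib.P328.RP
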