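import Mathlib
import Vale.Agent.Lib.P328.RP.Defs
import Vale.Agent.Lib.P328.RP.Commute
import Vale.Agent.Lib.P328.RP.TripleE
import Vale.Agent.Lib.P328.RP.Connected

/-!
P328: the row-pair heat-bath gap for contingency tables, given the three-row inequality:
assembly of the Knabe lemma (library of P335), the commutation of disjoint row pairs, the
transferred three-row inequality and connectivity under two-row moves.
-/

namespace Vale.Agent.Lib.P328.RP

open Finset
open Vale.Agent.Lib.P335.Bip

section hgap

variable {m n : ℕ} {r : Fin m → ℕ} {c : Fin n → ℕ}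

/-- The projection `1 - R p`. -/
noncomputable def PR (p : Finset (Fin m)) : (CT m n r c → ℝ) →ₗ[ℝ] (CT m n r c → ℝ) :=
  LinearMap.id - R p

theorem PR_apply (p : Finset (Fin m)) (f : CT m n r c → ℝ) : PR p f = f - R p f := rfl

theorem ip_PR (p : Finset (Fin m)) (f : CT m n r c → ℝ) :
    ip f (PR p f) = ip f f - ip f (R p f) := by
  rw [PR_apply, ip_sub_right]

theorem PR_symm (p : Finset (Fin m)) (f g : CT m n r c → ℝ) :
    ip f (PR p g) = ip (PR p f) g := by
  rw [PR_apply, PR_apply, ip_sub_right, ip_sub_left, R_symm]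

theorem PR_idem (p : Finset (Fin m)) (f : CT m n r c → ℝ) : PR p (PR p f) = PR p f := by
  rw [PR_apply, PR_apply, map_sub, R_idem]
  abel

theorem PR_comm (p q : Finset (Fin m)) (hd : Disjoint p q) (f : CT m n r c → ℝ) :
    PR p (PR q f) = PR q (PR p f) := by
  simp only [PR_apply, map_sub]
  rw [R_comm_of_disjoint p q hd]
  abel

theorem PR_R_of_subset {p T : Finset (Fin m)} (hpT : p ⊆ T) (f : CT m n r c → ℝ) :
    PR p (R T f) = 0 := by
  rw [PR_apply, R_R_of_subset hpT, sub_self]

/-- A function fixed by all pair resamplings is constant. -/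
theorem const_of_fixed (f : CT m n r c → ℝ)
    (h : ∀ p : Finset (Fin m), p.card = 2 → R p f = f) (x y : CT m n r c) : f x = f y := by
  refine const_of_pair_invariant f (fun p hp x y hxy => ?_) x y
  have h1 := h p hp
  have h2 : R p f x = R p f y := R_congr p f hxy
  rw [h1] at h2
  exact h2

/-- The row-pair heat-bath gap, given the three-row inequality for tables with `n` columns. -/
theorem hgap_of_threeRow {n : ℕ}
    (h3 : ∀ (r : Fin 3 → ℕ) (c : Fin n → ℕ) (g : CT 3 n r c → ℝ),
      ∑ q ∈ (univ : Finset (Fin 3)).powersetCard 2, ip g (R q g) ≤ 2 * ip g g + ip g (R univ g))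
    (m : ℕ) (r : Fin m → ℕ) (c : Fin n → ℕ) (f : CT m n r c → ℝ) :
    ip f f - ip f (R univ f)
      ≤ ∑ p ∈ (univ : Finset (Fin m)).powersetCard 2, (ip f f - ip f (R p f)) := by
  classical
  set H : (CT m n r c → ℝ) →ₗ[ℝ] (CT m n r c → ℝ) :=
    ∑ p ∈ (univ : Finset (Fin m)).powersetCard 2, PR p with hH
  have hHapp : ∀ g, H g = ∑ p ∈ (univ : Finset (Fin m)).powersetCard 2, PR p g := by
    intro g
    rw [hH, LinearMap.sum_apply]
  have hform : ∀ g, ip g (H g)
      = ∑ p ∈ (univ : Finset (Fin m)).powersetCard 2, (ip g g - ip g (R p g)) := by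
    intro g
    rw [hHapp, ip_sum_right]
    exact Finset.sum_congr rfl (fun p _ => ip_PR p g)
  have hsq : ∀ g, ip g (H g) ≤ ip (H g) (H g) := by
    intro g
    rw [hHapp]
    refine knabe (fun p => PR p) (fun T => R T) (fun p _ => PR_symm p) (fun p _ => PR_idem p)
      (fun p q _ _ hd => PR_comm p q hd) (fun T _ => R_symm T) (fun T _ => R_idem T) ?_ ?_ g
    · intro T _ p hp g'
      exact PR_R_of_subset (Finset.mem_powersetCard.mp hp).1 g'
    · intro T hT g'
      have h1 := triple_of_threeRow_E h3 T hT g'
      have h2 : ∑ p ∈ T.powersetCard 2, ip g' (PR p g')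
          = 3 * ip g' g' - ∑ p ∈ T.powersetCard 2, ip g' (R p g') := by
        rw [Finset.sum_congr rfl (fun p _ => ip_PR p g'), Finset.sum_sub_distrib,
          Finset.sum_const, Finset.card_powersetCard, hT]
        norm_num
      rw [h2]
      linarith
  have hker : ∀ g, H g = 0 → R univ g = g := by
    intro g hg
    have h0 : ip g (H g) = 0 := by rw [hg, ip_zero_right]
    rw [hform] at h0
    have hterm : ∀ p ∈ (univ : Finset (Fin m)).powersetCard 2, ip g g - ip g (R p g) = 0 := by
      have hnn : ∀ p ∈ (univ : Finset (Fin m)).powersetCard 2, 0 ≤ ip g g - ip g (R p g) :=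
        fun p _ => sub_nonneg.mpr (ip_cexp_le _ g)
      exact (Finset.sum_eq_zero_iff_of_nonneg hnn).mp h0
    have hfix : ∀ p : Finset (Fin m), p.card = 2 → R p g = g := by
      intro p hp
      have h1 := hterm p (Finset.mem_powersetCard.mpr ⟨Finset.subset_univ _, hp⟩)
      have h2 : ip (g - R p g) (g - R p g) = 0 := by
        rw [← h1]
        exact ip_sub_cexp _ g
      have h3' := ip_self_eq_zero.mp h2
      exact (sub_eq_zero.mp h3').symm
    exact cexp_of_factor _ (fun x y _ => const_of_fixed g hfix x y)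
  have key := gap_of_sq H (R univ)
    (by
      intro g h
      rw [hHapp, hHapp, ip_sum_right, ip_sum_left]
      exact Finset.sum_congr rfl (fun p _ => PR_symm p g h))
    (R_symm univ)
    (by
      intro g
      rw [hHapp]
      exact Finset.sum_eq_zero (fun p _ => PR_R_of_subset (Finset.subset_univ p) g))
    (by
      intro g
      rw [hform]
      exact Finset.sum_nonneg (fun p _ => sub_nonneg.mpr (ip_cexp_le _ g)))
    hsq hker f
  rw [hform] at key
  exact key

end hgap

end Vale.Agent.Lib.P328.RP
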