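import Mathlib
import Vale.Agent.Lib.P328.RP.Defs
import Vale.Agent.Lib.P328.RP.BlockDefs

/-!
P328: transposition of contingency tables. Transposing a table exchanges the roles of rows
and columns; resampling the block `p × q` of a table corresponds to resampling the block
`q × p` of its transpose, and resampling a set of columns corresponds to resampling the same
set of rows of the transpose.
-/

namespace Vale.Agent.Lib.P328.RP

open Finset
open Vale.Agent.Lib.P335.Bip

section transpose

variable {m n : ℕ} {r : Fin m → ℕ} {c : Fin n → ℕ}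

/-- Transposition of contingency tables. -/
def tr : CT m n r c ≃ CT n m c r where
  toFun x := ⟨fun j i => x.1 i j, x.2.2, x.2.1⟩
  invFun y := ⟨fun i j => y.1 j i, y.2.2, y.2.1⟩
  left_inv _ := rfl
  right_inv _ := rfl

theorem tr_val (x : CT m n r c) (j : Fin n) (i : Fin m) : (tr x).1 j i = x.1 i j := rfl

theorem ip_tr (f g : CT n m c r → ℝ) :
    ip (fun x : CT m n r c => f (tr x)) (fun x : CT m n r c => g (tr x)) = ip f g := by
  unfold ip
  exact Equiv.sum_comp tr (fun y => f y * g y)

namespace Transpose

theorem bmask_tr_iff (p : Finset (Fin m)) (q : Finset (Fin n)) (x y : CT m n r c) :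
    bmask p q y.1 = bmask p q x.1 ↔ bmask q p (tr y).1 = bmask q p (tr x).1 := by
  rw [bmask_eq_iff, bmask_eq_iff]
  constructor
  · intro h j i hji
    exact h i j (fun hh => hji ⟨hh.2, hh.1⟩)
  · intro h i j hij
    exact h j i (fun hh => hij ⟨hh.2, hh.1⟩)

end Transpose

theorem E_tr (p : Finset (Fin m)) (q : Finset (Fin n)) (f : CT n m c r → ℝ) (x : CT m n r c) :
    E p q (fun y : CT m n r c => f (tr y)) x = E q p f (tr x) := by
  rw [E_apply, E_apply]
  have hsum : ∑ y ∈ univ.filter (fun y : CT m n r c => bmask p q y.1 = bmask p q x.1), f (tr y)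
      = ∑ y' ∈ univ.filter (fun y' : CT n m c r => bmask q p y'.1 = bmask q p (tr x).1),
          f y' := by
    apply Finset.sum_equiv tr
    · intro y
      simp only [Finset.mem_filter, Finset.mem_univ, true_and]
      exact Transpose.bmask_tr_iff p q x y
    · intro y _
      rfl
  have hcard : (univ.filter (fun y : CT m n r c => bmask p q y.1 = bmask p q x.1)).card
      = (univ.filter (fun y' : CT n m c r => bmask q p y'.1 = bmask q p (tr x).1)).card := by
    apply Finset.card_equiv tr
    intro y
    simp only [Finset.mem_filter, Finset.mem_univ, true_and]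
    exact Transpose.bmask_tr_iff p q x y
  rw [hsum, hcard]

theorem R_tr (q : Finset (Fin n)) (f : CT n m c r → ℝ) (x : CT m n r c) :
    E univ q (fun y : CT m n r c => f (tr y)) x = R q f (tr x) := by
  rw [E_tr, E_univ_right]

end transpose

end Vale.Agent.Lib.P328.RP
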