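import Mathlib
import Vale.Agent.Lib.P328.RP.HGap
import Vale.Agent.Lib.P328.RP.ThreeTwo
import Vale.Agent.Lib.P328.RP.Transpose
import Vale.Agent.Lib.P328.RP.BlockTransfer

/-!
P328: the two-by-two heat bath dominates the row-pair heat bath.

* `two_row_col_gap` : on two-row tables, resampling everything is dominated by the resamplings
  of the pairs of columns (Knabe over the columns; the three-site lemma enters through the
  three-row inequality for tables with two columns).
* `pair_block_gap` : for a pair `p` of rows of any table, `1 - R p ≤ ∑ q, (1 - E p q)`.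
* `gap22_of_threeRow` : the gap of the two-by-two heat bath, given the three-row inequality.
-/

namespace Vale.Agent.Lib.P328.RP

open Finset
open Vale.Agent.Lib.P335.Bip

/-- Two-row tables: resampling the whole table is dominated by the resamplings of the pairs of
columns. -/
theorem two_row_col_gap (n : ℕ) (r : Fin 2 → ℕ) (c : Fin n → ℕ) (g : CT 2 n r c → ℝ) :
    ip g g - ip g (R univ g)
      ≤ ∑ q ∈ (univ : Finset (Fin n)).powersetCard 2, (ip g g - ip g (E univ q g)) := by
  set f' : CT n 2 c r → ℝ := fun y => g (tr.symm y) with hf'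
  have hg : g = fun x : CT 2 n r c => f' (tr x) := by
    funext x
    simp only [hf', Equiv.symm_apply_apply]
  have key := hgap_of_threeRow (n := 2) threeRow_two_cols n c r f'
  have e1 : ip g g = ip f' f' := by
    rw [hg]
    exact ip_tr f' f'
  have e2 : ∀ q : Finset (Fin n), ip g (E univ q g) = ip f' (R q f') := by
    intro q
    have h1 : E (univ : Finset (Fin 2)) q g = fun x : CT 2 n r c => R q f' (tr x) := by
      funext x
      rw [hg]
      exact R_tr q f' x
    rw [h1]
    conv_lhs => rw [hg]
    exact ip_tr f' (R q f')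
  have e3 : ip g (R univ g) = ip f' (R univ f') := by
    have h1 : (R (univ : Finset (Fin 2)) g) = E (univ : Finset (Fin 2)) (univ : Finset (Fin n)) g := by
      rw [E_univ_right]
    rw [h1, e2 univ]
  rw [e1, e3, Finset.sum_congr rfl (fun q _ => by rw [e2 q])]
  exact key

/-- For a pair `p` of rows, resampling the two rows is dominated by the resamplings of the
two-by-two blocks inside them. -/
theorem pair_block_gap {m n : ℕ} {r : Fin m → ℕ} {c : Fin n → ℕ} (p : Finset (Fin m))
    (hp : p.card = 2) (f : CT m n r c → ℝ) :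
    ip f f - ip f (R p f)
      ≤ ∑ q ∈ (univ : Finset (Fin n)).powersetCard 2, (ip f f - ip f (E p q f)) := by
  classical
  obtain ⟨φ, hφ⟩ : ∃ φ : Fin 2 ↪ Fin m, (univ : Finset (Fin 2)).map φ = p :=
    ⟨(p.orderEmbOfFin hp).toEmbedding, map_orderEmbOfFin_univ p hp⟩
  set s : Finset (Option (Finset (Fin n))) :=
    insertNone ((univ : Finset (Fin n)).powersetCard 2) with hs
  set a : Option (Finset (Fin n)) → ℝ := fun o => if o = none then -1 else 1 with ha
  set Q : Option (Finset (Fin n)) → Finset (Fin n) := fun o => o.getD univ with hQ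
  have h2 : ∀ (r : Fin 2 → ℕ) (c : Fin n → ℕ) (g : CT 2 n r c → ℝ),
      ∑ α ∈ s, a α * ip g (E (univ : Finset (Fin 2)) (Q α) g)
        ≤ (((n.choose 2 : ℕ) : ℝ) - 1) * ip g g := by
    intro r c g
    have h := two_row_col_gap n r c g
    rw [hs, Finset.sum_insertNone]
    simp only [ha, hQ, Option.getD_none, Option.getD_some, if_true, reduceCtorEq, if_false,
      one_mul]
    rw [Finset.sum_sub_distrib, Finset.sum_const, Finset.card_powersetCard, Finset.card_univ,
      Fintype.card_fin, nsmul_eq_mul] at h
    rw [E_univ_right]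
    linarith
  have key := block_transfer s a (fun _ => (univ : Finset (Fin 2))) Q
    (((n.choose 2 : ℕ) : ℝ) - 1) h2 φ f
  rw [hs, Finset.sum_insertNone] at key
  simp only [ha, hQ, Option.getD_none, Option.getD_some, if_true, reduceCtorEq, if_false,
    one_mul, hφ] at key
  rw [E_univ_right] at key
  rw [Finset.sum_sub_distrib, Finset.sum_const, Finset.card_powersetCard, Finset.card_univ,
    Fintype.card_fin, nsmul_eq_mul]
  linarith

/-- The gap of the heat bath on two-by-two blocks, given the three-row inequality for tables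
with `n` columns. -/
theorem gap22_of_threeRow {n : ℕ}
    (h3 : ∀ (r : Fin 3 → ℕ) (c : Fin n → ℕ) (g : CT 3 n r c → ℝ),
      ∑ q ∈ (univ : Finset (Fin 3)).powersetCard 2, ip g (R q g) ≤ 2 * ip g g + ip g (R univ g))
    (m : ℕ) (r : Fin m → ℕ) (c : Fin n → ℕ) (f : CT m n r c → ℝ) :
    1 * (ip f f - ip f (R univ f))
      ≤ ∑ p ∈ (univ : Finset (Fin m)).powersetCard 2,
          ∑ q ∈ (univ : Finset (Fin n)).powersetCard 2, (ip f f - ip f (E p q f)) := by
  rw [one_mul]
  refine (hgap_of_threeRow h3 m r c f).trans ?_
  exact Finset.sum_le_sum (fun p hp => pair_block_gap p (Finset.mem_powersetCard.mp hp).2 f)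

end Vale.Agent.Lib.P328.RP
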