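import Mathlib
import Vale.Agent.Lib.P328.RP.Defs

/-!
P328: for `3 × n` contingency tables the elementary row form of the three-row inequality
(for functions `g k` of the single rows with zero sums, the square of `g 0 + g 1 + g 2`
sums to at most twice the sum of the squares) implies its operator form
`∑ over row pairs q of ⟨f, R q f⟩ ≤ 2 ⟨f, f⟩ + ⟨f, R univ f⟩`.
-/

namespace Vale.Agent.Lib.P328.RP

open Finset
open Vale.Agent.Lib.P335.Bip

namespace Rows

variable {n : ℕ} {r : Fin 3 → ℕ} {c : Fin n → ℕ}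

/-- The centred conditional expectation of `f` given row `k` (the other two rows are
resampled, and the global average is subtracted). -/
noncomputable def Fk (f : CT 3 n r c → ℝ) (k : Fin 3) : CT 3 n r c → ℝ :=
  R (univ.erase k) f - R univ f

theorem Fk_congr (f : CT 3 n r c → ℝ) (k : Fin 3) {x y : CT 3 n r c} (h : x.1 k = y.1 k) :
    Fk f k x = Fk f k y := by
  unfold Fk
  rw [Pi.sub_apply, Pi.sub_apply]
  have h1 : R (univ.erase k) f x = R (univ.erase k) f y := by
    apply R_congr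
    intro i hi
    have hik : i = k := by
      by_contra hne
      exact hi (Finset.mem_erase.mpr ⟨hne, Finset.mem_univ i⟩)
    rw [hik]
    exact h
  have h2 : R (univ : Finset (Fin 3)) f x = R univ f y := by
    rw [R_univ_apply, R_univ_apply]
  rw [h1, h2]

theorem sum_Fk (f : CT 3 n r c → ℝ) (k : Fin 3) : ∑ x, Fk f k x = 0 := by
  unfold Fk
  simp only [Pi.sub_apply]
  rw [Finset.sum_sub_distrib]
  have h1 : ∑ x, R (univ.erase k) f x = ∑ x, f x := sum_cexp _ f
  have h2 : ∑ x, R (univ : Finset (Fin 3)) f x = ∑ x, f x := sum_cexp _ f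
  rw [h1, h2, sub_self]

theorem ip_R_R_univ (q : Finset (Fin 3)) (f : CT 3 n r c → ℝ) :
    ip (R q f) (R univ f) = ip f (R univ f) := by
  rw [← R_symm, R_R_of_subset (Finset.subset_univ q)]

theorem ip_R_self (q : Finset (Fin 3)) (f : CT 3 n r c → ℝ) :
    ip (R q f) (R q f) = ip f (R q f) :=
  (ip_cexp_self _ f).symm

theorem ip_Fk_self (f : CT 3 n r c → ℝ) (k : Fin 3) :
    ip (Fk f k) (Fk f k) = ip f (R (univ.erase k) f) - ip f (R univ f) := by
  unfold Fk
  rw [ip_sub_left, ip_sub_right, ip_sub_right, ip_R_self, ip_R_R_univ,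
    ip_comm (R univ f) (R (univ.erase k) f), ip_R_R_univ, ip_R_self]
  ring

theorem ip_sub_Fk (f : CT 3 n r c → ℝ) (k : Fin 3) :
    ip (f - R univ f) (Fk f k) = ip (Fk f k) (Fk f k) := by
  rw [ip_Fk_self]
  unfold Fk
  rw [ip_sub_left, ip_sub_right, ip_sub_right, ip_comm (R univ f) (R (univ.erase k) f),
    ip_R_R_univ, ip_R_self]
  ring

theorem pairs_eq : (univ : Finset (Fin 3)).powersetCard 2
    = univ.image (fun k : Fin 3 => (univ : Finset (Fin 3)).erase k) := by
  decide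

theorem erase_inj : Function.Injective (fun k : Fin 3 => (univ : Finset (Fin 3)).erase k) := by
  decide

theorem le_two_mul_of_sq_le {S V W : ℝ} (hV0 : 0 ≤ V) (hCS : S ^ 2 ≤ V * W)
    (hW : W ≤ 2 * S) : S ≤ 2 * V := by
  by_contra hcon
  push Not at hcon
  have h1 : V * W ≤ V * (2 * S) := mul_le_mul_of_nonneg_left hW hV0
  nlinarith

end Rows

theorem threeRow_of_rows {n : ℕ} (r : Fin 3 → ℕ) (c : Fin n → ℕ)
    (hV : ∀ g : Fin 3 → (Fin n → ℕ) → ℝ,
      (∀ k, ∑ x : CT 3 n r c, g k (x.1 k) = 0) →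
      ∑ x : CT 3 n r c, (∑ k, g k (x.1 k)) ^ 2 ≤ 2 * ∑ x : CT 3 n r c, ∑ k, g k (x.1 k) ^ 2)
    (f : CT 3 n r c → ℝ) :
    ∑ q ∈ (univ : Finset (Fin 3)).powersetCard 2, ip f (R q f) ≤ 2 * ip f f + ip f (R univ f) := by
  classical
  have hex : ∀ (k : Fin 3) (x : CT 3 n r c), ∃ y : CT 3 n r c, y.1 k = x.1 k :=
    fun k x => ⟨x, rfl⟩
  have hgF : ∀ (k : Fin 3) (x : CT 3 n r c),
      (fun (k : Fin 3) (v : Fin n → ℕ) =>
        if hv : ∃ y : CT 3 n r c, y.1 k = v then Rows.Fk f k hv.choose else 0) k (x.1 k)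
        = Rows.Fk f k x := by
    intro k x
    simp only
    rw [dif_pos (hex k x)]
    exact Rows.Fk_congr f k (hex k x).choose_spec
  generalize (fun (k : Fin 3) (v : Fin n → ℕ) =>
        if hv : ∃ y : CT 3 n r c, y.1 k = v then Rows.Fk f k hv.choose else 0) = g at hgF
  have h0 : ∀ k, ∑ x : CT 3 n r c, g k (x.1 k) = 0 := by
    intro k
    rw [Finset.sum_congr rfl (fun x _ => hgF k x)]
    exact Rows.sum_Fk f k
  have hmain := hV g h0
  have hGG : ip (∑ k, Rows.Fk f k) (∑ k, Rows.Fk f k)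
      ≤ 2 * ∑ k, ip (Rows.Fk f k) (Rows.Fk f k) := by
    have e1 : ∑ x : CT 3 n r c, (∑ k, g k (x.1 k)) ^ 2
        = ip (∑ k, Rows.Fk f k) (∑ k, Rows.Fk f k) := by
      rw [ip_eq_sum_sq]
      refine Finset.sum_congr rfl (fun x _ => ?_)
      rw [Finset.sum_apply]
      congr 1
      exact Finset.sum_congr rfl (fun k _ => hgF k x)
    have e2 : ∑ x : CT 3 n r c, ∑ k, g k (x.1 k) ^ 2
        = ∑ k, ip (Rows.Fk f k) (Rows.Fk f k) := by
      rw [Finset.sum_comm]
      refine Finset.sum_congr rfl (fun k _ => ?_)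
      rw [ip_eq_sum_sq]
      exact Finset.sum_congr rfl (fun x _ => by rw [hgF k x])
    rw [e1, e2] at hmain
    exact hmain
  have hSG : ip (f - R univ f) (∑ k, Rows.Fk f k) = ∑ k, ip (Rows.Fk f k) (Rows.Fk f k) := by
    rw [ip_sum_right]
    exact Finset.sum_congr rfl (fun k _ => Rows.ip_sub_Fk f k)
  have hVV : ip (f - R univ f) (f - R univ f) = ip f f - ip f (R univ f) :=
    ip_sub_cexp _ f
  have hCS := ip_cauchy_schwarz (f - R univ f) (∑ k, Rows.Fk f k)
  rw [hSG, hVV] at hCS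
  have hV0 : 0 ≤ ip f f - ip f (R univ f) := by
    rw [← hVV]
    exact ip_self_nonneg _
  have hS2 : ∑ k, ip (Rows.Fk f k) (Rows.Fk f k) ≤ 2 * (ip f f - ip f (R univ f)) :=
    Rows.le_two_mul_of_sq_le hV0 hCS hGG
  have hsum : ∑ k : Fin 3, ip f (R (univ.erase k) f)
      = (∑ k, ip (Rows.Fk f k) (Rows.Fk f k)) + 3 * ip f (R univ f) := by
    have hk : ∀ k : Fin 3, ip f (R (univ.erase k) f)
        = ip (Rows.Fk f k) (Rows.Fk f k) + ip f (R univ f) := by
      intro k
      rw [Rows.ip_Fk_self]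
      ring
    rw [Finset.sum_congr rfl (fun k _ => hk k), Finset.sum_add_distrib]
    simp
  rw [Rows.pairs_eq, Finset.sum_image (fun a _ b _ h => Rows.erase_inj h), hsum]
  linarith

end Vale.Agent.Lib.P328.RP
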