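import Mathlib
import Vale.Agent.Lib.P328.RP.Restricted
import Vale.Agent.Lib.P328.RP.Rows
import Vale.Agent.Lib.P328.RP.Mixing
import Vale.Agent.Lib.P328.RP.Mixing22

/-!
P328: glue for unconditional statements on families of margins.

* `threeRow_of_zero_row` : the three-row inequality holds (with equality) when one of the three
  row sums is zero.
* `mixing_of_threeRow_on`, `mixing22_of_threeRow_on` : the mixing bounds of the row-pair heat
  bath and of the heat bath on two-by-two blocks for the tables with row sums `r`, given the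
  three-row inequality for the row sums `r ∘ φ` of every triple of rows (all column sums).
* `mixing_of_rows_on`, `mixing22_of_rows_on` : the same with the three-row inequality in its
  elementary row form.
-/

namespace Vale.Agent.Lib.P328.RP

open Finset
open Vale.Agent.Lib.P335.Bip

namespace Family

variable {n : ℕ} {r : Fin 3 → ℕ} {c : Fin n → ℕ}

/-- a row with sum zero vanishes -/
theorem row_eq_zero {k : Fin 3} (hk : r k = 0) (x : CT 3 n r c) (j : Fin n) : x.1 k j = 0 := by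
  have h := entry_le x k j
  rw [hk] at h
  exact Nat.le_zero.mp h

theorem univ_eq : ∀ k a b : Fin 3, k ≠ a → k ≠ b → a ≠ b →
    (univ : Finset (Fin 3)) = {k, a, b} := by
  decide

theorem exists_others : ∀ k : Fin 3, ∃ a b : Fin 3, k ≠ a ∧ k ≠ b ∧ a ≠ b := by
  decide

/-- if row `k` vanishes, a table is determined by its row `a ≠ k` -/
theorem eq_of_row {k a : Fin 3} (hk : r k = 0) (hka : k ≠ a) (x y : CT 3 n r c)
    (h : x.1 a = y.1 a) : x = y := by
  obtain ⟨a', b, hka', hkb, hab⟩ := exists_others k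
  apply Subtype.ext
  funext i j
  have hu := univ_eq k a' b hka' hkb hab
  have sum3 : ∀ G : Fin 3 → ℕ, ∑ i, G i = G k + (G a' + G b) := by
    intro G
    rw [hu, Finset.sum_insert (by simp [hka', hkb]), Finset.sum_insert (by simp [hab]),
      Finset.sum_singleton]
  have hx : x.1 k j + (x.1 a' j + x.1 b j) = c j := by
    rw [← sum3 (fun i => x.1 i j)]
    exact x.2.2 j
  have hy : y.1 k j + (y.1 a' j + y.1 b j) = c j := by
    rw [← sum3 (fun i => y.1 i j)]
    exact y.2.2 j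
  have hxk := row_eq_zero hk x j
  have hyk := row_eq_zero hk y j
  have haj := congrFun h j
  have hi : i = k ∨ i = a' ∨ i = b := by
    have := Finset.mem_univ i
    rw [hu] at this
    simpa using this
  have ha : a = a' ∨ a = b := by
    have := Finset.mem_univ a
    rw [hu] at this
    simp only [Finset.mem_insert, Finset.mem_singleton] at this
    rcases this with h1 | h1 | h1
    · exact absurd h1.symm hka
    · exact Or.inl h1
    · exact Or.inr h1
  rcases ha with rfl | rfl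
  · rcases hi with rfl | rfl | rfl
    · rw [hxk, hyk]
    · exact haj
    · omega
  · rcases hi with rfl | rfl | rfl
    · rw [hxk, hyk]
    · omega
    · exact haj

end Family

open Family in
/-- The three-row inequality holds when one of the three row sums is zero. -/
theorem threeRow_of_zero_row {n : ℕ} (r : Fin 3 → ℕ) (c : Fin n → ℕ) (k : Fin 3) (hk : r k = 0)
    (f : CT 3 n r c → ℝ) :
    ∑ q ∈ (univ : Finset (Fin 3)).powersetCard 2, ip f (R q f) ≤ 2 * ip f f + ip f (R univ f) := by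
  classical
  have h1 : ∀ a : Fin 3, a ∈ (univ : Finset (Fin 3)).erase k → R (univ.erase a) f = f := by
    intro a ha
    have hka : k ≠ a := fun h => (Finset.mem_erase.mp ha).1 h.symm
    apply cexp_of_factor
    intro x y hxy
    have h2 := (mask_eq_iff (univ.erase a) x.1 y.1).mp hxy a (Finset.notMem_erase a univ)
    rw [eq_of_row hk hka x y h2]
  have h2 : R (univ.erase k) f = R univ f := by
    have h3 : R (univ : Finset (Fin 3)) (R (univ.erase k) f) = R (univ.erase k) f := by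
      apply cexp_of_factor
      intro x y _
      apply R_congr
      intro i hi
      have hik : i = k := by
        by_contra hne
        exact hi (Finset.mem_erase.mpr ⟨hne, Finset.mem_univ i⟩)
      rw [hik]
      funext j
      rw [row_eq_zero hk x j, row_eq_zero hk y j]
    rw [← h3, R_T_R_of_subset (Finset.subset_univ _)]
  rw [Rows.pairs_eq, Finset.sum_image (fun a _ b _ h => Rows.erase_inj h),
    ← Finset.add_sum_erase univ (fun j => ip f (R (univ.erase j) f)) (Finset.mem_univ k), h2,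
    Finset.sum_congr rfl (fun a ha => by rw [h1 a ha]), Finset.sum_const, Finset.card_erase_of_mem
      (Finset.mem_univ k), Finset.card_univ, Fintype.card_fin, nsmul_eq_mul]
  push_cast
  linarith

/-- The row-pair heat bath on the tables with row sums `r` mixes in
`m ^ 2 (m n log (N + 1) + log (1 / ε))` steps, given the three-row inequality for the row sums
of every triple of rows. -/
theorem mixing_of_threeRow_on {m n : ℕ} (hm : 2 ≤ m) (r : Fin m → ℕ) (c : Fin n → ℕ)
    (h3 : ∀ (φ : Fin 3 ↪ Fin m) (c' : Fin n → ℕ) (g : CT 3 n (r ∘ φ) c' → ℝ),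
      ∑ q ∈ (univ : Finset (Fin 3)).powersetCard 2, ip g (R q g) ≤ 2 * ip g g + ip g (R univ g))
    (x : CT m n r c) (ε : ℝ) (hε : 0 < ε) (hε1 : ε ≤ 1) (t : ℕ)
    (ht : (m : ℝ) ^ 2 * (m * n * Real.log (((∑ i, r i : ℕ) : ℝ) + 1) + Real.log (1 / ε)) ≤ t) :
    (1 / 2) * ∑ y, |(heatBath m n r c ^ t) x y - 1 / (Fintype.card (CT m n r c) : ℝ)| ≤ ε :=
  mixing_of_hgap hm r c (hgap_of_threeRow_on r h3 c) x ε hε hε1 t ht

/-- The heat bath on two-by-two blocks of the tables with row sums `r` mixes in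
`m ^ 2 n ^ 2 (m n log (N + 1) + log (1 / ε))` steps, given the three-row inequality for the
row sums of every triple of rows. -/
theorem mixing22_of_threeRow_on {m n : ℕ} (hm : 2 ≤ m) (hn : 2 ≤ n) (r : Fin m → ℕ)
    (c : Fin n → ℕ)
    (h3 : ∀ (φ : Fin 3 ↪ Fin m) (c' : Fin n → ℕ) (g : CT 3 n (r ∘ φ) c' → ℝ),
      ∑ q ∈ (univ : Finset (Fin 3)).powersetCard 2, ip g (R q g) ≤ 2 * ip g g + ip g (R univ g))
    (x : CT m n r c) (ε : ℝ) (hε : 0 < ε) (hε1 : ε ≤ 1) (t : ℕ)
    (ht : (m : ℝ) ^ 2 * (n : ℝ) ^ 2 *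
      (m * n * Real.log (((∑ i, r i : ℕ) : ℝ) + 1) + Real.log (1 / ε)) ≤ t) :
    (1 / 2) * ∑ y, |(heatBath22 m n r c ^ t) x y - 1 / (Fintype.card (CT m n r c) : ℝ)| ≤ ε := by
  refine mixing22_of_gap hm hn r c 1 one_pos le_rfl (gap22_of_threeRow_on r h3 c) x ε hε hε1 t ?_
  rw [div_one]
  exact ht

/-- Row form of `mixing_of_threeRow_on`. -/
theorem mixing_of_rows_on {m n : ℕ} (hm : 2 ≤ m) (r : Fin m → ℕ) (c : Fin n → ℕ)
    (hV : ∀ (φ : Fin 3 ↪ Fin m) (c' : Fin n → ℕ) (g : Fin 3 → (Fin n → ℕ) → ℝ),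
      (∀ k, ∑ x : CT 3 n (r ∘ φ) c', g k (x.1 k) = 0) →
      ∑ x : CT 3 n (r ∘ φ) c', (∑ k, g k (x.1 k)) ^ 2
        ≤ 2 * ∑ x : CT 3 n (r ∘ φ) c', ∑ k, g k (x.1 k) ^ 2)
    (x : CT m n r c) (ε : ℝ) (hε : 0 < ε) (hε1 : ε ≤ 1) (t : ℕ)
    (ht : (m : ℝ) ^ 2 * (m * n * Real.log (((∑ i, r i : ℕ) : ℝ) + 1) + Real.log (1 / ε)) ≤ t) :
    (1 / 2) * ∑ y, |(heatBath m n r c ^ t) x y - 1 / (Fintype.card (CT m n r c) : ℝ)| ≤ ε :=
  mixing_of_threeRow_on hm r c
    (fun φ c' g => threeRow_of_rows (r ∘ φ) c' (hV φ c') g) x ε hε hε1 t ht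

/-- Row form of `mixing22_of_threeRow_on`. -/
theorem mixing22_of_rows_on {m n : ℕ} (hm : 2 ≤ m) (hn : 2 ≤ n) (r : Fin m → ℕ)
    (c : Fin n → ℕ)
    (hV : ∀ (φ : Fin 3 ↪ Fin m) (c' : Fin n → ℕ) (g : Fin 3 → (Fin n → ℕ) → ℝ),
      (∀ k, ∑ x : CT 3 n (r ∘ φ) c', g k (x.1 k) = 0) →
      ∑ x : CT 3 n (r ∘ φ) c', (∑ k, g k (x.1 k)) ^ 2
        ≤ 2 * ∑ x : CT 3 n (r ∘ φ) c', ∑ k, g k (x.1 k) ^ 2)
    (x : CT m n r c) (ε : ℝ) (hε : 0 < ε) (hε1 : ε ≤ 1) (t : ℕ)
    (ht : (m : ℝ) ^ 2 * (n : ℝ) ^ 2 *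
      (m * n * Real.log (((∑ i, r i : ℕ) : ℝ) + 1) + Real.log (1 / ε)) ≤ t) :
    (1 / 2) * ∑ y, |(heatBath22 m n r c ^ t) x y - 1 / (Fintype.card (CT m n r c) : ℝ)| ≤ ε :=
  mixing22_of_threeRow_on hm hn r c
    (fun φ c' g => threeRow_of_rows (r ∘ φ) c' (hV φ c') g) x ε hε hε1 t ht

end Vale.Agent.Lib.P328.RP
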