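import Mathlib
import Vale.Agent.Lib.P328.RP.Defs

/-!
P328: permuting the rows of contingency tables.  Resampling the row set `q.map σ` of a table
corresponds to resampling the row set `q` of the table with rows permuted by `σ`; hence the
three-row inequality for the row sums `r ∘ σ` gives the three-row inequality for `r`.
-/

namespace Vale.Agent.Lib.P328.RP

open Finset
open Vale.Agent.Lib.P335.Bip

section rowperm

variable {m n : ℕ} {r : Fin m → ℕ} {c : Fin n → ℕ}

/-- Permuting the rows of a table: row `i` of the new table is row `σ i` of the old one. -/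
def rperm (σ : Equiv.Perm (Fin m)) : CT m n r c ≃ CT m n (r ∘ σ) c where
  toFun x := ⟨fun i => x.1 (σ i), fun i => x.2.1 (σ i), fun j => by
    rw [Equiv.sum_comp σ (fun i => x.1 i j)]
    exact x.2.2 j⟩
  invFun y := ⟨fun i => y.1 (σ.symm i), fun i => by
    have h := y.2.1 (σ.symm i)
    simp only [Function.comp_apply, Equiv.apply_symm_apply] at h
    exact h, fun j => by
    rw [Equiv.sum_comp σ.symm (fun i => y.1 i j)]
    exact y.2.2 j⟩
  left_inv x := by
    apply Subtype.ext
    funext i
    simp
  right_inv y := by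
    apply Subtype.ext
    funext i
    simp

theorem rperm_val (σ : Equiv.Perm (Fin m)) (x : CT m n r c) (i : Fin m) :
    (rperm σ x).1 i = x.1 (σ i) := rfl

theorem ip_rperm (σ : Equiv.Perm (Fin m)) (f g : CT m n (r ∘ σ) c → ℝ) :
    ip (fun x : CT m n r c => f (rperm σ x)) (fun x : CT m n r c => g (rperm σ x)) = ip f g := by
  unfold ip
  exact Equiv.sum_comp (rperm σ) (fun y => f y * g y)

theorem mask_rperm_iff (σ : Equiv.Perm (Fin m)) (q : Finset (Fin m)) (x y : CT m n r c) :
    mask (q.map σ.toEmbedding) y.1 = mask (q.map σ.toEmbedding) x.1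
      ↔ mask q (rperm σ y).1 = mask q (rperm σ x).1 := by
  rw [mask_eq_iff, mask_eq_iff]
  constructor
  · intro h i hi
    have h1 := h (σ i) (fun hh => by
      rw [Finset.mem_map] at hh
      obtain ⟨i', hi', he⟩ := hh
      have : i' = i := σ.injective he
      exact hi (this ▸ hi'))
    rw [rperm_val, rperm_val]
    exact h1
  · intro h i hi
    have h1 := h (σ.symm i) (fun hh => hi (by
      rw [Finset.mem_map]
      exact ⟨σ.symm i, hh, by simp⟩))
    rw [rperm_val, rperm_val] at h1
    simp only [Equiv.apply_symm_apply] at h1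
    exact h1

theorem R_rperm (σ : Equiv.Perm (Fin m)) (q : Finset (Fin m)) (f : CT m n (r ∘ σ) c → ℝ)
    (x : CT m n r c) :
    R (q.map σ.toEmbedding) (fun y : CT m n r c => f (rperm σ y)) x = R q f (rperm σ x) := by
  rw [R_apply, R_apply]
  have hsum : ∑ y ∈ univ.filter (fun y : CT m n r c =>
        mask (q.map σ.toEmbedding) y.1 = mask (q.map σ.toEmbedding) x.1), f (rperm σ y)
      = ∑ y' ∈ univ.filter (fun y' : CT m n (r ∘ σ) c =>
          mask q y'.1 = mask q (rperm σ x).1), f y' := by
    apply Finset.sum_equiv (rperm σ)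
    · intro y
      simp only [Finset.mem_filter, Finset.mem_univ, true_and]
      exact mask_rperm_iff σ q x y
    · intro y _
      rfl
  have hcard : (univ.filter (fun y : CT m n r c =>
        mask (q.map σ.toEmbedding) y.1 = mask (q.map σ.toEmbedding) x.1)).card
      = (univ.filter (fun y' : CT m n (r ∘ σ) c =>
          mask q y'.1 = mask q (rperm σ x).1)).card := by
    apply Finset.card_equiv (rperm σ)
    intro y
    simp only [Finset.mem_filter, Finset.mem_univ, true_and]
    exact mask_rperm_iff σ q x y
  rw [hsum, hcard]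

end rowperm

/-- **Row permutations.**  The three-row inequality for the row sums `r ∘ σ` implies the
three-row inequality for the row sums `r`. -/
theorem threeRow_of_perm {n : ℕ} (r : Fin 3 → ℕ) (c : Fin n → ℕ) (σ : Equiv.Perm (Fin 3))
    (h : ∀ g : CT 3 n (r ∘ σ) c → ℝ,
      ∑ q ∈ (univ : Finset (Fin 3)).powersetCard 2, ip g (R q g) ≤ 2 * ip g g + ip g (R univ g))
    (f : CT 3 n r c → ℝ) :
    ∑ q ∈ (univ : Finset (Fin 3)).powersetCard 2, ip f (R q f) ≤ 2 * ip f f + ip f (R univ f) := by
  classical
  set g : CT 3 n (r ∘ σ) c → ℝ := fun y => f ((rperm σ).symm y) with hg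
  have hf : f = fun x : CT 3 n r c => g (rperm σ x) := by
    funext x
    simp only [hg, Equiv.symm_apply_apply]
  have key := h g
  have e1 : ip f f = ip g g := by
    rw [hf]
    exact ip_rperm σ g g
  have e2 : ∀ q : Finset (Fin 3), ip f (R (q.map σ.toEmbedding) f) = ip g (R q g) := by
    intro q
    have h1 : R (q.map σ.toEmbedding) f = fun x : CT 3 n r c => R q g (rperm σ x) := by
      funext x
      rw [hf]
      exact R_rperm σ q g x
    rw [h1]
    conv_lhs => rw [hf]
    exact ip_rperm σ g (R q g)
  have e3 : ip f (R univ f) = ip g (R univ g) := by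
    have h1 := e2 univ
    rw [Finset.map_univ_equiv] at h1
    exact h1
  have e4 : ∑ q ∈ (univ : Finset (Fin 3)).powersetCard 2, ip f (R q f)
      = ∑ q ∈ (univ : Finset (Fin 3)).powersetCard 2, ip f (R (q.map σ.toEmbedding) f) := by
    have h1 : (univ : Finset (Fin 3)).powersetCard 2
        = ((univ : Finset (Fin 3)).map σ.toEmbedding).powersetCard 2 := by
      rw [Finset.map_univ_equiv]
    conv_lhs => rw [h1]
    rw [Finset.powersetCard_map, Finset.sum_map]
    rfl
  rw [e4, Finset.sum_congr rfl (fun q _ => e2 q), e1, e3]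
  exact key

end Vale.Agent.Lib.P328.RP
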