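import Mathlib
import Vale.Agent.Lib.P328.RP.Family
import Vale.Agent.Lib.P328.RP.RowPerm

/-!
P328: families of margins with few rows of sum at least two.

* `threeRow_of_small_row` : if the three-row inequality holds whenever the last row has sum one,
  it holds whenever some row has sum at most one.
* `mixing22_two_fat`, `mixing_two_fat` : then, for all `m × n` tables in which all rows except
  two have sum at most one, the heat bath on two-by-two blocks and the row-pair heat bath mix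
  with the bounds of `mixing22_of_threeRow_on`, `mixing_of_threeRow_on`.
* `threeRow_of_two_small_any`, `mixing22_one_fat`, `mixing_one_fat` : the same for the
  three-row inequality with two rows (in positions `0` and `2`) of sum at most one, and the
  tables in which all rows except one have sum at most one.
-/

namespace Vale.Agent.Lib.P328.RP

open Finset
open Vale.Agent.Lib.P335.Bip

namespace FamilyUnit

theorem exists_perm : ∀ a b : Fin 3, a ≠ b → ∃ σ : Equiv.Perm (Fin 3), σ 0 = a ∧ σ 2 = b := by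
  decide

/-- among three distinct rows one differs from two given rows -/
theorem exists_third {m : ℕ} (φ : Fin 3 ↪ Fin m) (i0 i1 : Fin m) :
    ∃ k : Fin 3, φ k ≠ i0 ∧ φ k ≠ i1 := by
  by_contra hcon
  push Not at hcon
  have h0 := hcon 0
  have h1 := hcon 1
  have h2 := hcon 2
  have e01 : φ 0 ≠ φ 1 := fun h => absurd (φ.injective h) (by decide)
  have e02 : φ 0 ≠ φ 2 := fun h => absurd (φ.injective h) (by decide)
  have e12 : φ 1 ≠ φ 2 := fun h => absurd (φ.injective h) (by decide)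
  by_cases a0 : φ 0 = i0
  · by_cases a1 : φ 1 = i0
    · exact e01 (a0.trans a1.symm)
    · by_cases a2 : φ 2 = i0
      · exact e02 (a0.trans a2.symm)
      · exact e12 ((h1 a1).trans (h2 a2).symm)
  · by_cases a1 : φ 1 = i0
    · by_cases a2 : φ 2 = i0
      · exact e12 (a1.trans a2.symm)
      · exact e02 ((h0 a0).trans (h2 a2).symm)
    · exact e01 ((h0 a0).trans (h1 a1).symm)

/-- among three distinct rows two differ from a given row -/
theorem exists_two {m : ℕ} (φ : Fin 3 ↪ Fin m) (i0 : Fin m) :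
    ∃ a b : Fin 3, a ≠ b ∧ φ a ≠ i0 ∧ φ b ≠ i0 := by
  have e01 : φ 0 ≠ φ 1 := fun h => absurd (φ.injective h) (by decide)
  have e02 : φ 0 ≠ φ 2 := fun h => absurd (φ.injective h) (by decide)
  have e12 : φ 1 ≠ φ 2 := fun h => absurd (φ.injective h) (by decide)
  by_cases a0 : φ 0 = i0
  · exact ⟨1, 2, by decide, fun h => e01 (a0.trans h.symm), fun h => e02 (a0.trans h.symm)⟩
  · by_cases a1 : φ 1 = i0
    · exact ⟨0, 2, by decide, a0, fun h => e12 (a1.trans h.symm)⟩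
    · exact ⟨0, 1, by decide, a0, a1⟩

end FamilyUnit

open FamilyUnit

/-- If the three-row inequality holds whenever the last row has sum one, it holds whenever
some row has sum at most one. -/
theorem threeRow_of_small_row {n : ℕ}
    (hU : ∀ (r' : Fin 3 → ℕ) (c' : Fin n → ℕ), r' 2 = 1 → ∀ g : CT 3 n r' c' → ℝ,
      ∑ q ∈ (univ : Finset (Fin 3)).powersetCard 2, ip g (R q g) ≤ 2 * ip g g + ip g (R univ g))
    (r : Fin 3 → ℕ) (c : Fin n → ℕ) (k : Fin 3) (hk : r k ≤ 1) (f : CT 3 n r c → ℝ) :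
    ∑ q ∈ (univ : Finset (Fin 3)).powersetCard 2, ip f (R q f) ≤ 2 * ip f f + ip f (R univ f) := by
  rcases Nat.lt_or_ge (r k) 1 with h0 | h1
  · exact threeRow_of_zero_row r c k (by omega) f
  · have hk1 : r k = 1 := le_antisymm hk h1
    refine threeRow_of_perm r c (Equiv.swap 2 k) (hU (r ∘ Equiv.swap 2 k) c ?_) f
    rw [Function.comp_apply, Equiv.swap_apply_left]
    exact hk1

/-- If the three-row inequality holds whenever rows `0` and `2` have sum at most one, it holds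
whenever two of the three rows have sum at most one. -/
theorem threeRow_of_two_small_any {n : ℕ}
    (hT : ∀ (r' : Fin 3 → ℕ) (c' : Fin n → ℕ), r' 0 ≤ 1 → r' 2 ≤ 1 → ∀ g : CT 3 n r' c' → ℝ,
      ∑ q ∈ (univ : Finset (Fin 3)).powersetCard 2, ip g (R q g) ≤ 2 * ip g g + ip g (R univ g))
    (r : Fin 3 → ℕ) (c : Fin n → ℕ) (a b : Fin 3) (hab : a ≠ b) (ha : r a ≤ 1) (hb : r b ≤ 1)
    (f : CT 3 n r c → ℝ) :
    ∑ q ∈ (univ : Finset (Fin 3)).powersetCard 2, ip f (R q f) ≤ 2 * ip f f + ip f (R univ f) := by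
  obtain ⟨σ, h0, h2⟩ := exists_perm a b hab
  refine threeRow_of_perm r c σ (hT (r ∘ σ) c ?_ ?_) f
  · rw [Function.comp_apply, h0]
    exact ha
  · rw [Function.comp_apply, h2]
    exact hb

/-- All rows except two have sum at most one: the heat bath on two-by-two blocks. -/
theorem mixing22_two_fat {n : ℕ} (hn : 2 ≤ n)
    (hU : ∀ (r' : Fin 3 → ℕ) (c' : Fin n → ℕ), r' 2 = 1 → ∀ g : CT 3 n r' c' → ℝ,
      ∑ q ∈ (univ : Finset (Fin 3)).powersetCard 2, ip g (R q g) ≤ 2 * ip g g + ip g (R univ g))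
    {m : ℕ} (hm : 2 ≤ m) (r : Fin m → ℕ) (i0 i1 : Fin m)
    (hr : ∀ i, i ≠ i0 → i ≠ i1 → r i ≤ 1) (c : Fin n → ℕ)
    (x : CT m n r c) (ε : ℝ) (hε : 0 < ε) (hε1 : ε ≤ 1) (t : ℕ)
    (ht : (m : ℝ) ^ 2 * (n : ℝ) ^ 2 *
      (m * n * Real.log (((∑ i, r i : ℕ) : ℝ) + 1) + Real.log (1 / ε)) ≤ t) :
    (1 / 2) * ∑ y, |(heatBath22 m n r c ^ t) x y - 1 / (Fintype.card (CT m n r c) : ℝ)| ≤ ε := by
  refine mixing22_of_threeRow_on hm hn r c (fun φ c' g => ?_) x ε hε hε1 t ht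
  obtain ⟨k, hk0, hk1⟩ := exists_third φ i0 i1
  exact threeRow_of_small_row hU (r ∘ φ) c' k (hr (φ k) hk0 hk1) g

/-- All rows except two have sum at most one: the row-pair heat bath. -/
theorem mixing_two_fat {n : ℕ}
    (hU : ∀ (r' : Fin 3 → ℕ) (c' : Fin n → ℕ), r' 2 = 1 → ∀ g : CT 3 n r' c' → ℝ,
      ∑ q ∈ (univ : Finset (Fin 3)).powersetCard 2, ip g (R q g) ≤ 2 * ip g g + ip g (R univ g))
    {m : ℕ} (hm : 2 ≤ m) (r : Fin m → ℕ) (i0 i1 : Fin m)
    (hr : ∀ i, i ≠ i0 → i ≠ i1 → r i ≤ 1) (c : Fin n → ℕ)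
    (x : CT m n r c) (ε : ℝ) (hε : 0 < ε) (hε1 : ε ≤ 1) (t : ℕ)
    (ht : (m : ℝ) ^ 2 * (m * n * Real.log (((∑ i, r i : ℕ) : ℝ) + 1) + Real.log (1 / ε)) ≤ t) :
    (1 / 2) * ∑ y, |(heatBath m n r c ^ t) x y - 1 / (Fintype.card (CT m n r c) : ℝ)| ≤ ε := by
  refine mixing_of_threeRow_on hm r c (fun φ c' g => ?_) x ε hε hε1 t ht
  obtain ⟨k, hk0, hk1⟩ := exists_third φ i0 i1
  exact threeRow_of_small_row hU (r ∘ φ) c' k (hr (φ k) hk0 hk1) g

/-- All rows except one have sum at most one: the heat bath on two-by-two blocks. -/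
theorem mixing22_one_fat {n : ℕ} (hn : 2 ≤ n)
    (hT : ∀ (r' : Fin 3 → ℕ) (c' : Fin n → ℕ), r' 0 ≤ 1 → r' 2 ≤ 1 → ∀ g : CT 3 n r' c' → ℝ,
      ∑ q ∈ (univ : Finset (Fin 3)).powersetCard 2, ip g (R q g) ≤ 2 * ip g g + ip g (R univ g))
    {m : ℕ} (hm : 2 ≤ m) (r : Fin m → ℕ) (i0 : Fin m)
    (hr : ∀ i, i ≠ i0 → r i ≤ 1) (c : Fin n → ℕ)
    (x : CT m n r c) (ε : ℝ) (hε : 0 < ε) (hε1 : ε ≤ 1) (t : ℕ)
    (ht : (m : ℝ) ^ 2 * (n : ℝ) ^ 2 *
      (m * n * Real.log (((∑ i, r i : ℕ) : ℝ) + 1) + Real.log (1 / ε)) ≤ t) :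
    (1 / 2) * ∑ y, |(heatBath22 m n r c ^ t) x y - 1 / (Fintype.card (CT m n r c) : ℝ)| ≤ ε := by
  refine mixing22_of_threeRow_on hm hn r c (fun φ c' g => ?_) x ε hε hε1 t ht
  obtain ⟨a, b, hab, ha, hb⟩ := exists_two φ i0
  exact threeRow_of_two_small_any hT (r ∘ φ) c' a b hab (hr (φ a) ha) (hr (φ b) hb) g

/-- All rows except one have sum at most one: the row-pair heat bath. -/
theorem mixing_one_fat {n : ℕ}
    (hT : ∀ (r' : Fin 3 → ℕ) (c' : Fin n → ℕ), r' 0 ≤ 1 → r' 2 ≤ 1 → ∀ g : CT 3 n r' c' → ℝ,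
      ∑ q ∈ (univ : Finset (Fin 3)).powersetCard 2, ip g (R q g) ≤ 2 * ip g g + ip g (R univ g))
    {m : ℕ} (hm : 2 ≤ m) (r : Fin m → ℕ) (i0 : Fin m)
    (hr : ∀ i, i ≠ i0 → r i ≤ 1) (c : Fin n → ℕ)
    (x : CT m n r c) (ε : ℝ) (hε : 0 < ε) (hε1 : ε ≤ 1) (t : ℕ)
    (ht : (m : ℝ) ^ 2 * (m * n * Real.log (((∑ i, r i : ℕ) : ℝ) + 1) + Real.log (1 / ε)) ≤ t) :
    (1 / 2) * ∑ y, |(heatBath m n r c ^ t) x y - 1 / (Fintype.card (CT m n r c) : ℝ)| ≤ ε := by
  refine mixing_of_threeRow_on hm r c (fun φ c' g => ?_) x ε hε hε1 t ht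
  obtain ⟨a, b, hab, ha, hb⟩ := exists_two φ i0
  exact threeRow_of_two_small_any hT (r ∘ φ) c' a b hab (hr (φ a) ha) (hr (φ b) hb) g

end Vale.Agent.Lib.P328.RP
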