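import Mathlib
import Vale.Agent.Lib.P328.RP.RestrictedCol
import Vale.Agent.Lib.P328.RP.Family
import Vale.Agent.Lib.P328.RP.FamilyUnit
import Vale.Agent.Lib.P328.RP.RowPerm
import Vale.Agent.Lib.P328.RP.Rows
import Vale.Agent.Lib.P328.helper12.TwoSmallRows

/-!
P328: margins with two arbitrary rows, all other row sums at most one, and a hub column: the
column sums outside one column `j0` add up to at most each of the two large row sums.

Every three-row system inside such tables either has a row with sum zero, or two rows with sum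
at most one, or consists of the two large rows and a row with sum one; in the last case its
column `j0` exceeds both large row sums.  So the three-row inequality is only needed for
`r' 2 = 1`, `r' 0 + 1 ≤ c' j0`, `r' 1 + 1 ≤ c' j0` (hypothesis `hHub` below).

* `threeRow_at_hub` : the three-row inequality for every three-row system inside the tables.
* `mixing22_two_fat_hub_of`, `mixing_two_fat_hub_of` : the mixing bounds.
-/

namespace Vale.Agent.Lib.P328.RP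

open Finset
open Vale.Agent.Lib.P335.Bip

namespace FamilyHub

theorem swap_vals : ∀ k : Fin 3, Equiv.swap 2 k 0 ≠ k ∧ Equiv.swap 2 k 1 ≠ k ∧
    Equiv.swap 2 k 0 ≠ Equiv.swap 2 k 1 := by
  decide

/-- the column sums of three rows of a table are at most the column sums of the table -/
theorem sub_col_le {m n : ℕ} {r : Fin m → ℕ} {c : Fin n → ℕ} (φ : Fin 3 ↪ Fin m)
    (x0 : CT m n r c) (j : Fin n) : ∑ a, x0.1 (φ a) j ≤ c j := by
  have h1 : ∑ a, x0.1 (φ a) j = ∑ i ∈ (univ : Finset (Fin 3)).map φ, x0.1 i j :=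
    (Finset.sum_map univ φ (fun i => x0.1 i j)).symm
  rw [h1, ← x0.2.2 j]
  exact Finset.sum_le_sum_of_subset (Finset.subset_univ _)

/-- the column sums of three rows of a table add up to the three row sums -/
theorem sub_col_sum {m n : ℕ} {r : Fin m → ℕ} {c : Fin n → ℕ} (φ : Fin 3 ↪ Fin m)
    (x0 : CT m n r c) : ∑ j, ∑ a, x0.1 (φ a) j = ∑ a, (r ∘ φ) a := by
  rw [Finset.sum_comm]
  exact Finset.sum_congr rfl (fun a _ => x0.2.1 (φ a))

end FamilyHub

open FamilyHub in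
/-- **Three-row systems inside tables with two large rows and a hub column.** -/
theorem threeRow_at_hub {m n : ℕ}
    (hHub : ∀ (r' : Fin 3 → ℕ) (c' : Fin n → ℕ) (j0 : Fin n), r' 2 = 1 → r' 0 + 1 ≤ c' j0 →
      r' 1 + 1 ≤ c' j0 → ∀ g : CT 3 n r' c' → ℝ,
        ∑ q ∈ (univ : Finset (Fin 3)).powersetCard 2, ip g (R q g)
          ≤ 2 * ip g g + ip g (R univ g))
    (r : Fin m → ℕ) (i0 i1 : Fin m) (hr : ∀ i, i ≠ i0 → i ≠ i1 → r i ≤ 1)
    (c : Fin n → ℕ) (j0 : Fin n)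
    (h0 : ∑ j ∈ univ.erase j0, c j ≤ r i0) (h1 : ∑ j ∈ univ.erase j0, c j ≤ r i1)
    (φ : Fin 3 ↪ Fin m) (x0 : CT m n r c)
    (g : CT 3 n (r ∘ φ) (fun j => ∑ a, x0.1 (φ a) j) → ℝ) :
    ∑ q ∈ (univ : Finset (Fin 3)).powersetCard 2, ip g (R q g)
      ≤ 2 * ip g g + ip g (R univ g) := by
  classical
  obtain ⟨k, hk0, hk1⟩ := FamilyUnit.exists_third φ i0 i1
  have hsk : (r ∘ φ) k ≤ 1 := hr (φ k) hk0 hk1
  rcases Nat.lt_or_ge ((r ∘ φ) k) 1 with hz | hge
  · exact threeRow_of_zero_row (r ∘ φ) _ k (by omega) g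
  have hk : (r ∘ φ) k = 1 := le_antisymm hsk hge
  by_cases hsmall : ∃ i : Fin 3, i ≠ k ∧ (r ∘ φ) i ≤ 1
  · obtain ⟨i, hik, hi⟩ := hsmall
    exact threeRow_of_rows (r ∘ φ) _
      (fun g' hg' => threeRow_rows_of_two_small (r ∘ φ) _ i k hik hi hsk g' hg') g
  push Not at hsmall
  have hfat : ∀ i : Fin 3, i ≠ k → ∑ j ∈ univ.erase j0, c j ≤ (r ∘ φ) i := by
    intro i hik
    have h2 := hsmall i hik
    by_cases e0 : φ i = i0
    · rw [Function.comp_apply, e0]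
      exact h0
    · by_cases e1 : φ i = i1
      · rw [Function.comp_apply, e1]
        exact h1
      · have h3 := hr (φ i) e0 e1
        rw [Function.comp_apply] at h2
        omega
  obtain ⟨ha, hb, hab⟩ := swap_vals k
  have htot : ∑ j, ∑ a, x0.1 (φ a) j
      = (r ∘ φ) k + ((r ∘ φ) (Equiv.swap 2 k 0) + (r ∘ φ) (Equiv.swap 2 k 1)) := by
    rw [sub_col_sum φ x0, Family.univ_eq k (Equiv.swap 2 k 0) (Equiv.swap 2 k 1) ha.symm hb.symm
      hab, Finset.sum_insert (by simp [ha.symm, hb.symm]), Finset.sum_insert (by simp [hab]),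
      Finset.sum_singleton]
  have hsplit : ∑ a, x0.1 (φ a) j0 + ∑ j ∈ univ.erase j0, ∑ a, x0.1 (φ a) j
      = ∑ j, ∑ a, x0.1 (φ a) j :=
    Finset.add_sum_erase univ (fun j => ∑ a, x0.1 (φ a) j) (Finset.mem_univ j0)
  have hrest : ∑ j ∈ univ.erase j0, ∑ a, x0.1 (φ a) j ≤ ∑ j ∈ univ.erase j0, c j :=
    Finset.sum_le_sum (fun j _ => sub_col_le φ x0 j)
  have hfa := hfat _ ha
  have hfb := hfat _ hb
  refine threeRow_of_perm (r ∘ φ) _ (Equiv.swap 2 k)
    (hHub ((r ∘ φ) ∘ Equiv.swap 2 k) _ j0 ?_ ?_ ?_) g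
  · rw [Function.comp_apply, Equiv.swap_apply_left]
    exact hk
  · show (r ∘ φ) (Equiv.swap 2 k 0) + 1 ≤ ∑ a, x0.1 (φ a) j0
    omega
  · show (r ∘ φ) (Equiv.swap 2 k 1) + 1 ≤ ∑ a, x0.1 (φ a) j0
    omega

/-- Two arbitrary rows, all other row sums at most one, hub column: the heat bath on
two-by-two blocks, given the three-row inequality with a hub column. -/
theorem mixing22_two_fat_hub_of {m n : ℕ} (hm : 2 ≤ m) (hn : 2 ≤ n)
    (hHub : ∀ (r' : Fin 3 → ℕ) (c' : Fin n → ℕ) (j0 : Fin n), r' 2 = 1 → r' 0 + 1 ≤ c' j0 →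
      r' 1 + 1 ≤ c' j0 → ∀ g : CT 3 n r' c' → ℝ,
        ∑ q ∈ (univ : Finset (Fin 3)).powersetCard 2, ip g (R q g)
          ≤ 2 * ip g g + ip g (R univ g))
    (r : Fin m → ℕ) (i0 i1 : Fin m) (hr : ∀ i, i ≠ i0 → i ≠ i1 → r i ≤ 1)
    (c : Fin n → ℕ) (j0 : Fin n)
    (h0 : ∑ j ∈ univ.erase j0, c j ≤ r i0) (h1 : ∑ j ∈ univ.erase j0, c j ≤ r i1)
    (x : CT m n r c) (ε : ℝ) (hε : 0 < ε) (hε1 : ε ≤ 1) (t : ℕ)
    (ht : (m : ℝ) ^ 2 * (n : ℝ) ^ 2 *
      (m * n * Real.log (((∑ i, r i : ℕ) : ℝ) + 1) + Real.log (1 / ε)) ≤ t) :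
    (1 / 2) * ∑ y, |(heatBath22 m n r c ^ t) x y - 1 / (Fintype.card (CT m n r c) : ℝ)| ≤ ε :=
  mixing22_of_threeRow_at hm hn r c
    (fun φ x0 g => threeRow_at_hub hHub r i0 i1 hr c j0 h0 h1 φ x0 g) x ε hε hε1 t ht

/-- Two arbitrary rows, all other row sums at most one, hub column: the row-pair heat bath,
given the three-row inequality with a hub column. -/
theorem mixing_two_fat_hub_of {m n : ℕ} (hm : 2 ≤ m)
    (hHub : ∀ (r' : Fin 3 → ℕ) (c' : Fin n → ℕ) (j0 : Fin n), r' 2 = 1 → r' 0 + 1 ≤ c' j0 →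
      r' 1 + 1 ≤ c' j0 → ∀ g : CT 3 n r' c' → ℝ,
        ∑ q ∈ (univ : Finset (Fin 3)).powersetCard 2, ip g (R q g)
          ≤ 2 * ip g g + ip g (R univ g))
    (r : Fin m → ℕ) (i0 i1 : Fin m) (hr : ∀ i, i ≠ i0 → i ≠ i1 → r i ≤ 1)
    (c : Fin n → ℕ) (j0 : Fin n)
    (h0 : ∑ j ∈ univ.erase j0, c j ≤ r i0) (h1 : ∑ j ∈ univ.erase j0, c j ≤ r i1)
    (x : CT m n r c) (ε : ℝ) (hε : 0 < ε) (hε1 : ε ≤ 1) (t : ℕ)
    (ht : (m : ℝ) ^ 2 * (m * n * Real.log (((∑ i, r i : ℕ) : ℝ) + 1) + Real.log (1 / ε)) ≤ t) :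
    (1 / 2) * ∑ y, |(heatBath m n r c ^ t) x y - 1 / (Fintype.card (CT m n r c) : ℝ)| ≤ ε :=
  mixing_of_threeRow_at hm r c
    (fun φ x0 g => threeRow_at_hub hHub r i0 i1 hr c j0 h0 h1 φ x0 g) x ε hε hε1 t ht

end Vale.Agent.Lib.P328.RP
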