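import Mathlib
import Vale.Agent.Lib.P328.RP.Defs
import Vale.Agent.Lib.P328.RP.Rows

/-!
P328: the dual criterion for the three-row inequality.

Let `k`, `a`, `b` be the three rows of `3 × n` tables with margins `r`, `c`.  Suppose every
function `φ` of row `k` with zero sum over the tables splits as `φ = z1 + z2`, where `z1` has
zero sum over every class of tables with the same row `a`, `z2` has zero sum over every class
of tables with the same row `b`, and `∑ x, z1 x * z2 x ≥ 0`.  Then the three-row inequality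
`∑ over row pairs q of ⟨f, R q f⟩ ≤ 2 ⟨f, f⟩ + ⟨f, R univ f⟩` holds on these tables.
-/

namespace Vale.Agent.Lib.P328.RP

open Finset
open Vale.Agent.Lib.P335.Bip

namespace DualAux

/-- the Cauchy-Schwarz step in real numbers -/
theorem real_core {S A B Z1 Z2 x1 x2 : ℝ} (hA : 0 ≤ A) (hB : 0 ≤ B) (hZ1 : 0 ≤ Z1)
    (hZ2 : 0 ≤ Z2) (h1 : x1 ^ 2 ≤ A * Z1) (h2 : x2 ^ 2 ≤ B * Z2) (hS : S = x1 + x2)
    (hZ : Z1 + Z2 ≤ S) : S ≤ A + B := by
  have h3 : (x1 * x2) ^ 2 ≤ ((A * Z2 + B * Z1) / 2) ^ 2 := by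
    have h5 : x1 ^ 2 * x2 ^ 2 ≤ (A * Z1) * (B * Z2) :=
      mul_le_mul h1 h2 (sq_nonneg x2) (mul_nonneg hA hZ1)
    nlinarith [sq_nonneg (A * Z2 - B * Z1)]
  have h4 : x1 * x2 ≤ (A * Z2 + B * Z1) / 2 :=
    (abs_le_of_sq_le_sq' h3 (by positivity)).2
  have h6 : S ^ 2 ≤ (A + B) * (Z1 + Z2) := by
    rw [hS]
    nlinarith
  have h7 : S ^ 2 ≤ (A + B) * S := h6.trans (mul_le_mul_of_nonneg_left hZ (by linarith))
  by_contra hcon
  push Not at hcon
  nlinarith

theorem univ_eq : ∀ k a b : Fin 3, k ≠ a → k ≠ b → a ≠ b →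
    (univ : Finset (Fin 3)) = {k, a, b} := by
  decide

variable {n : ℕ} {r : Fin 3 → ℕ} {c : Fin n → ℕ}

/-- a function with zero sums over the classes of row `a` is killed by the conditional
expectation given row `a` -/
theorem R_erase_eq_zero (a : Fin 3) (z : CT 3 n r c → ℝ)
    (hz : ∀ x0 : CT 3 n r c, ∑ x ∈ univ.filter (fun x : CT 3 n r c => x.1 a = x0.1 a), z x = 0) :
    R (univ.erase a) z = 0 := by
  funext x0
  rw [R_apply_fibre]
  have hfib : fibre (univ.erase a) x0 = univ.filter (fun x : CT 3 n r c => x.1 a = x0.1 a) := by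
    ext y
    rw [mem_fibre, mem_filter]
    constructor
    · intro h
      exact ⟨mem_univ _, h a (Finset.notMem_erase a univ)⟩
    · rintro ⟨-, h⟩ i hi
      have hia : i = a := by
        by_contra hne
        exact hi (Finset.mem_erase.mpr ⟨hne, Finset.mem_univ i⟩)
      rw [hia]
      exact h
  rw [hfib, hz x0, zero_div]
  rfl

theorem ip_of_R_zero (a : Fin 3) (f z : CT 3 n r c → ℝ) (hz : R (univ.erase a) z = 0) :
    ip (f - R (univ.erase a) f) z = ip f z := by
  rw [ip_sub_left, ← R_symm, hz, ip_zero_right, sub_zero]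

theorem R_univ_of_R_zero (a : Fin 3) (z : CT 3 n r c → ℝ) (hz : R (univ.erase a) z = 0) :
    R univ z = 0 := by
  rw [← R_T_R_of_subset (Finset.subset_univ (univ.erase a)) z, hz, map_zero]

end DualAux

open DualAux in
/-- **Dual criterion for the three-row inequality.** -/
theorem threeRow_of_dual {n : ℕ} (r : Fin 3 → ℕ) (c : Fin n → ℕ) (k a b : Fin 3)
    (hka : k ≠ a) (hkb : k ≠ b) (hab : a ≠ b)
    (hD : ∀ φ : CT 3 n r c → ℝ, (∀ x y : CT 3 n r c, x.1 k = y.1 k → φ x = φ y) →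
      ∑ x, φ x = 0 →
      ∃ z1 z2 : CT 3 n r c → ℝ, (∀ x, φ x = z1 x + z2 x) ∧
        (∀ x0 : CT 3 n r c,
          ∑ x ∈ univ.filter (fun x : CT 3 n r c => x.1 a = x0.1 a), z1 x = 0) ∧
        (∀ x0 : CT 3 n r c,
          ∑ x ∈ univ.filter (fun x : CT 3 n r c => x.1 b = x0.1 b), z2 x = 0) ∧
        0 ≤ ∑ x, z1 x * z2 x)
    (f : CT 3 n r c → ℝ) :
    ∑ q ∈ (univ : Finset (Fin 3)).powersetCard 2, ip f (R q f) ≤ 2 * ip f f + ip f (R univ f) := by
  classical
  obtain ⟨z1, z2, hsum, hz1, hz2, h12⟩ :=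
    hD (Rows.Fk f k) (fun x y h => Rows.Fk_congr f k h) (Rows.sum_Fk f k)
  have hφ : Rows.Fk f k = z1 + z2 := by
    funext x
    rw [Pi.add_apply]
    exact hsum x
  have hR1 := R_erase_eq_zero a z1 hz1
  have hR2 := R_erase_eq_zero b z2 hz2
  have h12' : 0 ≤ ip z1 z2 := h12
  -- the quantities
  have hS : ip (Rows.Fk f k) (Rows.Fk f k)
      = ip (f - R (univ.erase a) f) z1 + ip (f - R (univ.erase b) f) z2 := by
    rw [ip_of_R_zero a f z1 hR1, ip_of_R_zero b f z2 hR2, ← Rows.ip_sub_Fk f k]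
    have e1 : ip (f - R univ f) z1 = ip f z1 := by
      rw [ip_sub_left, ← R_symm, R_univ_of_R_zero a z1 hR1, ip_zero_right, sub_zero]
    have e2 : ip (f - R univ f) z2 = ip f z2 := by
      rw [ip_sub_left, ← R_symm, R_univ_of_R_zero b z2 hR2, ip_zero_right, sub_zero]
    rw [hφ, ip_add_right, e1, e2]
  have hZ : ip z1 z1 + ip z2 z2 ≤ ip (Rows.Fk f k) (Rows.Fk f k) := by
    rw [hφ, ip_add_left, ip_add_right, ip_add_right, ip_comm z2 z1]
    linarith
  have hA : ip (f - R (univ.erase a) f) (f - R (univ.erase a) f)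
      = ip f f - ip f (R (univ.erase a) f) := ip_sub_cexp _ f
  have hB : ip (f - R (univ.erase b) f) (f - R (univ.erase b) f)
      = ip f f - ip f (R (univ.erase b) f) := ip_sub_cexp _ f
  have hcore := real_core (ip_self_nonneg (f - R (univ.erase a) f))
    (ip_self_nonneg (f - R (univ.erase b) f)) (ip_self_nonneg z1) (ip_self_nonneg z2)
    (ip_cauchy_schwarz (f - R (univ.erase a) f) z1)
    (ip_cauchy_schwarz (f - R (univ.erase b) f) z2) hS hZ
  rw [hA, hB, Rows.ip_Fk_self] at hcore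
  have hsum3 : ∀ G : Fin 3 → ℝ, ∑ j, G j = G k + (G a + G b) := by
    intro G
    rw [univ_eq k a b hka hkb hab, Finset.sum_insert (by simp [hka, hkb]),
      Finset.sum_insert (by simp [hab]), Finset.sum_singleton]
  rw [Rows.pairs_eq, Finset.sum_image (fun a _ b _ h => Rows.erase_inj h),
    hsum3 (fun j => ip f (R (univ.erase j) f))]
  linarith

end Vale.Agent.Lib.P328.RP
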