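import Mathlib
import Vale.Agent.Lib.P328.RP.Defs
import Vale.Agent.Lib.P328.RP.Dual

/-!
P328: three-row tables whose last row has sum one.

If `r 2 = 1`, a table `x : CT 3 n r c` is determined by one of its first two rows together with
the column `ucol x` of the unit of the last row; for `a ∈ {0, 1}` the tables with the same row
`a` as `x0` correspond to the columns `j` with `x0 a j < c j`.

* `ucol`, `row2_apply`, `ext_of`, `lt_of_ucol`, `exists_table`, `sum_class`.
* `threeRow_of_unit_dual` : the dual criterion of `threeRow_of_dual` in these coordinates: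
  every function `φ` of the unit column with zero sum over the tables splits as
  `φ j = Z1 u j + Z2 w j` (`u` the first row, `w` the second row, `j` the unit column), where
  `∑ over the columns j with u j < c j of Z1 u j = 0`, the same for `Z2 w`, and the sum of
  `Z1 * Z2` over the tables is nonnegative.
-/

namespace Vale.Agent.Lib.P328.RP

open Finset
open Vale.Agent.Lib.P335.Bip

namespace UnitRow

variable {n : ℕ} {r : Fin 3 → ℕ} {c : Fin n → ℕ}

/-- a row with sum one has exactly one nonzero entry, equal to one -/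
theorem exists_unit (hr : r 2 = 1) (x : CT 3 n r c) :
    ∃ j, x.1 2 j = 1 ∧ ∀ l, l ≠ j → x.1 2 l = 0 := by
  have hs : ∑ j, x.1 2 j = 1 := by rw [x.2.1 2, hr]
  have hex : ∃ j, x.1 2 j ≠ 0 := by
    by_contra hcon
    push Not at hcon
    rw [Finset.sum_eq_zero (fun j _ => hcon j)] at hs
    exact absurd hs (by norm_num)
  obtain ⟨j, hj⟩ := hex
  have h1 : x.1 2 j + ∑ l ∈ univ.erase j, x.1 2 l = ∑ l, x.1 2 l :=
    Finset.add_sum_erase univ (fun l => x.1 2 l) (Finset.mem_univ j)
  rw [hs] at h1
  have h2 : ∑ l ∈ univ.erase j, x.1 2 l = 0 := by omega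
  refine ⟨j, by omega, fun l hl => ?_⟩
  exact (Finset.sum_eq_zero_iff.mp h2) l (Finset.mem_erase.mpr ⟨hl, Finset.mem_univ l⟩)

/-- the column of the unit of the last row -/
noncomputable def ucol (hr : r 2 = 1) (x : CT 3 n r c) : Fin n := (exists_unit hr x).choose

theorem ucol_one (hr : r 2 = 1) (x : CT 3 n r c) : x.1 2 (ucol hr x) = 1 :=
  (exists_unit hr x).choose_spec.1

theorem ucol_zero (hr : r 2 = 1) (x : CT 3 n r c) {l : Fin n} (hl : l ≠ ucol hr x) :
    x.1 2 l = 0 :=
  (exists_unit hr x).choose_spec.2 l hl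

theorem row2_apply (hr : r 2 = 1) (x : CT 3 n r c) (l : Fin n) :
    x.1 2 l = if l = ucol hr x then 1 else 0 := by
  by_cases h : l = ucol hr x
  · rw [if_pos h, h]
    exact ucol_one hr x
  · rw [if_neg h]
    exact ucol_zero hr x h

theorem ucol_eq_of (hr : r 2 = 1) (x : CT 3 n r c) {j : Fin n} (hj : x.1 2 j ≠ 0) :
    ucol hr x = j := by
  by_contra hne
  exact hj (ucol_zero hr x (fun h => hne h.symm))

theorem ucol_congr (hr : r 2 = 1) {x y : CT 3 n r c} (h : x.1 2 = y.1 2) :
    ucol hr x = ucol hr y := by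
  apply ucol_eq_of hr x
  rw [h, ucol_one hr y]
  norm_num

/-- the three entries of a column add up to the column sum -/
theorem col3 (x : CT 3 n r c) (j : Fin n) : x.1 0 j + x.1 1 j + x.1 2 j = c j := by
  rw [← x.2.2 j, Fin.sum_univ_three]

theorem two_cases : ∀ a : Fin 3, a ≠ 2 → a = 0 ∨ a = 1 := by
  decide

/-- a table is determined by one of its first two rows and the unit column -/
theorem ext_of (hr : r 2 = 1) (a : Fin 3) (ha : a ≠ 2) (x y : CT 3 n r c)
    (h : x.1 a = y.1 a) (hj : ucol hr x = ucol hr y) : x = y := by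
  apply Subtype.ext
  have h2 : ∀ l, x.1 2 l = y.1 2 l := by
    intro l
    rw [row2_apply hr x l, row2_apply hr y l, hj]
  funext i l
  have hx := col3 x l
  have hy := col3 y l
  have h2l := h2 l
  have hal := congrFun h l
  have hi : i = 0 ∨ i = 1 ∨ i = 2 := by
    revert i
    decide
  rcases two_cases a ha with rfl | rfl
  · rcases hi with rfl | rfl | rfl
    · exact hal
    · omega
    · exact h2l
  · rcases hi with rfl | rfl | rfl
    · omega
    · exact hal
    · exact h2l

/-- the unit column is not full in either of the first two rows -/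
theorem lt_of_ucol (hr : r 2 = 1) (a : Fin 3) (ha : a ≠ 2) (x : CT 3 n r c) :
    x.1 a (ucol hr x) < c (ucol hr x) := by
  have hx := col3 x (ucol hr x)
  have h1 := ucol_one hr x
  rcases two_cases a ha with rfl | rfl <;> omega

/-- every column that is not full in row `a` of `x0` is the unit column of a table with the
same row `a` -/
theorem exists_table (hr : r 2 = 1) (a : Fin 3) (ha : a ≠ 2) (x0 : CT 3 n r c) (j : Fin n)
    (hj : x0.1 a j < c j) : ∃ x : CT 3 n r c, x.1 a = x0.1 a ∧ ucol hr x = j := by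
  classical
  have hcol := col3 x0
  have hsum2 : ∑ l, (if l = j then 1 else 0 : ℕ) = 1 := by
    rw [Finset.sum_ite_eq' univ j]
    simp
  rcases two_cases a ha with rfl | rfl
  · -- rows: x0 0, then the rest minus the unit, then the unit
    set y : Fin 3 → Fin n → ℕ := fun i =>
      if i = 0 then x0.1 0 else if i = 1 then
        (fun l => x0.1 1 l + x0.1 2 l - (if l = j then 1 else 0))
      else (fun l => if l = j then 1 else 0) with hy
    have hkey : ∀ l, (x0.1 1 l + x0.1 2 l - (if l = j then 1 else 0))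
        + (if l = j then 1 else 0) = x0.1 1 l + x0.1 2 l := by
      intro l
      have := hcol l
      by_cases hl : l = j
      · subst hl
        simp only [if_true]
        omega
      · simp only [hl, if_false]
        omega
    have hrows : ∀ i, ∑ l, y i l = r i := by
      intro i
      have hi : i = 0 ∨ i = 1 ∨ i = 2 := by
        revert i
        decide
      rcases hi with rfl | rfl | rfl
      · exact x0.2.1 0
      · have h1 : ∑ l, ((x0.1 1 l + x0.1 2 l - (if l = j then 1 else 0))
            + (if l = j then 1 else 0)) = ∑ l, (x0.1 1 l + x0.1 2 l) :=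
          Finset.sum_congr rfl (fun l _ => hkey l)
        rw [Finset.sum_add_distrib, Finset.sum_add_distrib, hsum2, x0.2.1 1, x0.2.1 2, hr] at h1
        have h3 : ∑ l, y 1 l = ∑ l, (x0.1 1 l + x0.1 2 l - (if l = j then 1 else 0)) := rfl
        rw [h3]
        omega
      · have h3 : ∑ l, y 2 l = ∑ l, (if l = j then 1 else 0 : ℕ) := rfl
        rw [h3, hsum2, hr]
    have hcols : ∀ l, ∑ i, y i l = c l := by
      intro l
      rw [Fin.sum_univ_three]
      have h0 : y 0 l = x0.1 0 l := rfl
      have h1 : y 1 l = x0.1 1 l + x0.1 2 l - (if l = j then 1 else 0) := rfl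
      have h2 : y 2 l = (if l = j then 1 else 0) := rfl
      rw [h0, h1, h2]
      have := hkey l
      have := hcol l
      omega
    refine ⟨⟨y, hrows, hcols⟩, rfl, ?_⟩
    apply ucol_eq_of hr
    have h2 : y 2 j = (if j = j then 1 else 0) := rfl
    show y 2 j ≠ 0
    rw [h2, if_pos rfl]
    norm_num
  · set y : Fin 3 → Fin n → ℕ := fun i =>
      if i = 1 then x0.1 1 else if i = 0 then
        (fun l => x0.1 0 l + x0.1 2 l - (if l = j then 1 else 0))
      else (fun l => if l = j then 1 else 0) with hy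
    have hkey : ∀ l, (x0.1 0 l + x0.1 2 l - (if l = j then 1 else 0))
        + (if l = j then 1 else 0) = x0.1 0 l + x0.1 2 l := by
      intro l
      have := hcol l
      by_cases hl : l = j
      · subst hl
        simp only [if_true]
        omega
      · simp only [hl, if_false]
        omega
    have hrows : ∀ i, ∑ l, y i l = r i := by
      intro i
      have hi : i = 0 ∨ i = 1 ∨ i = 2 := by
        revert i
        decide
      rcases hi with rfl | rfl | rfl
      · have h1 : ∑ l, ((x0.1 0 l + x0.1 2 l - (if l = j then 1 else 0))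
            + (if l = j then 1 else 0)) = ∑ l, (x0.1 0 l + x0.1 2 l) :=
          Finset.sum_congr rfl (fun l _ => hkey l)
        rw [Finset.sum_add_distrib, Finset.sum_add_distrib, hsum2, x0.2.1 0, x0.2.1 2, hr] at h1
        have h3 : ∑ l, y 0 l = ∑ l, (x0.1 0 l + x0.1 2 l - (if l = j then 1 else 0)) := rfl
        rw [h3]
        omega
      · exact x0.2.1 1
      · have h3 : ∑ l, y 2 l = ∑ l, (if l = j then 1 else 0 : ℕ) := rfl
        rw [h3, hsum2, hr]
    have hcols : ∀ l, ∑ i, y i l = c l := by
      intro l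
      rw [Fin.sum_univ_three]
      have h0 : y 0 l = x0.1 0 l + x0.1 2 l - (if l = j then 1 else 0) := rfl
      have h1 : y 1 l = x0.1 1 l := rfl
      have h2 : y 2 l = (if l = j then 1 else 0) := rfl
      rw [h0, h1, h2]
      have := hkey l
      have := hcol l
      omega
    refine ⟨⟨y, hrows, hcols⟩, rfl, ?_⟩
    apply ucol_eq_of hr
    have h2 : y 2 j = (if j = j then 1 else 0) := rfl
    show y 2 j ≠ 0
    rw [h2, if_pos rfl]
    norm_num

/-- **Class sums.**  For `a ∈ {0, 1}`, a sum over the tables with the same row `a` as `x0` of a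
function of the unit column is the sum over the columns that are not full in row `a` of
`x0`. -/
theorem sum_class (hr : r 2 = 1) (a : Fin 3) (ha : a ≠ 2) (x0 : CT 3 n r c) (G : Fin n → ℝ) :
    ∑ x ∈ univ.filter (fun x : CT 3 n r c => x.1 a = x0.1 a), G (ucol hr x)
      = ∑ j ∈ univ.filter (fun j : Fin n => x0.1 a j < c j), G j := by
  refine Finset.sum_bij (fun x _ => ucol hr x) ?_ ?_ ?_ ?_
  · intro x hx
    have hxa := (Finset.mem_filter.mp hx).2
    rw [Finset.mem_filter]
    refine ⟨Finset.mem_univ _, ?_⟩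
    rw [← hxa]
    exact lt_of_ucol hr a ha x
  · intro x hx y hy hxy
    exact ext_of hr a ha x y
      (((Finset.mem_filter.mp hx).2).trans ((Finset.mem_filter.mp hy).2).symm) hxy
  · intro j hj
    obtain ⟨x, hxa, hxj⟩ := exists_table hr a ha x0 j (Finset.mem_filter.mp hj).2
    exact ⟨x, Finset.mem_filter.mpr ⟨Finset.mem_univ _, hxa⟩, hxj⟩
  · intro x _
    rfl

end UnitRow

open UnitRow in
/-- **Dual criterion when the last row has sum one.** -/
theorem threeRow_of_unit_dual {n : ℕ} (r : Fin 3 → ℕ) (c : Fin n → ℕ) (hr : r 2 = 1)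
    (hD : ∀ φ : Fin n → ℝ, ∑ x : CT 3 n r c, φ (ucol hr x) = 0 →
      ∃ Z1 Z2 : (Fin n → ℕ) → Fin n → ℝ,
        (∀ x : CT 3 n r c, φ (ucol hr x) = Z1 (x.1 0) (ucol hr x) + Z2 (x.1 1) (ucol hr x)) ∧
        (∀ x0 : CT 3 n r c,
          ∑ j ∈ univ.filter (fun j : Fin n => x0.1 0 j < c j), Z1 (x0.1 0) j = 0) ∧
        (∀ x0 : CT 3 n r c,
          ∑ j ∈ univ.filter (fun j : Fin n => x0.1 1 j < c j), Z2 (x0.1 1) j = 0) ∧
        0 ≤ ∑ x : CT 3 n r c, Z1 (x.1 0) (ucol hr x) * Z2 (x.1 1) (ucol hr x))
    (f : CT 3 n r c → ℝ) :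
    ∑ q ∈ (univ : Finset (Fin 3)).powersetCard 2, ip f (R q f) ≤ 2 * ip f f + ip f (R univ f) := by
  classical
  refine threeRow_of_dual r c 2 0 1 (by decide) (by decide) (by decide) ?_ f
  intro φt hφt hsum
  -- the function of the unit column behind `φt`
  have hrep : ∀ x : CT 3 n r c,
      (fun j : Fin n => if h : ∃ y : CT 3 n r c, ucol hr y = j then φt h.choose else 0)
        (ucol hr x) = φt x := by
    intro x
    have hex : ∃ y : CT 3 n r c, ucol hr y = ucol hr x := ⟨x, rfl⟩
    simp only
    rw [dif_pos hex]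
    apply hφt
    funext l
    rw [row2_apply hr hex.choose l, row2_apply hr x l, hex.choose_spec]
  generalize (fun j : Fin n => if h : ∃ y : CT 3 n r c, ucol hr y = j then φt h.choose else 0)
    = φ at hrep
  have h0 : ∑ x : CT 3 n r c, φ (ucol hr x) = 0 := by
    rw [Finset.sum_congr rfl (fun x _ => hrep x)]
    exact hsum
  obtain ⟨Z1, Z2, hsplit, hz1, hz2, hcross⟩ := hD φ h0
  refine ⟨fun x => Z1 (x.1 0) (ucol hr x), fun x => Z2 (x.1 1) (ucol hr x), ?_, ?_, ?_, hcross⟩
  · intro x
    rw [← hrep x]
    exact hsplit x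
  · intro x0
    have h1 : ∑ x ∈ univ.filter (fun x : CT 3 n r c => x.1 0 = x0.1 0), Z1 (x.1 0) (ucol hr x)
        = ∑ x ∈ univ.filter (fun x : CT 3 n r c => x.1 0 = x0.1 0), Z1 (x0.1 0) (ucol hr x) :=
      Finset.sum_congr rfl (fun x hx => by rw [(Finset.mem_filter.mp hx).2])
    rw [h1, sum_class hr 0 (by decide) x0 (Z1 (x0.1 0))]
    exact hz1 x0
  · intro x0
    have h1 : ∑ x ∈ univ.filter (fun x : CT 3 n r c => x.1 1 = x0.1 1), Z2 (x.1 1) (ucol hr x)
        = ∑ x ∈ univ.filter (fun x : CT 3 n r c => x.1 1 = x0.1 1), Z2 (x0.1 1) (ucol hr x) :=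
      Finset.sum_congr rfl (fun x hx => by rw [(Finset.mem_filter.mp hx).2])
    rw [h1, sum_class hr 1 (by decide) x0 (Z2 (x0.1 1))]
    exact hz2 x0

end Vale.Agent.Lib.P328.RP
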