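import Mathlib
import Vale.Agent.Lib.P328.RP.UnitRow

/-!
P328: the box formulation of the dual criterion for three-row tables whose last row has sum
one.

For `r 2 = 1` the tables `x : CT 3 n r c` are the edges of the box `∏ j, [0, c j]` between the
levels `r 0` and `r 0 + 1`: the lower vertex is the first row `u`, the colour is the column
`j` of the unit of the last row (`u j < c j`), the upper vertex is `u + e_j`.

* `Lev c q` : level `q` of the box.
* `BoxCert c q φ R S` : a framed certificate on the box at level `q` for the colour function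
  `φ`: `φ j = Z1 u j + Z2 u j` on the edges, the sums of `Z1` over the edges at every lower
  vertex are `R`, the sums of `Z2` over the edges at every upper vertex are `S`, and the sum
  of `Z1 * Z2` over the edges is nonnegative.
* `threeRow_of_boxCert` : if every colour function with zero sum over the edges has a
  certificate with zero frames, the three-row inequality holds.
* `sum_Lev_succ` : slicing a level of the box along the first coordinate.
-/

namespace Vale.Agent.Lib.P328.RP

open Finset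
open Vale.Agent.Lib.P335.Bip

/-- level `q` of the box `∏ j, [0, c j]` -/
def Lev {n : ℕ} (c : Fin n → ℕ) (q : ℕ) : Finset (Fin n → ℕ) :=
  (Fintype.piFinset (fun j => Finset.range (c j + 1))).filter (fun u => ∑ j, u j = q)

theorem mem_Lev {n : ℕ} (c : Fin n → ℕ) (q : ℕ) (u : Fin n → ℕ) :
    u ∈ Lev c q ↔ (∀ j, u j ≤ c j) ∧ ∑ j, u j = q := by
  unfold Lev
  rw [Finset.mem_filter, Fintype.mem_piFinset]
  constructor
  · rintro ⟨h1, h2⟩
    exact ⟨fun j => Nat.lt_succ_iff.mp (Finset.mem_range.mp (h1 j)), h2⟩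
  · rintro ⟨h1, h2⟩
    exact ⟨fun j => Finset.mem_range.mpr (Nat.lt_succ_of_le (h1 j)), h2⟩

/-- framed certificate on the box: level `q`, colour function `φ`, lower frame `R`, upper
frame `S` -/
def BoxCert {n : ℕ} (c : Fin n → ℕ) (q : ℕ) (φ : Fin n → ℝ) (R S : ℝ) : Prop :=
  ∃ Z1 Z2 : (Fin n → ℕ) → Fin n → ℝ,
    (∀ u ∈ Lev c q, ∀ j, u j < c j → Z1 u j + Z2 u j = φ j) ∧
    (∀ u ∈ Lev c q, ∑ j ∈ univ.filter (fun j => u j < c j), Z1 u j = R) ∧
    (∀ y ∈ Lev c (q + 1),
      ∑ j ∈ univ.filter (fun j => 1 ≤ y j), Z2 (Function.update y j (y j - 1)) j = S) ∧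
    0 ≤ ∑ u ∈ Lev c q, ∑ j ∈ univ.filter (fun j => u j < c j), Z1 u j * Z2 u j

namespace BoxDual

variable {n : ℕ} {r : Fin 3 → ℕ} {c : Fin n → ℕ}

/-- the total of the column sums when a table exists -/
theorem sum_c (x : CT 3 n r c) : ∑ j, c j = r 0 + r 1 + r 2 := by
  have h1 : ∑ j, c j = ∑ j, ∑ i, x.1 i j := Finset.sum_congr rfl (fun j _ => (x.2.2 j).symm)
  rw [h1, Finset.sum_comm, Fin.sum_univ_three, x.2.1 0, x.2.1 1, x.2.1 2]

/-- the first row of a table is a vertex of level `r 0` -/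
theorem row0_mem (x : CT 3 n r c) : x.1 0 ∈ Lev c (r 0) := by
  rw [mem_Lev]
  refine ⟨fun j => ?_, x.2.1 0⟩
  have := UnitRow.col3 x j
  omega

/-- the first row from the second row and the unit column -/
theorem row0_eq (hr : r 2 = 1) (x : CT 3 n r c) :
    (fun l => c l - x.1 1 l - if l = UnitRow.ucol hr x then 1 else 0) = x.1 0 := by
  funext l
  have h1 := UnitRow.col3 x l
  have h2 := UnitRow.row2_apply hr x l
  by_cases hl : l = UnitRow.ucol hr x
  · rw [if_pos hl] at h2
    rw [if_pos hl]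
    omega
  · rw [if_neg hl] at h2
    rw [if_neg hl]
    omega

/-- the complement of the second row is a vertex of level `r 0 + 1` -/
theorem compl_mem (hr : r 2 = 1) (x : CT 3 n r c) :
    (fun l => c l - x.1 1 l) ∈ Lev c (r 0 + 1) := by
  rw [mem_Lev]
  refine ⟨fun j => Nat.sub_le _ _, ?_⟩
  have hle : ∀ l, x.1 1 l ≤ c l := by
    intro l
    have := UnitRow.col3 x l
    omega
  have h1 : ∑ l, (c l - x.1 1 l) + ∑ l, x.1 1 l = ∑ l, c l := by
    rw [← Finset.sum_add_distrib]
    exact Finset.sum_congr rfl (fun l _ => Nat.sub_add_cancel (hle l))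
  rw [x.2.1 1, sum_c x, hr] at h1
  omega

/-- every edge of the box is a table (when the margins are consistent) -/
theorem exists_edge_table (hr : r 2 = 1) (hc : ∑ j, c j = r 0 + r 1 + r 2) (u : Fin n → ℕ)
    (hu : u ∈ Lev c (r 0)) (j : Fin n) (hj : u j < c j) :
    ∃ x : CT 3 n r c, x.1 0 = u ∧ UnitRow.ucol hr x = j := by
  classical
  rw [mem_Lev] at hu
  obtain ⟨hle, hsum⟩ := hu
  set y : Fin 3 → Fin n → ℕ := fun i =>
    if i = 0 then u else if i = 1 then (fun l => c l - u l - (if l = j then 1 else 0))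
    else (fun l => if l = j then 1 else 0) with hy
  have hsum2 : ∑ l, (if l = j then 1 else 0 : ℕ) = 1 := by
    rw [Finset.sum_ite_eq' univ j]
    simp
  have hkey : ∀ l, u l + (c l - u l - (if l = j then 1 else 0)) + (if l = j then 1 else 0)
      = c l := by
    intro l
    have := hle l
    by_cases hl : l = j
    · subst hl
      simp only [if_true]
      omega
    · simp only [hl, if_false]
      omega
  have hrows : ∀ i, ∑ l, y i l = r i := by
    intro i
    have hi : i = 0 ∨ i = 1 ∨ i = 2 := by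
      revert i
      decide
    rcases hi with rfl | rfl | rfl
    · exact hsum
    · have h1 : ∑ l, (u l + (c l - u l - (if l = j then 1 else 0)) + (if l = j then 1 else 0))
          = ∑ l, c l := Finset.sum_congr rfl (fun l _ => hkey l)
      rw [Finset.sum_add_distrib, Finset.sum_add_distrib, hsum2, hsum, hc, hr] at h1
      have h3 : ∑ l, y 1 l = ∑ l, (c l - u l - (if l = j then 1 else 0)) := rfl
      rw [h3]
      omega
    · have h3 : ∑ l, y 2 l = ∑ l, (if l = j then 1 else 0 : ℕ) := rfl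
      rw [h3, hsum2, hr]
  have hcols : ∀ l, ∑ i, y i l = c l := by
    intro l
    rw [Fin.sum_univ_three]
    have h0 : y 0 l = u l := rfl
    have h1 : y 1 l = c l - u l - (if l = j then 1 else 0) := rfl
    have h2 : y 2 l = (if l = j then 1 else 0) := rfl
    rw [h0, h1, h2]
    exact hkey l
  refine ⟨⟨y, hrows, hcols⟩, rfl, ?_⟩
  apply UnitRow.ucol_eq_of hr
  have h2 : y 2 j = (if j = j then 1 else 0) := rfl
  show y 2 j ≠ 0
  rw [h2, if_pos rfl]
  norm_num

/-- **Tables are the edges of the box**: a sum over the tables of a function of the first row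
and the unit column is the sum over the edges. -/
theorem sum_tables (hr : r 2 = 1) (x0 : CT 3 n r c) (G : (Fin n → ℕ) → Fin n → ℝ) :
    ∑ x : CT 3 n r c, G (x.1 0) (UnitRow.ucol hr x)
      = ∑ u ∈ Lev c (r 0), ∑ j ∈ univ.filter (fun j : Fin n => u j < c j), G u j := by
  classical
  rw [Finset.sum_sigma']
  refine Finset.sum_bij
    (fun x _ => (⟨x.1 0, UnitRow.ucol hr x⟩ : Σ _ : Fin n → ℕ, Fin n)) ?_ ?_ ?_ ?_
  · intro x _
    rw [Finset.mem_sigma]
    exact ⟨row0_mem x, Finset.mem_filter.mpr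
      ⟨Finset.mem_univ _, UnitRow.lt_of_ucol hr 0 (by decide) x⟩⟩
  · intro x _ y _ hxy
    obtain ⟨h1, h2⟩ := Sigma.mk.inj_iff.mp hxy
    exact UnitRow.ext_of hr 0 (by decide) x y h1 (eq_of_heq h2)
  · intro p hp
    rw [Finset.mem_sigma] at hp
    obtain ⟨x, hx0, hxj⟩ := exists_edge_table hr (sum_c x0) p.1 hp.1 p.2
      (Finset.mem_filter.mp hp.2).2
    refine ⟨x, Finset.mem_univ _, ?_⟩
    rw [hx0, hxj]
  · intro x _
    rfl

end BoxDual

/-- **Bridge**: certificates on the box with zero frames for all colour functions with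
zero sum over the edges give the three-row inequality for tables whose last row has sum
one. -/
theorem threeRow_of_boxCert {n : ℕ} (r : Fin 3 → ℕ) (c : Fin n → ℕ) (hr : r 2 = 1)
    (h : ∀ φ : Fin n → ℝ,
      ∑ u ∈ Lev c (r 0), ∑ j ∈ univ.filter (fun j : Fin n => u j < c j), φ j = 0 →
        BoxCert c (r 0) φ 0 0)
    (f : CT 3 n r c → ℝ) :
    ∑ q ∈ (univ : Finset (Fin 3)).powersetCard 2, ip f (R q f)
      ≤ 2 * ip f f + ip f (R univ f) := by
  classical
  by_cases hne : Nonempty (CT 3 n r c)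
  swap
  · have hemp : IsEmpty (CT 3 n r c) := not_nonempty_iff.mp hne
    have hz : ∀ g1 g2 : CT 3 n r c → ℝ, ip g1 g2 = 0 := by
      intro g1 g2
      unfold ip
      rw [Finset.univ_eq_empty, Finset.sum_empty]
    rw [hz, hz, Finset.sum_eq_zero (fun q _ => hz _ _)]
    norm_num
  obtain ⟨x0⟩ := hne
  refine threeRow_of_unit_dual r c hr ?_ f
  intro φ hφ
  have h0 : ∑ u ∈ Lev c (r 0), ∑ j ∈ univ.filter (fun j : Fin n => u j < c j), φ j = 0 := by
    rw [← BoxDual.sum_tables hr x0 (fun _ j => φ j)]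
    exact hφ
  obtain ⟨Z1, Z2, hsplit, hlow, hup, hcross⟩ := h φ h0
  refine ⟨Z1, fun w j => Z2 (fun l => c l - w l - if l = j then 1 else 0) j, ?_, ?_, ?_, ?_⟩
  · intro x
    show φ (UnitRow.ucol hr x) = Z1 (x.1 0) (UnitRow.ucol hr x)
      + Z2 (fun l => c l - x.1 1 l - if l = UnitRow.ucol hr x then 1 else 0)
        (UnitRow.ucol hr x)
    rw [BoxDual.row0_eq hr x]
    exact (hsplit (x.1 0) (BoxDual.row0_mem x) _
      (UnitRow.lt_of_ucol hr 0 (by decide) x)).symm
  · intro x1
    exact hlow (x1.1 0) (BoxDual.row0_mem x1)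
  · intro x1
    have h1 := hup _ (BoxDual.compl_mem hr x1)
    have hfilter : univ.filter (fun j : Fin n => 1 ≤ (fun l => c l - x1.1 1 l) j)
        = univ.filter (fun j : Fin n => x1.1 1 j < c j) := by
      apply Finset.filter_congr
      intro j _
      show 1 ≤ c j - x1.1 1 j ↔ x1.1 1 j < c j
      omega
    rw [hfilter] at h1
    rw [← h1]
    apply Finset.sum_congr rfl
    intro j _
    show Z2 (fun l => c l - x1.1 1 l - if l = j then 1 else 0) j
      = Z2 (Function.update (fun l => c l - x1.1 1 l) j ((fun l => c l - x1.1 1 l) j - 1)) j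
    congr 1
    funext l
    by_cases hl : l = j
    · subst hl
      rw [Function.update_self, if_pos rfl]
    · rw [Function.update_of_ne hl, if_neg hl]
      exact Nat.sub_zero _
  · have h1 : ∑ x : CT 3 n r c, Z1 (x.1 0) (UnitRow.ucol hr x)
          * Z2 (fun l => c l - x.1 1 l - if l = UnitRow.ucol hr x then 1 else 0)
            (UnitRow.ucol hr x)
        = ∑ x : CT 3 n r c, Z1 (x.1 0) (UnitRow.ucol hr x) * Z2 (x.1 0) (UnitRow.ucol hr x) :=
      Finset.sum_congr rfl (fun x _ => by rw [BoxDual.row0_eq hr x])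
    show 0 ≤ ∑ x : CT 3 n r c, Z1 (x.1 0) (UnitRow.ucol hr x)
      * Z2 (fun l => c l - x.1 1 l - if l = UnitRow.ucol hr x then 1 else 0)
        (UnitRow.ucol hr x)
    rw [h1, BoxDual.sum_tables hr x0 (fun u j => Z1 u j * Z2 u j)]
    exact hcross

/-- **Slicing a level along the first coordinate.** -/
theorem sum_Lev_succ {n : ℕ} (c : Fin (n + 1) → ℕ) (q : ℕ) (G : (Fin (n + 1) → ℕ) → ℝ) :
    ∑ u ∈ Lev c q, G u = ∑ t ∈ Finset.range (c 0 + 1),
      if t ≤ q then ∑ u' ∈ Lev (Fin.tail c) (q - t), G (Fin.cons t u') else 0 := by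
  classical
  rw [← Finset.sum_filter, Finset.sum_sigma']
  refine Finset.sum_bij' (fun u _ => (⟨u 0, Fin.tail u⟩ : Σ _ : ℕ, Fin n → ℕ))
    (fun p _ => (Fin.cons p.1 p.2 : Fin (n + 1) → ℕ)) ?_ ?_ ?_ ?_ ?_
  · intro u hu
    rw [mem_Lev] at hu
    obtain ⟨hle, hsum⟩ := hu
    rw [Fin.sum_univ_succ] at hsum
    rw [Finset.mem_sigma, Finset.mem_filter, Finset.mem_range, mem_Lev]
    have h0q : u 0 ≤ q := by omega
    refine ⟨⟨Nat.lt_succ_of_le (hle 0), h0q⟩, fun j => hle j.succ, ?_⟩
    show ∑ j : Fin n, u j.succ = q - u 0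
    omega
  · intro p hp
    rw [Finset.mem_sigma, Finset.mem_filter, Finset.mem_range, mem_Lev] at hp
    obtain ⟨⟨h1, h2⟩, h3, h4⟩ := hp
    rw [mem_Lev]
    constructor
    · intro j
      refine Fin.cases ?_ (fun i => ?_) j
      · rw [Fin.cons_zero]
        omega
      · rw [Fin.cons_succ]
        exact h3 i
    · rw [Fin.sum_univ_succ, Fin.cons_zero]
      simp only [Fin.cons_succ]
      rw [h4]
      omega
  · intro u _
    exact Fin.cons_self_tail u
  · intro p _
    rw [Fin.cons_zero, Fin.tail_cons]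
  · intro u _
    rw [Fin.cons_self_tail]

end Vale.Agent.Lib.P328.RP
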