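import Mathlib
import Vale.Agent.Lib.P328.helper14.FamilyHubBig
import Vale.Agent.Lib.P328.RP.BigRows
import Vale.Agent.Lib.P328.RP.BigRowsCT

/-!
P328: the three-row inequality for three rows whose sums are all at least the total of the
column sums outside one column, in the form `BigRows n` used by the family assembly.
-/

namespace Vale.Agent.Lib.P328.RP

/-- The three-row inequality holds whenever all three row sums are at least the sum of the
column sums outside one column. -/
theorem bigRows (n : ℕ) : BigRows n :=
  fun r' c' j0 h g => threeRow_big_of threeProj_CP r' c' j0 h g

end Vale.Agent.Lib.P328.RP
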