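import Mathlib
import Vale.Agent.Lib.P328.RP.Defs
import Vale.Agent.Lib.P328.RP.BlockDefs
import Vale.Agent.Lib.P328.RP.Commute

/-!
Resamplings of blocks of a contingency table that share no cell commute: for blocks `p × q` and
`p' × q'` with `p`, `p'` disjoint (or with `q`, `q'` disjoint) one has
`E p q ∘ E p' q' = E p' q' ∘ E p q`.

The proof is the one of `R_comm_of_disjoint` (file `Commute.lean`), with cells in place of rows:
if `y` agrees with `x` outside the first block and `z` agrees with `x` outside the second block,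
then the table which is `z` on the second block and `y` elsewhere is entrywise `y + z - x`, so it
has the margins of `x`.
-/

namespace Vale.Agent.Lib.P328.RP

open Finset
open Vale.Agent.Lib.P335.Bip

variable {m n : ℕ} {r : Fin m → ℕ} {c : Fin n → ℕ}

namespace BlockCommute

/-- The table with the entries in the block `p' × q'` taken from `z` and all other entries taken
from `y`. -/
def mrg (p' : Finset (Fin m)) (q' : Finset (Fin n)) (y z : Fin m → Fin n → ℕ) :
    Fin m → Fin n → ℕ :=
  fun i j => if i ∈ p' ∧ j ∈ q' then z i j else y i j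

/-- Entrywise, the merged table plus `x` is `z + y`, when the blocks share no cell, `y` agrees
with `x` outside the first block and `z` agrees with `x` outside the second block. -/
theorem mrg_add {p p' : Finset (Fin m)} {q q' : Finset (Fin n)}
    (hd : ∀ i j, i ∈ p ∧ j ∈ q → ¬ (i ∈ p' ∧ j ∈ q')) (x y z : Fin m → Fin n → ℕ)
    (hy : ∀ i j, ¬ (i ∈ p ∧ j ∈ q) → y i j = x i j)
    (hz : ∀ i j, ¬ (i ∈ p' ∧ j ∈ q') → z i j = x i j) (i : Fin m) (j : Fin n) :
    mrg p' q' y z i j + x i j = z i j + y i j := by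
  unfold mrg
  by_cases h : i ∈ p' ∧ j ∈ q'
  · rw [if_pos h, hy i j (fun h' => hd i j h' h)]
  · rw [if_neg h, hz i j h, add_comm]

/-- Merging keeps the margins. -/
theorem mrg_mem {p p' : Finset (Fin m)} {q q' : Finset (Fin n)}
    (hd : ∀ i j, i ∈ p ∧ j ∈ q → ¬ (i ∈ p' ∧ j ∈ q')) (x y z : CT m n r c)
    (hy : bmask p q y.1 = bmask p q x.1) (hz : bmask p' q' z.1 = bmask p' q' x.1) :
    (∀ i, ∑ j, mrg p' q' y.1 z.1 i j = r i) ∧ ∀ j, ∑ i, mrg p' q' y.1 z.1 i j = c j := by
  rw [bmask_eq_iff] at hy hz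
  constructor
  · intro i
    have hx := x.2.1 i
    have hyc := y.2.1 i
    have hzc := z.2.1 i
    have key : ∑ j, mrg p' q' y.1 z.1 i j + ∑ j, x.1 i j = ∑ j, z.1 i j + ∑ j, y.1 i j := by
      rw [← Finset.sum_add_distrib, ← Finset.sum_add_distrib]
      exact Finset.sum_congr rfl (fun j _ => mrg_add hd x.1 y.1 z.1 hy hz i j)
    omega
  · intro j
    have hx := x.2.2 j
    have hyc := y.2.2 j
    have hzc := z.2.2 j
    have key : ∑ i, mrg p' q' y.1 z.1 i j + ∑ i, x.1 i j = ∑ i, z.1 i j + ∑ i, y.1 i j := by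
      rw [← Finset.sum_add_distrib, ← Finset.sum_add_distrib]
      exact Finset.sum_congr rfl (fun i _ => mrg_add hd x.1 y.1 z.1 hy hz i j)
    omega

/-- The merged table as an element of `CT` (junk value `y` if the margins are wrong). -/
noncomputable def mg (p' : Finset (Fin m)) (q' : Finset (Fin n)) (y z : CT m n r c) :
    CT m n r c :=
  if h : (∀ i, ∑ j, mrg p' q' y.1 z.1 i j = r i) ∧ ∀ j, ∑ i, mrg p' q' y.1 z.1 i j = c j then
    ⟨mrg p' q' y.1 z.1, h⟩ else y

theorem mg_val {p p' : Finset (Fin m)} {q q' : Finset (Fin n)}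
    (hd : ∀ i j, i ∈ p ∧ j ∈ q → ¬ (i ∈ p' ∧ j ∈ q')) (x y z : CT m n r c)
    (hy : bmask p q y.1 = bmask p q x.1) (hz : bmask p' q' z.1 = bmask p' q' x.1) :
    (mg p' q' y z).1 = mrg p' q' y.1 z.1 := by
  unfold mg
  rw [dif_pos (mrg_mem hd x y z hy hz)]

/-- Sum over the second-block fibre through `y`, re-indexed by the second-block fibre through
`x`, when `y` lies in the first-block fibre of `x`. -/
theorem fibre_sum {p p' : Finset (Fin m)} {q q' : Finset (Fin n)}
    (hd : ∀ i j, i ∈ p ∧ j ∈ q → ¬ (i ∈ p' ∧ j ∈ q')) (x y : CT m n r c)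
    (hy : bmask p q y.1 = bmask p q x.1) (F : CT m n r c → ℝ) :
    ∑ w ∈ univ.filter (fun w : CT m n r c => bmask p' q' w.1 = bmask p' q' y.1), F w
      = ∑ z ∈ univ.filter (fun z : CT m n r c => bmask p' q' z.1 = bmask p' q' x.1),
          F (mg p' q' y z) := by
  have hd' : ∀ i j, i ∈ p' ∧ j ∈ q' → ¬ (i ∈ p ∧ j ∈ q) := fun i j h h' => hd i j h' h
  have hy' := (bmask_eq_iff p q y.1 x.1).mp hy
  apply Finset.sum_nbij' (fun w => mg p q w x) (fun z => mg p' q' y z)
  · intro w hw
    rw [mem_filter] at hw ⊢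
    refine ⟨mem_univ _, ?_⟩
    have hw' := (bmask_eq_iff p' q' w.1 y.1).mp hw.2
    rw [mg_val hd' y w x hw.2 hy.symm, bmask_eq_iff]
    intro i j hij
    unfold mrg
    split_ifs with hpq
    · rfl
    · rw [hw' i j hij, hy' i j hpq]
  · intro z hz
    rw [mem_filter] at hz ⊢
    refine ⟨mem_univ _, ?_⟩
    rw [mg_val hd x y z hy hz.2, bmask_eq_iff]
    intro i j hij
    unfold mrg
    rw [if_neg hij]
  · intro w hw
    rw [mem_filter] at hw
    have hw' := (bmask_eq_iff p' q' w.1 y.1).mp hw.2
    have hval : (mg p q w x).1 = mrg p q w.1 x.1 := mg_val hd' y w x hw.2 hy.symm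
    have hz : bmask p' q' (mg p q w x).1 = bmask p' q' x.1 := by
      rw [hval, bmask_eq_iff]
      intro i j hij
      unfold mrg
      split_ifs with hpq
      · rfl
      · rw [hw' i j hij, hy' i j hpq]
    apply Subtype.ext
    rw [mg_val hd x y (mg p q w x) hy hz, hval]
    funext i j
    unfold mrg
    by_cases hij : i ∈ p' ∧ j ∈ q'
    · rw [if_pos hij, if_neg (hd' i j hij)]
    · rw [if_neg hij, hw' i j hij]
  · intro z hz
    rw [mem_filter] at hz
    have hz' := (bmask_eq_iff p' q' z.1 x.1).mp hz.2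
    have hval : (mg p' q' y z).1 = mrg p' q' y.1 z.1 := mg_val hd x y z hy hz.2
    have hw : bmask p' q' (mg p' q' y z).1 = bmask p' q' y.1 := by
      rw [hval, bmask_eq_iff]
      intro i j hij
      unfold mrg
      rw [if_neg hij]
    apply Subtype.ext
    rw [mg_val hd' y (mg p' q' y z) x hw hy.symm, hval]
    funext i j
    unfold mrg
    by_cases hpq : i ∈ p ∧ j ∈ q
    · rw [if_pos hpq, hz' i j (hd i j hpq)]
    · rw [if_neg hpq]
      by_cases hij : i ∈ p' ∧ j ∈ q'
      · rw [if_pos hij]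
      · rw [if_neg hij, hy' i j hpq, hz' i j hij]
  · intro w hw
    rw [mem_filter] at hw
    have hw' := (bmask_eq_iff p' q' w.1 y.1).mp hw.2
    have hval : (mg p q w x).1 = mrg p q w.1 x.1 := mg_val hd' y w x hw.2 hy.symm
    have hz : bmask p' q' (mg p q w x).1 = bmask p' q' x.1 := by
      rw [hval, bmask_eq_iff]
      intro i j hij
      unfold mrg
      split_ifs with hpq
      · rfl
      · rw [hw' i j hij, hy' i j hpq]
    congr 1
    apply Subtype.ext
    rw [mg_val hd x y (mg p q w x) hy hz, hval]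
    funext i j
    unfold mrg
    by_cases hij : i ∈ p' ∧ j ∈ q'
    · rw [if_pos hij, if_neg (hd' i j hij)]
    · rw [if_neg hij, hw' i j hij]

/-- The second-block fibres through two points of one first-block fibre have the same size. -/
theorem fibre_card {p p' : Finset (Fin m)} {q q' : Finset (Fin n)}
    (hd : ∀ i j, i ∈ p ∧ j ∈ q → ¬ (i ∈ p' ∧ j ∈ q')) (x y : CT m n r c)
    (hy : bmask p q y.1 = bmask p q x.1) :
    ((univ.filter (fun w : CT m n r c => bmask p' q' w.1 = bmask p' q' y.1)).card : ℝ)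
      = ((univ.filter (fun z : CT m n r c => bmask p' q' z.1 = bmask p' q' x.1)).card : ℝ) := by
  have h := fibre_sum hd x y hy (fun _ => (1 : ℝ))
  simpa using h

/-- Resamplings of two blocks that share no cell commute. -/
theorem E_comm_of_no_common_cell (p p' : Finset (Fin m)) (q q' : Finset (Fin n))
    (hd : ∀ i j, i ∈ p ∧ j ∈ q → ¬ (i ∈ p' ∧ j ∈ q')) (f : CT m n r c → ℝ) :
    E p q (E p' q' f) = E p' q' (E p q f) := by
  have hd' : ∀ i j, i ∈ p' ∧ j ∈ q' → ¬ (i ∈ p ∧ j ∈ q) := fun i j h h' => hd i j h' h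
  funext x
  rw [E_apply p q, E_apply p' q']
  have h1 : ∀ y ∈ univ.filter (fun y : CT m n r c => bmask p q y.1 = bmask p q x.1),
      E p' q' f y
        = (∑ z ∈ univ.filter (fun z : CT m n r c => bmask p' q' z.1 = bmask p' q' x.1),
            f (mg p' q' y z)) /
          ((univ.filter (fun z : CT m n r c => bmask p' q' z.1 = bmask p' q' x.1)).card : ℝ) := by
    intro y hy
    rw [mem_filter] at hy
    rw [E_apply p' q', fibre_sum hd x y hy.2 f, fibre_card hd x y hy.2]
  have h2 : ∀ z ∈ univ.filter (fun z : CT m n r c => bmask p' q' z.1 = bmask p' q' x.1),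
      E p q f z
        = (∑ y ∈ univ.filter (fun y : CT m n r c => bmask p q y.1 = bmask p q x.1),
            f (mg p' q' y z)) /
          ((univ.filter (fun y : CT m n r c => bmask p q y.1 = bmask p q x.1)).card : ℝ) := by
    intro z hz
    rw [mem_filter] at hz
    rw [E_apply p q, fibre_sum hd' x z hz.2 f, fibre_card hd' x z hz.2]
    congr 1
    apply Finset.sum_congr rfl
    intro y hy
    rw [mem_filter] at hy
    congr 1
    apply Subtype.ext
    rw [mg_val hd' x z y hz.2 hy.2, mg_val hd x y z hy.2 hz.2]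
    have hy' := (bmask_eq_iff p q y.1 x.1).mp hy.2
    have hz' := (bmask_eq_iff p' q' z.1 x.1).mp hz.2
    funext i j
    unfold mrg
    by_cases hpq : i ∈ p ∧ j ∈ q
    · rw [if_pos hpq, if_neg (hd i j hpq)]
    · rw [if_neg hpq]
      by_cases hij : i ∈ p' ∧ j ∈ q'
      · rw [if_pos hij]
      · rw [if_neg hij, hy' i j hpq, hz' i j hij]
  rw [Finset.sum_congr rfl h1, Finset.sum_congr rfl h2, ← Finset.sum_div, ← Finset.sum_div,
    Finset.sum_comm, div_div, div_div, mul_comm]

end BlockCommute

/-- **Resamplings of blocks with disjoint row sets commute.** -/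
theorem E_comm_of_disjoint_rows (p p' : Finset (Fin m)) (q q' : Finset (Fin n))
    (hd : Disjoint p p') (f : CT m n r c → ℝ) :
    E p q (E p' q' f) = E p' q' (E p q f) :=
  BlockCommute.E_comm_of_no_common_cell p p' q q'
    (fun _ _ h h' => Finset.disjoint_left.mp hd h.1 h'.1) f

/-- **Resamplings of blocks with disjoint column sets commute.** -/
theorem E_comm_of_disjoint_cols (p p' : Finset (Fin m)) (q q' : Finset (Fin n))
    (hd : Disjoint q q') (f : CT m n r c → ℝ) :
    E p q (E p' q' f) = E p' q' (E p q f) :=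
  BlockCommute.E_comm_of_no_common_cell p p' q q'
    (fun _ _ h h' => Finset.disjoint_left.mp hd h.2 h'.2) f

end Vale.Agent.Lib.P328.RP
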