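import Mathlib
import Vale.Agent.Lib.P328.RP.BoxDual

/-!
P328: gluing framed certificates of the slices of a box along the first coordinate.

* `BoxCertGe c q φ R S W` : a framed certificate (as in `BoxCert`) whose cross term is at
  least `W`.
* `boxCertGe_cons` : for `c : Fin (n + 1) → ℕ`, certificates of the slices `u 0 = t` (boxes
  `Fin.tail c` at the levels `q - t`, frames `Rt t`, `St t`), together with the values `ξ t`
  of `Z1` on the edges of colour `0` leaving the slice `t`, glue to a certificate of the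
  whole box with frame `R`, `S`, provided the frames match.
* `boxCertGe_zero` : the box without columns.
* `card_Lev_succ` : the number of vertices of a level, sliced along the first coordinate.
-/

namespace Vale.Agent.Lib.P328.RP

open Finset

/-- framed certificate with a lower bound `W` for the cross term -/
def BoxCertGe {n : ℕ} (c : Fin n → ℕ) (q : ℕ) (φ : Fin n → ℝ) (R S W : ℝ) : Prop :=
  ∃ Z1 Z2 : (Fin n → ℕ) → Fin n → ℝ,
    (∀ u ∈ Lev c q, ∀ j, u j < c j → Z1 u j + Z2 u j = φ j) ∧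
    (∀ u ∈ Lev c q, ∑ j ∈ univ.filter (fun j => u j < c j), Z1 u j = R) ∧
    (∀ y ∈ Lev c (q + 1),
      ∑ j ∈ univ.filter (fun j => 1 ≤ y j), Z2 (Function.update y j (y j - 1)) j = S) ∧
    W ≤ ∑ u ∈ Lev c q, ∑ j ∈ univ.filter (fun j => u j < c j), Z1 u j * Z2 u j

theorem boxCert_iff_ge {n : ℕ} {c : Fin n → ℕ} {q : ℕ} {φ : Fin n → ℝ} {R S : ℝ} :
    BoxCert c q φ R S ↔ BoxCertGe c q φ R S 0 :=
  Iff.rfl

theorem BoxCertGe.mono {n : ℕ} {c : Fin n → ℕ} {q : ℕ} {φ : Fin n → ℝ} {R S W W' : ℝ}
    (h : BoxCertGe c q φ R S W) (hW : W' ≤ W) : BoxCertGe c q φ R S W' := by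
  obtain ⟨Z1, Z2, h1, h2, h3, h4⟩ := h
  exact ⟨Z1, Z2, h1, h2, h3, le_trans hW h4⟩

theorem boxCert_of_ge {n : ℕ} {c : Fin n → ℕ} {q : ℕ} {φ : Fin n → ℝ} {R S W : ℝ}
    (h : BoxCertGe c q φ R S W) (hW : 0 ≤ W) : BoxCert c q φ R S :=
  boxCert_iff_ge.mpr (h.mono hW)

namespace BoxGlue

/-- splitting a filtered sum over `Fin (n + 1)` -/
theorem sum_filter_succ {n : ℕ} (P : Fin (n + 1) → Prop) [DecidablePred P]
    (f : Fin (n + 1) → ℝ) :
    ∑ j ∈ univ.filter P, f j
      = (if P 0 then f 0 else 0) + ∑ i ∈ univ.filter (fun i : Fin n => P i.succ), f i.succ := by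
  rw [Finset.sum_filter, Fin.sum_univ_succ, Finset.sum_filter]

/-- the slice of a vertex of a level -/
theorem tail_mem {n : ℕ} {c : Fin (n + 1) → ℕ} {q : ℕ} {u : Fin (n + 1) → ℕ}
    (hu : u ∈ Lev c q) : u 0 ≤ c 0 ∧ u 0 ≤ q ∧ Fin.tail u ∈ Lev (Fin.tail c) (q - u 0) := by
  rw [mem_Lev] at hu
  obtain ⟨hle, hsum⟩ := hu
  rw [Fin.sum_univ_succ] at hsum
  refine ⟨hle 0, by omega, ?_⟩
  rw [mem_Lev]
  refine ⟨fun j => hle j.succ, ?_⟩
  show ∑ j : Fin n, u j.succ = q - u 0
  omega

/-- the tail of the lower end of an edge of a colour `i.succ` -/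
theorem tail_update_succ {n : ℕ} (y : Fin (n + 1) → ℕ) (i : Fin n) (a : ℕ) :
    Fin.tail (Function.update y i.succ a) = Function.update (Fin.tail y) i a := by
  funext l
  by_cases hl : l = i
  · subst hl
    show Function.update y l.succ a l.succ = _
    rw [Function.update_self, Function.update_self]
  · show Function.update y i.succ a l.succ = _
    rw [Function.update_of_ne (fun h => hl (Fin.succ_injective n h)),
      Function.update_of_ne hl]
    rfl

theorem update_succ_zero {n : ℕ} (y : Fin (n + 1) → ℕ) (i : Fin n) (a : ℕ) :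
    Function.update y i.succ a 0 = y 0 :=
  Function.update_of_ne (Fin.succ_ne_zero i).symm a y

end BoxGlue

/-- **Gluing slices.**  Slice `t = {u 0 = t}` is the box `Fin.tail c` at level `q - t` with
frame `Rt t`, `St t`; the edges of colour `0` leaving the slice `t` carry `Z1 = ξ t` and
`Z2 = φ 0 - ξ t`. -/
theorem boxCertGe_cons {n : ℕ} (c : Fin (n + 1) → ℕ) (q : ℕ) (φ : Fin (n + 1) → ℝ) (R S : ℝ)
    (ξ Rt St Wt : ℕ → ℝ)
    (hR : ∀ t, t < c 0 → t ≤ q → Rt t = R - ξ t)
    (hRc : c 0 ≤ q → Rt (c 0) = R)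
    (hS0 : St 0 = S)
    (hS : ∀ t, t < c 0 → t + 1 ≤ q → St (t + 1) = S - (φ 0 - ξ t))
    (hSq : q < c 0 → φ 0 - ξ q = S)
    (hslice : ∀ t, t ≤ c 0 → t ≤ q →
      BoxCertGe (Fin.tail c) (q - t) (Fin.tail φ) (Rt t) (St t) (Wt t)) :
    BoxCertGe c q φ R S
      (∑ t ∈ Finset.range (c 0 + 1), (if t ≤ q then Wt t else 0)
        + ∑ t ∈ Finset.range (c 0),
            (if t ≤ q then ((Lev (Fin.tail c) (q - t)).card : ℝ) * (ξ t * (φ 0 - ξ t))
              else 0)) := by
  classical
  choose! Z1t Z2t hZ using hslice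
  refine ⟨fun u j => Fin.cases (ξ (u 0)) (fun i => Z1t (u 0) (Fin.tail u) i) j,
    fun u j => Fin.cases (φ 0 - ξ (u 0)) (fun i => Z2t (u 0) (Fin.tail u) i) j,
    ?_, ?_, ?_, ?_⟩
  · -- the splitting on the edges
    intro u hu j
    obtain ⟨h0c, h0q, htail⟩ := BoxGlue.tail_mem hu
    refine Fin.cases ?_ (fun i => ?_) j
    · intro _
      show ξ (u 0) + (φ 0 - ξ (u 0)) = φ 0
      ring
    · intro hi
      show Z1t (u 0) (Fin.tail u) i + Z2t (u 0) (Fin.tail u) i = φ i.succ
      exact (hZ (u 0) h0c h0q).1 (Fin.tail u) htail i hi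
  · -- lower sums
    intro u hu
    obtain ⟨h0c, h0q, htail⟩ := BoxGlue.tail_mem hu
    rw [BoxGlue.sum_filter_succ]
    have h2 : ∑ i ∈ univ.filter (fun i : Fin n => u i.succ < c i.succ),
        (Fin.cases (ξ (u 0)) (fun i => Z1t (u 0) (Fin.tail u) i) i.succ : ℝ)
        = Rt (u 0) := (hZ (u 0) h0c h0q).2.1 (Fin.tail u) htail
    rw [h2]
    by_cases h0 : u 0 < c 0
    · rw [if_pos h0, hR (u 0) h0 h0q]
      show ξ (u 0) + (R - ξ (u 0)) = R
      ring
    · rw [if_neg h0]
      have h0e : u 0 = c 0 := le_antisymm h0c (not_lt.mp h0)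
      rw [h0e, hRc (h0e ▸ h0q)]
      ring
  · -- upper sums
    intro y hy
    obtain ⟨h0c, h0q, htail⟩ := BoxGlue.tail_mem hy
    rw [BoxGlue.sum_filter_succ]
    have hpart : ∑ i ∈ univ.filter (fun i : Fin n => 1 ≤ y i.succ),
        (Fin.cases (φ 0 - ξ (Function.update y i.succ (y i.succ - 1) 0))
          (fun l => Z2t (Function.update y i.succ (y i.succ - 1) 0)
            (Fin.tail (Function.update y i.succ (y i.succ - 1))) l) i.succ : ℝ)
        = ∑ i ∈ univ.filter (fun i : Fin n => 1 ≤ Fin.tail y i),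
          Z2t (y 0) (Function.update (Fin.tail y) i (Fin.tail y i - 1)) i := by
      apply Finset.sum_congr rfl
      intro i _
      show Z2t (Function.update y i.succ (y i.succ - 1) 0)
        (Fin.tail (Function.update y i.succ (y i.succ - 1))) i = _
      rw [BoxGlue.update_succ_zero, BoxGlue.tail_update_succ]
      rfl
    rw [hpart]
    -- the slice part of the sum
    have hslicesum : y 0 ≤ q → ∑ i ∈ univ.filter (fun i : Fin n => 1 ≤ Fin.tail y i),
        Z2t (y 0) (Function.update (Fin.tail y) i (Fin.tail y i - 1)) i = St (y 0) := by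
      intro hq
      have ht2 : Fin.tail y ∈ Lev (Fin.tail c) (q - y 0 + 1) := by
        have : q + 1 - y 0 = q - y 0 + 1 := by omega
        rw [← this]
        exact htail
      exact (hZ (y 0) h0c hq).2.2.1 (Fin.tail y) ht2
    by_cases hy0 : 1 ≤ y 0
    · rw [if_pos hy0]
      show (φ 0 - ξ (Function.update y 0 (y 0 - 1) 0)) + _ = S
      rw [Function.update_self]
      have hs1 : y 0 - 1 < c 0 := by omega
      have hy1 : y 0 - 1 + 1 = y 0 := by omega
      by_cases hq : y 0 ≤ q
      · rw [hslicesum hq]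
        have h3 := hS (y 0 - 1) hs1 (by omega)
        rw [hy1] at h3
        rw [h3]
        ring
      · -- the tail is zero
        have hq1 : q + 1 - y 0 = 0 := by omega
        rw [hq1, mem_Lev] at htail
        have hz : ∀ i, Fin.tail y i = 0 := by
          intro i
          exact (Finset.sum_eq_zero_iff.mp htail.2) i (Finset.mem_univ i)
        have hzero : ∑ i ∈ univ.filter (fun i : Fin n => 1 ≤ Fin.tail y i),
            Z2t (y 0) (Function.update (Fin.tail y) i (Fin.tail y i - 1)) i = 0 := by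
          apply Finset.sum_eq_zero
          intro i hi
          have := (Finset.mem_filter.mp hi).2
          rw [hz i] at this
          omega
        rw [hzero, add_zero]
        have hyq : y 0 - 1 = q := by omega
        rw [hyq]
        exact hSq (by omega)
    · rw [if_neg hy0, zero_add]
      have hy00 : y 0 = 0 := by omega
      rw [hslicesum (by omega), hy00]
      exact hS0
  · -- cross term
    rw [sum_Lev_succ]
    have hlast : ∑ t ∈ Finset.range (c 0),
          (if t ≤ q then ((Lev (Fin.tail c) (q - t)).card : ℝ) * (ξ t * (φ 0 - ξ t)) else 0)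
        = ∑ t ∈ Finset.range (c 0 + 1),
          (if t ≤ q then (if t < c 0 then
            ((Lev (Fin.tail c) (q - t)).card : ℝ) * (ξ t * (φ 0 - ξ t)) else 0) else 0) := by
      rw [Finset.sum_range_succ, if_neg (lt_irrefl (c 0))]
      simp only [ite_self, add_zero]
      apply Finset.sum_congr rfl
      intro t ht
      rw [if_pos (Finset.mem_range.mp ht)]
    rw [hlast, ← Finset.sum_add_distrib]
    apply Finset.sum_le_sum
    intro t ht
    have htc : t ≤ c 0 := Nat.lt_succ_iff.mp (Finset.mem_range.mp ht)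
    by_cases htq : t ≤ q
    swap
    · rw [if_neg htq, if_neg htq, if_neg htq, add_zero]
    rw [if_pos htq, if_pos htq, if_pos htq]
    have hterm : ∀ u' ∈ Lev (Fin.tail c) (q - t),
        ∑ j ∈ univ.filter (fun j : Fin (n + 1) => (Fin.cons t u' : Fin (n + 1) → ℕ) j < c j),
          (Fin.cases (ξ ((Fin.cons t u' : Fin (n + 1) → ℕ) 0))
            (fun i => Z1t ((Fin.cons t u' : Fin (n + 1) → ℕ) 0)
              (Fin.tail (Fin.cons t u' : Fin (n + 1) → ℕ)) i) j : ℝ)
          * (Fin.cases (φ 0 - ξ ((Fin.cons t u' : Fin (n + 1) → ℕ) 0))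
            (fun i => Z2t ((Fin.cons t u' : Fin (n + 1) → ℕ) 0)
              (Fin.tail (Fin.cons t u' : Fin (n + 1) → ℕ)) i) j : ℝ)
        = (if t < c 0 then ξ t * (φ 0 - ξ t) else 0)
          + ∑ i ∈ univ.filter (fun i : Fin n => u' i < Fin.tail c i),
            Z1t t u' i * Z2t t u' i := by
      intro u' _
      rw [BoxGlue.sum_filter_succ]
      simp only [Fin.cons_zero, Fin.tail_cons, Fin.cons_succ, Fin.cases_zero, Fin.cases_succ]
      rfl
    rw [Finset.sum_congr rfl hterm, Finset.sum_add_distrib, Finset.sum_const, nsmul_eq_mul]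
    have hcross := (hZ t htc htq).2.2.2
    by_cases htlt : t < c 0
    · rw [if_pos htlt, if_pos htlt]
      linarith
    · rw [if_neg htlt, if_neg htlt, mul_zero]
      linarith

/-- the box without columns has no edges -/
theorem boxCertGe_zero (c : Fin 0 → ℕ) (q : ℕ) (φ : Fin 0 → ℝ) (R S W : ℝ) :
    BoxCertGe c q φ R S W ↔ (q = 0 → R = 0) ∧ W ≤ 0 := by
  constructor
  · rintro ⟨Z1, Z2, _, h2, _, h4⟩
    constructor
    · intro hq
      have hmem : (fun j : Fin 0 => (0 : ℕ)) ∈ Lev c q := by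
        rw [mem_Lev]
        exact ⟨fun j => Fin.elim0 j, by simp [hq]⟩
      have := h2 _ hmem
      simpa using this.symm
    · simpa using h4
  · rintro ⟨hR, hW⟩
    refine ⟨fun _ _ => 0, fun _ _ => 0, ?_, ?_, ?_, ?_⟩
    · intro u _ j
      exact Fin.elim0 j
    · intro u hu
      rw [mem_Lev] at hu
      have hq : q = 0 := by
        rw [← hu.2]
        simp
      rw [hR hq]
      simp
    · intro y hy
      rw [mem_Lev] at hy
      have h1 := hy.2
      simp at h1
    · simpa using hW

/-- the number of vertices of a level, sliced along the first coordinate -/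
theorem card_Lev_succ {n : ℕ} (c : Fin (n + 1) → ℕ) (q : ℕ) :
    (Lev c q).card = ∑ t ∈ Finset.range (c 0 + 1),
      if t ≤ q then (Lev (Fin.tail c) (q - t)).card else 0 := by
  have h := sum_Lev_succ c q (fun _ => (1 : ℝ))
  simp only [Finset.sum_const, nsmul_eq_mul, mul_one] at h
  have h2 : ((Lev c q).card : ℝ) = ((∑ t ∈ Finset.range (c 0 + 1),
      if t ≤ q then (Lev (Fin.tail c) (q - t)).card else 0 : ℕ) : ℝ) := by
    rw [h, Nat.cast_sum]
    apply Finset.sum_congr rfl
    intro t _
    by_cases htq : t ≤ q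
    · rw [if_pos htq, if_pos htq]
    · rw [if_neg htq, if_neg htq, Nat.cast_zero]
  exact_mod_cast h2

end Vale.Agent.Lib.P328.RP
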