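import Mathlib
import Vale.Agent.Lib.P328.RP.Gap22
import Vale.Agent.Lib.P328.RP.BlockCommute

/-!
P328: the gap of the heat bath on two-by-two blocks from a bound on the corner-sharing pairs
of blocks.

Two distinct blocks `p × q` and `p' × q'` (pairs of rows, pairs of columns) commute when the
row pairs or the column pairs are disjoint; when they have the same row pair (or the same
column pair) they lie in one two-row (two-column) system, where the three-site lemma applies.
The remaining pairs share exactly one cell.  If the sum of `⟨(1 - E p q) f, (1 - E p' q') f⟩`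
over these corner-sharing pairs is at least `-θ` times the Dirichlet form, with `θ < 1`, the
heat bath has gap at least `1 - θ`.
-/

namespace Vale.Agent.Lib.P328.RP

open Finset
open Vale.Agent.Lib.P335.Bip

section corner

variable {m n : ℕ} {r : Fin m → ℕ} {c : Fin n → ℕ}

/-- The projection `1 - E p q`. -/
noncomputable def PE (p : Finset (Fin m)) (q : Finset (Fin n)) :
    (CT m n r c → ℝ) →ₗ[ℝ] (CT m n r c → ℝ) :=
  LinearMap.id - E p q

theorem PE_apply (p : Finset (Fin m)) (q : Finset (Fin n)) (f : CT m n r c → ℝ) :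
    PE p q f = f - E p q f := rfl

theorem ip_PE (p : Finset (Fin m)) (q : Finset (Fin n)) (f : CT m n r c → ℝ) :
    ip f (PE p q f) = ip f f - ip f (E p q f) := by
  rw [PE_apply, ip_sub_right]

theorem PE_symm (p : Finset (Fin m)) (q : Finset (Fin n)) (f g : CT m n r c → ℝ) :
    ip f (PE p q g) = ip (PE p q f) g := by
  rw [PE_apply, PE_apply, ip_sub_right, ip_sub_left, E_symm]

theorem PE_idem (p : Finset (Fin m)) (q : Finset (Fin n)) (f : CT m n r c → ℝ) :
    PE p q (PE p q f) = PE p q f := by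
  rw [PE_apply, PE_apply, map_sub, E_idem]
  abel

theorem ip_PE_self (p : Finset (Fin m)) (q : Finset (Fin n)) (f : CT m n r c → ℝ) :
    ip (PE p q f) (PE p q f) = ip f (PE p q f) := by
  rw [← PE_symm, PE_idem]

theorem PE_E_of_subset {p p' : Finset (Fin m)} {q q' : Finset (Fin n)} (hp : p ⊆ p')
    (hq : q ⊆ q') (f : CT m n r c → ℝ) : PE p q (E p' q' f) = 0 := by
  rw [PE_apply, E_E_of_subset hp hq, sub_self]

/-- Commuting blocks contribute nonnegatively. -/
theorem ip_PE_PE_nonneg_of_comm (p p' : Finset (Fin m)) (q q' : Finset (Fin n))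
    (hc : ∀ g : CT m n r c → ℝ, E p q (E p' q' g) = E p' q' (E p q g)) (f : CT m n r c → ℝ) :
    0 ≤ ip (PE p q f) (PE p' q' f) := by
  have hcP : ∀ g : CT m n r c → ℝ, PE p q (PE p' q' g) = PE p' q' (PE p q g) := by
    intro g
    simp only [PE_apply, map_sub]
    rw [hc g]
    abel
  have e : ip (PE p q f) (PE p' q' f) = ip (PE p q (PE p' q' f)) (PE p q (PE p' q' f)) := by
    calc ip (PE p q f) (PE p' q' f) = ip (PE p q f) (PE p' q' (PE p' q' f)) := by rw [PE_idem]
      _ = ip (PE p' q' (PE p q f)) (PE p' q' f) := PE_symm p' q' _ _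
      _ = ip (PE p q (PE p' q' f)) (PE p' q' f) := by rw [hcP f]
      _ = ip (PE p' q' f) (PE p q (PE p' q' f)) := ip_comm _ _
      _ = ip (PE p' q' f) (PE p q (PE p q (PE p' q' f))) := by rw [PE_idem]
      _ = ip (PE p q (PE p' q' f)) (PE p q (PE p' q' f)) := PE_symm p q _ _
  rw [e]
  exact ip_self_nonneg _

/-- For a pair `q` of columns, resampling the two columns is dominated by the resamplings of
the two-by-two blocks inside them. -/
theorem col_block_gap (q : Finset (Fin n)) (hq : q.card = 2) (f : CT m n r c → ℝ) :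
    ip f f - ip f (E univ q f)
      ≤ ∑ p ∈ (univ : Finset (Fin m)).powersetCard 2, (ip f f - ip f (E p q f)) := by
  set f' : CT n m c r → ℝ := fun y => f (tr.symm y) with hf'
  have hf : f = fun x : CT m n r c => f' (tr x) := by
    funext x
    simp only [hf', Equiv.symm_apply_apply]
  have key := pair_block_gap q hq f'
  have e1 : ip f f = ip f' f' := by
    rw [hf]
    exact ip_tr f' f'
  have e2 : ∀ p : Finset (Fin m), ip f (E p q f) = ip f' (E q p f') := by
    intro p
    have h1 : E p q f = fun x : CT m n r c => E q p f' (tr x) := by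
      funext x
      rw [hf]
      exact E_tr p q f' x
    rw [h1]
    conv_lhs => rw [hf]
    exact ip_tr f' (E q p f')
  rw [e1, e2 univ, Finset.sum_congr rfl (fun p _ => by rw [e2 p]), E_univ_right]
  exact key

/-- The blocks inside a fixed pair of rows: `A ≤ A ^ 2` for `A = ∑ q, (1 - E p q)`. -/
theorem row_sq (p : Finset (Fin m)) (hp : p.card = 2) (f : CT m n r c → ℝ) :
    ∑ q ∈ (univ : Finset (Fin n)).powersetCard 2, ip f (PE p q f)
      ≤ ∑ q ∈ (univ : Finset (Fin n)).powersetCard 2,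
          ∑ q' ∈ (univ : Finset (Fin n)).powersetCard 2, ip (PE p q f) (PE p q' f) := by
  set S : (CT m n r c → ℝ) →ₗ[ℝ] (CT m n r c → ℝ) :=
    ∑ q ∈ (univ : Finset (Fin n)).powersetCard 2, PE p q with hS
  have hSapp : ∀ g, S g = ∑ q ∈ (univ : Finset (Fin n)).powersetCard 2, PE p q g := by
    intro g
    rw [hS, LinearMap.sum_apply]
  have hloc := local_sq S (R p)
    (by
      intro g h
      rw [hSapp, hSapp, ip_sum_right, ip_sum_left]
      exact Finset.sum_congr rfl (fun q _ => PE_symm p q g h))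
    (R_symm p) (R_idem p)
    (by
      intro g
      rw [hSapp]
      refine Finset.sum_eq_zero (fun q _ => ?_)
      rw [← E_univ_right]
      exact PE_E_of_subset (Finset.Subset.refl p) (Finset.subset_univ q) g)
    (by
      intro g
      rw [hSapp, ip_sum_right, Finset.sum_congr rfl (fun q _ => ip_PE p q g)]
      exact pair_block_gap p hp g)
    f
  rw [hSapp, ip_sum_right, ip_sum_left] at hloc
  refine hloc.trans (le_of_eq ?_)
  refine Finset.sum_congr rfl (fun q _ => ?_)
  rw [ip_sum_right]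

/-- The blocks inside a fixed pair of columns: `A ≤ A ^ 2` for `A = ∑ p, (1 - E p q)`. -/
theorem col_sq (q : Finset (Fin n)) (hq : q.card = 2) (f : CT m n r c → ℝ) :
    ∑ p ∈ (univ : Finset (Fin m)).powersetCard 2, ip f (PE p q f)
      ≤ ∑ p ∈ (univ : Finset (Fin m)).powersetCard 2,
          ∑ p' ∈ (univ : Finset (Fin m)).powersetCard 2, ip (PE p q f) (PE p' q f) := by
  set S : (CT m n r c → ℝ) →ₗ[ℝ] (CT m n r c → ℝ) :=
    ∑ p ∈ (univ : Finset (Fin m)).powersetCard 2, PE p q with hS
  have hSapp : ∀ g, S g = ∑ p ∈ (univ : Finset (Fin m)).powersetCard 2, PE p q g := by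
    intro g
    rw [hS, LinearMap.sum_apply]
  have hloc := local_sq S (E univ q)
    (by
      intro g h
      rw [hSapp, hSapp, ip_sum_right, ip_sum_left]
      exact Finset.sum_congr rfl (fun p _ => PE_symm p q g h))
    (E_symm univ q) (E_idem univ q)
    (by
      intro g
      rw [hSapp]
      exact Finset.sum_eq_zero (fun p _ =>
        PE_E_of_subset (Finset.subset_univ p) (Finset.Subset.refl q) g))
    (by
      intro g
      rw [hSapp, ip_sum_right, Finset.sum_congr rfl (fun p _ => ip_PE p q g)]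
      exact col_block_gap q hq g)
    f
  rw [hSapp, ip_sum_right, ip_sum_left] at hloc
  refine hloc.trans (le_of_eq ?_)
  refine Finset.sum_congr rfl (fun p _ => ?_)
  rw [ip_sum_right]

/-- The sum of `⟨(1 - E p q) f, (1 - E p' q') f⟩` over the ordered pairs of blocks that share
exactly one cell. -/
noncomputable def cornerForm (f : CT m n r c → ℝ) : ℝ :=
  ∑ p ∈ (univ : Finset (Fin m)).powersetCard 2, ∑ q ∈ (univ : Finset (Fin n)).powersetCard 2,
    ∑ p' ∈ (univ : Finset (Fin m)).powersetCard 2, ∑ q' ∈ (univ : Finset (Fin n)).powersetCard 2,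
      if p ≠ p' ∧ q ≠ q' ∧ ¬ Disjoint p p' ∧ ¬ Disjoint q q' then
        ip (f - E p q f) (f - E p' q' f) else 0

/-- Local-to-global step on blocks: with a lower bound `-θ` on the corner-sharing pairs, the
block heat bath `H = ∑ (1 - E p q)` satisfies `(1 - θ) H ≤ H ^ 2`. -/
theorem sq_of_corner (θ : ℝ)
    (hcorner : ∀ f : CT m n r c → ℝ,
      -θ * (∑ p ∈ (univ : Finset (Fin m)).powersetCard 2,
        ∑ q ∈ (univ : Finset (Fin n)).powersetCard 2, (ip f f - ip f (E p q f))) ≤ cornerForm f)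
    (f : CT m n r c → ℝ) :
    (1 - θ) * (∑ p ∈ (univ : Finset (Fin m)).powersetCard 2,
        ∑ q ∈ (univ : Finset (Fin n)).powersetCard 2, ip f (PE p q f))
      ≤ ∑ p ∈ (univ : Finset (Fin m)).powersetCard 2,
          ∑ q ∈ (univ : Finset (Fin n)).powersetCard 2,
            ∑ p' ∈ (univ : Finset (Fin m)).powersetCard 2,
              ∑ q' ∈ (univ : Finset (Fin n)).powersetCard 2, ip (PE p q f) (PE p' q' f) := by
  classical
  set PP : Finset (Finset (Fin m)) := (univ : Finset (Fin m)).powersetCard 2 with hPP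
  set QQ : Finset (Finset (Fin n)) := (univ : Finset (Fin n)).powersetCard 2 with hQQ
  have hc2 : ∀ p ∈ PP, p.card = 2 := fun p hp => (Finset.mem_powersetCard.mp hp).2
  have hd2 : ∀ q ∈ QQ, q.card = 2 := fun q hq => (Finset.mem_powersetCard.mp hq).2
  set a : Finset (Fin m) → Finset (Fin n) → Finset (Fin m) → Finset (Fin n) → ℝ :=
    fun p q p' q' => ip (PE p q f) (PE p' q' f) with ha
  have hdiag : ∀ p q, a p q p q = ip f (PE p q f) := fun p q => ip_PE_self p q f
  -- pointwise splitting into the four types of pairs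
  have hsplit : ∀ p q p' q', a p q p' q'
      = (if p = p' then a p q p' q' else 0)
        + (if p ≠ p' ∧ q = q' then a p q p' q' else 0)
        + (if p ≠ p' ∧ q ≠ q' ∧ (Disjoint p p' ∨ Disjoint q q') then a p q p' q' else 0)
        + (if p ≠ p' ∧ q ≠ q' ∧ ¬ Disjoint p p' ∧ ¬ Disjoint q q' then a p q p' q' else 0) := by
    intro p q p' q'
    by_cases h1 : p = p'
    · simp [h1]
    · by_cases h2 : q = q'
      · simp [h1, h2]
      · by_cases h3 : Disjoint p p'
        · simp [h1, h2, h3]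
        · by_cases h4 : Disjoint q q'
          · simp [h1, h2, h3, h4]
          · simp [h1, h2, h3, h4]
  have hsum : ∑ p ∈ PP, ∑ q ∈ QQ, ∑ p' ∈ PP, ∑ q' ∈ QQ, a p q p' q'
      = (∑ p ∈ PP, ∑ q ∈ QQ, ∑ p' ∈ PP, ∑ q' ∈ QQ, (if p = p' then a p q p' q' else 0))
        + (∑ p ∈ PP, ∑ q ∈ QQ, ∑ p' ∈ PP, ∑ q' ∈ QQ,
            (if p ≠ p' ∧ q = q' then a p q p' q' else 0))
        + (∑ p ∈ PP, ∑ q ∈ QQ, ∑ p' ∈ PP, ∑ q' ∈ QQ,
            (if p ≠ p' ∧ q ≠ q' ∧ (Disjoint p p' ∨ Disjoint q q') then a p q p' q' else 0))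
        + (∑ p ∈ PP, ∑ q ∈ QQ, ∑ p' ∈ PP, ∑ q' ∈ QQ,
            (if p ≠ p' ∧ q ≠ q' ∧ ¬ Disjoint p p' ∧ ¬ Disjoint q q' then a p q p' q' else 0)) := by
    simp only [← Finset.sum_add_distrib]
    refine Finset.sum_congr rfl (fun p _ => Finset.sum_congr rfl (fun q _ =>
      Finset.sum_congr rfl (fun p' _ => Finset.sum_congr rfl (fun q' _ => hsplit p q p' q'))))
  -- type 1: same pair of rows
  have h1 : ∑ p ∈ PP, ∑ q ∈ QQ, ip f (PE p q f)
      ≤ ∑ p ∈ PP, ∑ q ∈ QQ, ∑ p' ∈ PP, ∑ q' ∈ QQ, (if p = p' then a p q p' q' else 0) := by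
    refine Finset.sum_le_sum (fun p hp => ?_)
    have e : ∑ q ∈ QQ, ∑ p' ∈ PP, ∑ q' ∈ QQ, (if p = p' then a p q p' q' else 0)
        = ∑ q ∈ QQ, ∑ q' ∈ QQ, a p q p q' := by
      refine Finset.sum_congr rfl (fun q _ => ?_)
      rw [Finset.sum_eq_single_of_mem p hp]
      · simp
      · intro p' _ hne
        exact Finset.sum_eq_zero (fun q' _ => if_neg (fun h => hne h.symm))
    rw [e]
    exact row_sq p (hc2 p hp) f
  -- type 2: same pair of columns, different pairs of rows
  have h2 : 0 ≤ ∑ p ∈ PP, ∑ q ∈ QQ, ∑ p' ∈ PP, ∑ q' ∈ QQ,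
      (if p ≠ p' ∧ q = q' then a p q p' q' else 0) := by
    have e : ∑ p ∈ PP, ∑ q ∈ QQ, ∑ p' ∈ PP, ∑ q' ∈ QQ,
        (if p ≠ p' ∧ q = q' then a p q p' q' else 0)
        = ∑ q ∈ QQ, ((∑ p ∈ PP, ∑ p' ∈ PP, a p q p' q) - ∑ p ∈ PP, ip f (PE p q f)) := by
      rw [Finset.sum_comm]
      refine Finset.sum_congr rfl (fun q hq => ?_)
      rw [← Finset.sum_sub_distrib]
      refine Finset.sum_congr rfl (fun p hp => ?_)
      have e1 : ∀ p' ∈ PP, ∑ q' ∈ QQ, (if p ≠ p' ∧ q = q' then a p q p' q' else 0)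
          = if p ≠ p' then a p q p' q else 0 := by
        intro p' _
        rw [Finset.sum_eq_single_of_mem q hq]
        · simp
        · intro q' _ hne
          exact if_neg (fun h => hne h.2.symm)
      rw [Finset.sum_congr rfl e1]
      have e2 : ∑ p' ∈ PP, (if p ≠ p' then a p q p' q else 0)
          = ∑ p' ∈ PP, (a p q p' q - if p = p' then a p q p' q else 0) := by
        refine Finset.sum_congr rfl (fun p' _ => ?_)
        by_cases h : p = p'
        · simp [h]
        · simp [h]
      rw [e2, Finset.sum_sub_distrib, Finset.sum_ite_eq, if_pos hp, hdiag]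
    rw [e]
    refine Finset.sum_nonneg (fun q hq => ?_)
    have := col_sq q (hd2 q hq) f
    linarith
  -- type 3: commuting blocks
  have h3 : 0 ≤ ∑ p ∈ PP, ∑ q ∈ QQ, ∑ p' ∈ PP, ∑ q' ∈ QQ,
      (if p ≠ p' ∧ q ≠ q' ∧ (Disjoint p p' ∨ Disjoint q q') then a p q p' q' else 0) := by
    refine Finset.sum_nonneg (fun p _ => Finset.sum_nonneg (fun q _ =>
      Finset.sum_nonneg (fun p' _ => Finset.sum_nonneg (fun q' _ => ?_))))
    split_ifs with h
    · rcases h.2.2 with hd | hd
      · exact ip_PE_PE_nonneg_of_comm p p' q q'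
          (fun g => E_comm_of_disjoint_rows p p' q q' hd g) f
      · exact ip_PE_PE_nonneg_of_comm p p' q q'
          (fun g => E_comm_of_disjoint_cols p p' q q' hd g) f
    · exact le_refl _
  -- type 4: corner-sharing blocks
  have h4 : -θ * (∑ p ∈ PP, ∑ q ∈ QQ, ip f (PE p q f))
      ≤ ∑ p ∈ PP, ∑ q ∈ QQ, ∑ p' ∈ PP, ∑ q' ∈ QQ,
        (if p ≠ p' ∧ q ≠ q' ∧ ¬ Disjoint p p' ∧ ¬ Disjoint q q' then a p q p' q' else 0) := by
    have := hcorner f
    unfold cornerForm at this
    rw [Finset.sum_congr rfl (fun p _ => Finset.sum_congr rfl (fun q _ => ip_PE p q f))]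
    exact this
  rw [hsum]
  linarith

/-- The gap of the heat bath on two-by-two blocks from the local-to-global inequality
`κ H ≤ H ^ 2` for the block heat bath `H = ∑ (1 - E p q)`, `κ > 0`:
`κ (1 - mean) ≤ ∑ (1 - E p q)`. -/
theorem gap22_of_sq (κ : ℝ) (hκ : 0 < κ)
    (hsq : ∀ g : CT m n r c → ℝ,
      κ * (∑ p ∈ (univ : Finset (Fin m)).powersetCard 2,
        ∑ q ∈ (univ : Finset (Fin n)).powersetCard 2, ip g (PE p q g))
      ≤ ∑ p ∈ (univ : Finset (Fin m)).powersetCard 2,
          ∑ q ∈ (univ : Finset (Fin n)).powersetCard 2,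
            ∑ p' ∈ (univ : Finset (Fin m)).powersetCard 2,
              ∑ q' ∈ (univ : Finset (Fin n)).powersetCard 2, ip (PE p q g) (PE p' q' g))
    (f : CT m n r c → ℝ) :
    κ * (ip f f - ip f (R univ f))
      ≤ ∑ p ∈ (univ : Finset (Fin m)).powersetCard 2,
          ∑ q ∈ (univ : Finset (Fin n)).powersetCard 2, (ip f f - ip f (E p q f)) := by
  classical
  set H : (CT m n r c → ℝ) →ₗ[ℝ] (CT m n r c → ℝ) :=
    ∑ p ∈ (univ : Finset (Fin m)).powersetCard 2,
      ∑ q ∈ (univ : Finset (Fin n)).powersetCard 2, PE p q with hH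
  have hHapp : ∀ g, H g = ∑ p ∈ (univ : Finset (Fin m)).powersetCard 2,
      ∑ q ∈ (univ : Finset (Fin n)).powersetCard 2, PE p q g := by
    intro g
    rw [hH, LinearMap.sum_apply]
    refine Finset.sum_congr rfl (fun p _ => ?_)
    rw [LinearMap.sum_apply]
  have hform : ∀ g, ip g (H g) = ∑ p ∈ (univ : Finset (Fin m)).powersetCard 2,
      ∑ q ∈ (univ : Finset (Fin n)).powersetCard 2, ip g (PE p q g) := by
    intro g
    rw [hHapp, ip_sum_right]
    refine Finset.sum_congr rfl (fun p _ => ?_)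
    rw [ip_sum_right]
  have hform' : ∀ g, ip g (H g) = ∑ p ∈ (univ : Finset (Fin m)).powersetCard 2,
      ∑ q ∈ (univ : Finset (Fin n)).powersetCard 2, (ip g g - ip g (E p q g)) := by
    intro g
    rw [hform]
    exact Finset.sum_congr rfl (fun p _ => Finset.sum_congr rfl (fun q _ => ip_PE p q g))
  have hnorm : ∀ g, ip (H g) (H g) = ∑ p ∈ (univ : Finset (Fin m)).powersetCard 2,
      ∑ q ∈ (univ : Finset (Fin n)).powersetCard 2,
        ∑ p' ∈ (univ : Finset (Fin m)).powersetCard 2,
          ∑ q' ∈ (univ : Finset (Fin n)).powersetCard 2, ip (PE p q g) (PE p' q' g) := by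
    intro g
    rw [hHapp, ip_sum_left]
    refine Finset.sum_congr rfl (fun p _ => ?_)
    rw [ip_sum_left]
    refine Finset.sum_congr rfl (fun q _ => ?_)
    rw [ip_sum_right]
    refine Finset.sum_congr rfl (fun p' _ => ?_)
    rw [ip_sum_right]
  have hHsymm : ∀ g h, ip g (H h) = ip (H g) h := by
    intro g h
    rw [hHapp, hHapp, ip_sum_right, ip_sum_left]
    refine Finset.sum_congr rfl (fun p _ => ?_)
    rw [ip_sum_right, ip_sum_left]
    exact Finset.sum_congr rfl (fun q _ => PE_symm p q g h)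
  have hHnn : ∀ g, 0 ≤ ip g (H g) := by
    intro g
    rw [hform']
    exact Finset.sum_nonneg (fun p _ => Finset.sum_nonneg (fun q _ =>
      sub_nonneg.mpr (ip_E_le p q g)))
  have hsq' : ∀ g, κ * ip g (H g) ≤ ip (H g) (H g) := by
    intro g
    rw [hform, hnorm]
    exact hsq g
  have hker : ∀ g, H g = 0 → R univ g = g := by
    intro g hg
    have h0 : ip g (H g) = 0 := by rw [hg, ip_zero_right]
    rw [hform'] at h0
    have hnn1 : ∀ p ∈ (univ : Finset (Fin m)).powersetCard 2,
        0 ≤ ∑ q ∈ (univ : Finset (Fin n)).powersetCard 2, (ip g g - ip g (E p q g)) :=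
      fun p _ => Finset.sum_nonneg (fun q _ => sub_nonneg.mpr (ip_E_le p q g))
    have hterm := (Finset.sum_eq_zero_iff_of_nonneg hnn1).mp h0
    have hfix : ∀ p : Finset (Fin m), p.card = 2 → R p g = g := by
      intro p hp
      have h1 := hterm p (Finset.mem_powersetCard.mpr ⟨Finset.subset_univ _, hp⟩)
      have h2 := pair_block_gap p hp g
      rw [h1] at h2
      have h3 : ip (g - R p g) (g - R p g) = 0 := by
        have h4 : ip (g - R p g) (g - R p g) = ip g g - ip g (R p g) := ip_sub_cexp _ g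
        have h5 := ip_self_nonneg (g - R p g)
        linarith
      have h6 := ip_self_eq_zero.mp h3
      exact (sub_eq_zero.mp h6).symm
    exact cexp_of_factor _ (fun x y _ => const_of_fixed g hfix x y)
  have key := gap_of_sq (κ⁻¹ • H) (R univ)
    (by
      intro g h
      simp only [LinearMap.smul_apply]
      rw [ip_smul_right, ip_smul_left, hHsymm])
    (R_symm univ)
    (by
      intro g
      simp only [LinearMap.smul_apply]
      rw [hHapp]
      have hz : ∑ p ∈ (univ : Finset (Fin m)).powersetCard 2,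
          ∑ q ∈ (univ : Finset (Fin n)).powersetCard 2, PE p q (R univ g) = 0 := by
        refine Finset.sum_eq_zero (fun p _ => Finset.sum_eq_zero (fun q _ => ?_))
        rw [← E_univ_right]
        exact PE_E_of_subset (Finset.subset_univ p) (Finset.subset_univ q) g
      rw [hz, smul_zero])
    (by
      intro g
      simp only [LinearMap.smul_apply]
      rw [ip_smul_right]
      exact mul_nonneg (inv_nonneg.mpr hκ.le) (hHnn g))
    (by
      intro g
      simp only [LinearMap.smul_apply]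
      rw [ip_smul_right, ip_smul_left, ip_smul_right]
      have h1 := hsq' g
      have h2 : κ⁻¹ * ip g (H g) = κ⁻¹ * (κ⁻¹ * (κ * ip g (H g))) := by
        field_simp
      rw [h2]
      exact mul_le_mul_of_nonneg_left (mul_le_mul_of_nonneg_left h1 (inv_nonneg.mpr hκ.le))
        (inv_nonneg.mpr hκ.le))
    (by
      intro g hg
      simp only [LinearMap.smul_apply] at hg
      rcases smul_eq_zero.mp hg with h | h
      · exact absurd h (inv_ne_zero hκ.ne')
      · exact hker g h)
    f
  simp only [LinearMap.smul_apply] at key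
  rw [ip_smul_right, hform'] at key
  have h3 := mul_le_mul_of_nonneg_left key hκ.le
  rw [← mul_assoc, mul_inv_cancel₀ hκ.ne', one_mul] at h3
  exact h3

/-- The gap of the heat bath on two-by-two blocks from a bound on the corner-sharing pairs:
if the corner form is at least `-θ` times the Dirichlet form with `θ < 1`, then
`(1 - θ) (1 - mean) ≤ ∑ (1 - E p q)`. -/
theorem gap22_of_corner (θ : ℝ) (hθ : θ < 1)
    (hcorner : ∀ f : CT m n r c → ℝ,
      -θ * (∑ p ∈ (univ : Finset (Fin m)).powersetCard 2,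
        ∑ q ∈ (univ : Finset (Fin n)).powersetCard 2, (ip f f - ip f (E p q f))) ≤ cornerForm f)
    (f : CT m n r c → ℝ) :
    (1 - θ) * (ip f f - ip f (R univ f))
      ≤ ∑ p ∈ (univ : Finset (Fin m)).powersetCard 2,
          ∑ q ∈ (univ : Finset (Fin n)).powersetCard 2, (ip f f - ip f (E p q f)) :=
  gap22_of_sq (1 - θ) (by linarith) (fun g => sq_of_corner θ hcorner g) f

/-- The sum of `⟨(1 - E p q) f, (1 - E p' q') f⟩` over the ordered pairs of distinct blocks
that share at least one cell (the pairs of blocks that do not commute). -/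
noncomputable def overlapForm (f : CT m n r c → ℝ) : ℝ :=
  ∑ p ∈ (univ : Finset (Fin m)).powersetCard 2, ∑ q ∈ (univ : Finset (Fin n)).powersetCard 2,
    ∑ p' ∈ (univ : Finset (Fin m)).powersetCard 2, ∑ q' ∈ (univ : Finset (Fin n)).powersetCard 2,
      if ¬ (p = p' ∧ q = q') ∧ ¬ Disjoint p p' ∧ ¬ Disjoint q q' then
        ip (f - E p q f) (f - E p' q' f) else 0

/-- Local-to-global step on blocks: with a lower bound `-θ` on the overlapping pairs, the
block heat bath `H = ∑ (1 - E p q)` satisfies `(1 - θ) H ≤ H ^ 2`. -/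
theorem sq_of_overlap (θ : ℝ)
    (hov : ∀ f : CT m n r c → ℝ,
      -θ * (∑ p ∈ (univ : Finset (Fin m)).powersetCard 2,
        ∑ q ∈ (univ : Finset (Fin n)).powersetCard 2, (ip f f - ip f (E p q f))) ≤ overlapForm f)
    (f : CT m n r c → ℝ) :
    (1 - θ) * (∑ p ∈ (univ : Finset (Fin m)).powersetCard 2,
        ∑ q ∈ (univ : Finset (Fin n)).powersetCard 2, ip f (PE p q f))
      ≤ ∑ p ∈ (univ : Finset (Fin m)).powersetCard 2,
          ∑ q ∈ (univ : Finset (Fin n)).powersetCard 2,
            ∑ p' ∈ (univ : Finset (Fin m)).powersetCard 2,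
              ∑ q' ∈ (univ : Finset (Fin n)).powersetCard 2, ip (PE p q f) (PE p' q' f) := by
  classical
  set PP : Finset (Finset (Fin m)) := (univ : Finset (Fin m)).powersetCard 2 with hPP
  set QQ : Finset (Finset (Fin n)) := (univ : Finset (Fin n)).powersetCard 2 with hQQ
  set a : Finset (Fin m) → Finset (Fin n) → Finset (Fin m) → Finset (Fin n) → ℝ :=
    fun p q p' q' => ip (PE p q f) (PE p' q' f) with ha
  have hdiag : ∀ p q, a p q p q = ip f (PE p q f) := fun p q => ip_PE_self p q f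
  have hsplit : ∀ p q p' q', a p q p' q'
      = (if p = p' ∧ q = q' then a p q p' q' else 0)
        + (if ¬ (p = p' ∧ q = q') ∧ (Disjoint p p' ∨ Disjoint q q') then a p q p' q' else 0)
        + (if ¬ (p = p' ∧ q = q') ∧ ¬ Disjoint p p' ∧ ¬ Disjoint q q' then a p q p' q'
            else 0) := by
    intro p q p' q'
    by_cases h1 : p = p' ∧ q = q'
    · simp [h1]
    · by_cases h3 : Disjoint p p'
      · simp [h1, h3]
      · by_cases h4 : Disjoint q q'
        · simp [h1, h3, h4]
        · simp [h1, h3, h4]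
  have hsum : ∑ p ∈ PP, ∑ q ∈ QQ, ∑ p' ∈ PP, ∑ q' ∈ QQ, a p q p' q'
      = (∑ p ∈ PP, ∑ q ∈ QQ, ∑ p' ∈ PP, ∑ q' ∈ QQ,
            (if p = p' ∧ q = q' then a p q p' q' else 0))
        + (∑ p ∈ PP, ∑ q ∈ QQ, ∑ p' ∈ PP, ∑ q' ∈ QQ,
            (if ¬ (p = p' ∧ q = q') ∧ (Disjoint p p' ∨ Disjoint q q') then a p q p' q' else 0))
        + (∑ p ∈ PP, ∑ q ∈ QQ, ∑ p' ∈ PP, ∑ q' ∈ QQ,
            (if ¬ (p = p' ∧ q = q') ∧ ¬ Disjoint p p' ∧ ¬ Disjoint q q' then a p q p' q'
              else 0)) := by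
    simp only [← Finset.sum_add_distrib]
    refine Finset.sum_congr rfl (fun p _ => Finset.sum_congr rfl (fun q _ =>
      Finset.sum_congr rfl (fun p' _ => Finset.sum_congr rfl (fun q' _ => hsplit p q p' q'))))
  -- the diagonal
  have h1 : ∑ p ∈ PP, ∑ q ∈ QQ, ∑ p' ∈ PP, ∑ q' ∈ QQ,
      (if p = p' ∧ q = q' then a p q p' q' else 0) = ∑ p ∈ PP, ∑ q ∈ QQ, ip f (PE p q f) := by
    refine Finset.sum_congr rfl (fun p hp => Finset.sum_congr rfl (fun q hq => ?_))
    rw [Finset.sum_eq_single_of_mem p hp]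
    · rw [Finset.sum_eq_single_of_mem q hq]
      · simp [hdiag]
      · intro q' _ hne
        exact if_neg (fun h => hne h.2.symm)
    · intro p' _ hne
      exact Finset.sum_eq_zero (fun q' _ => if_neg (fun h => hne h.1.symm))
  -- commuting blocks
  have h3 : 0 ≤ ∑ p ∈ PP, ∑ q ∈ QQ, ∑ p' ∈ PP, ∑ q' ∈ QQ,
      (if ¬ (p = p' ∧ q = q') ∧ (Disjoint p p' ∨ Disjoint q q') then a p q p' q' else 0) := by
    refine Finset.sum_nonneg (fun p _ => Finset.sum_nonneg (fun q _ =>
      Finset.sum_nonneg (fun p' _ => Finset.sum_nonneg (fun q' _ => ?_))))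
    split_ifs with h
    · rcases h.2 with hd | hd
      · exact ip_PE_PE_nonneg_of_comm p p' q q'
          (fun g => E_comm_of_disjoint_rows p p' q q' hd g) f
      · exact ip_PE_PE_nonneg_of_comm p p' q q'
          (fun g => E_comm_of_disjoint_cols p p' q q' hd g) f
    · exact le_refl _
  -- overlapping blocks
  have h4 : -θ * (∑ p ∈ PP, ∑ q ∈ QQ, ip f (PE p q f))
      ≤ ∑ p ∈ PP, ∑ q ∈ QQ, ∑ p' ∈ PP, ∑ q' ∈ QQ,
        (if ¬ (p = p' ∧ q = q') ∧ ¬ Disjoint p p' ∧ ¬ Disjoint q q' then a p q p' q'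
          else 0) := by
    have := hov f
    unfold overlapForm at this
    rw [Finset.sum_congr rfl (fun p _ => Finset.sum_congr rfl (fun q _ => ip_PE p q f))]
    exact this
  rw [hsum, h1]
  linarith

/-- The gap of the heat bath on two-by-two blocks from a bound on the overlapping pairs of
blocks: if the overlap form is at least `-θ` times the Dirichlet form with `θ < 1`, then
`(1 - θ) (1 - mean) ≤ ∑ (1 - E p q)`. -/
theorem gap22_of_overlap (θ : ℝ) (hθ : θ < 1)
    (hov : ∀ f : CT m n r c → ℝ,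
      -θ * (∑ p ∈ (univ : Finset (Fin m)).powersetCard 2,
        ∑ q ∈ (univ : Finset (Fin n)).powersetCard 2, (ip f f - ip f (E p q f))) ≤ overlapForm f)
    (f : CT m n r c → ℝ) :
    (1 - θ) * (ip f f - ip f (R univ f))
      ≤ ∑ p ∈ (univ : Finset (Fin m)).powersetCard 2,
          ∑ q ∈ (univ : Finset (Fin n)).powersetCard 2, (ip f f - ip f (E p q f)) :=
  gap22_of_sq (1 - θ) (by linarith) (fun g => sq_of_overlap θ hov g) f

end corner

end Vale.Agent.Lib.P328.RP
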