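import Mathlib
import Vale.Agent.Lib.P328.RP.BoxDual
import Vale.Agent.Lib.P328.RP.FamilyHub

/-!
P328: from box certificates for a reservoir column to the mixing bounds for margins with two
arbitrary rows, all other row sums at most one, and a hub column.

`ResCert n` is the statement that on every box with `n` columns in which one column `j0` has
capacity above the level `q` and the other capacities add up to at most `q`, every colour
function with zero sum over the edges has a certificate with zero frames.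

* `threeRow_hub_of` : `ResCert n` gives the three-row inequality for `r' 2 = 1` and a column
  `j0` with `r' 0 + 1 ≤ c' j0`, `r' 1 + 1 ≤ c' j0`.
* `mixing22_two_fat_hub_of_res`, `mixing_two_fat_hub_of_res` : the mixing bounds from
  `ResCert n`.
-/

namespace Vale.Agent.Lib.P328.RP

open Finset
open Vale.Agent.Lib.P335.Bip

/-- certificates for boxes with a reservoir column -/
def ResCert (n : ℕ) : Prop :=
  ∀ (c : Fin n → ℕ) (q : ℕ) (j0 : Fin n), q + 1 ≤ c j0 → ∑ l ∈ univ.erase j0, c l ≤ q →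
    ∀ φ : Fin n → ℝ,
      ∑ u ∈ Lev c q, ∑ j ∈ univ.filter (fun j : Fin n => u j < c j), φ j = 0 →
        BoxCert c q φ 0 0

/-- The three-row inequality when the last row has sum one and one column exceeds the other
two row sums. -/
theorem threeRow_hub_of {n : ℕ} (hRes : ResCert n) (r' : Fin 3 → ℕ) (c' : Fin n → ℕ)
    (j0 : Fin n) (hr : r' 2 = 1) (h0 : r' 0 + 1 ≤ c' j0) (h1 : r' 1 + 1 ≤ c' j0)
    (g : CT 3 n r' c' → ℝ) :
    ∑ q ∈ (univ : Finset (Fin 3)).powersetCard 2, ip g (R q g)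
      ≤ 2 * ip g g + ip g (R univ g) := by
  classical
  by_cases hne : Nonempty (CT 3 n r' c')
  swap
  · have hemp : IsEmpty (CT 3 n r' c') := not_nonempty_iff.mp hne
    have hz : ∀ g1 g2 : CT 3 n r' c' → ℝ, ip g1 g2 = 0 := by
      intro g1 g2
      unfold ip
      rw [Finset.univ_eq_empty, Finset.sum_empty]
    rw [hz, hz, Finset.sum_eq_zero (fun q _ => hz _ _)]
    norm_num
  obtain ⟨x0⟩ := hne
  have hc := BoxDual.sum_c x0
  have hsplit : c' j0 + ∑ l ∈ univ.erase j0, c' l = ∑ l, c' l :=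
    Finset.add_sum_erase univ c' (Finset.mem_univ j0)
  refine threeRow_of_boxCert r' c' hr (fun φ hφ => hRes c' (r' 0) j0 h0 ?_ φ hφ) g
  omega

/-- Two arbitrary rows, all other row sums at most one, hub column: the heat bath on
two-by-two blocks, given the certificates for reservoir columns. -/
theorem mixing22_two_fat_hub_of_res {m n : ℕ} (hm : 2 ≤ m) (hn : 2 ≤ n) (hRes : ResCert n)
    (r : Fin m → ℕ) (i0 i1 : Fin m) (hr : ∀ i, i ≠ i0 → i ≠ i1 → r i ≤ 1)
    (c : Fin n → ℕ) (j0 : Fin n)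
    (h0 : ∑ j ∈ univ.erase j0, c j ≤ r i0) (h1 : ∑ j ∈ univ.erase j0, c j ≤ r i1)
    (x : CT m n r c) (ε : ℝ) (hε : 0 < ε) (hε1 : ε ≤ 1) (t : ℕ)
    (ht : (m : ℝ) ^ 2 * (n : ℝ) ^ 2 *
      (m * n * Real.log (((∑ i, r i : ℕ) : ℝ) + 1) + Real.log (1 / ε)) ≤ t) :
    (1 / 2) * ∑ y, |(heatBath22 m n r c ^ t) x y - 1 / (Fintype.card (CT m n r c) : ℝ)| ≤ ε :=
  mixing22_two_fat_hub_of hm hn
    (fun r' c' j0' hr' h0' h1' g => threeRow_hub_of hRes r' c' j0' hr' h0' h1' g)
    r i0 i1 hr c j0 h0 h1 x ε hε hε1 t ht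

/-- Two arbitrary rows, all other row sums at most one, hub column: the row-pair heat bath,
given the certificates for reservoir columns. -/
theorem mixing_two_fat_hub_of_res {m n : ℕ} (hm : 2 ≤ m) (hRes : ResCert n)
    (r : Fin m → ℕ) (i0 i1 : Fin m) (hr : ∀ i, i ≠ i0 → i ≠ i1 → r i ≤ 1)
    (c : Fin n → ℕ) (j0 : Fin n)
    (h0 : ∑ j ∈ univ.erase j0, c j ≤ r i0) (h1 : ∑ j ∈ univ.erase j0, c j ≤ r i1)
    (x : CT m n r c) (ε : ℝ) (hε : 0 < ε) (hε1 : ε ≤ 1) (t : ℕ)
    (ht : (m : ℝ) ^ 2 * (m * n * Real.log (((∑ i, r i : ℕ) : ℝ) + 1) + Real.log (1 / ε)) ≤ t) :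
    (1 / 2) * ∑ y, |(heatBath m n r c ^ t) x y - 1 / (Fintype.card (CT m n r c) : ℝ)| ≤ ε :=
  mixing_two_fat_hub_of hm
    (fun r' c' j0' hr' h0' h1' g => threeRow_hub_of hRes r' c' j0' hr' h0' h1' g)
    r i0 i1 hr c j0 h0 h1 x ε hε hε1 t ht

end Vale.Agent.Lib.P328.RP
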