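import Mathlib
import Vale.Agent.Lib.P328.RP.Defs
import Vale.Agent.Lib.P328.RP.BlockDefs
import Vale.Agent.Lib.P328.RP.BlockTransfer

/-!
P328: the coupling hypothesis for the row recursion.

* `tdist x y` : the number of unit moves between two arrays, counted row by row (half the sum
  of the absolute differences of the entries); `rdist x y i` is the part of row `i`.
* `WCoupling k n C` : for all margins of `k × n` tables and every pair of column-sum vectors
  `s`, `s'` that differ by moving one unit from a column `v` to a column `u`, the uniform laws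
  on the tables with column sums `s` and `s'` have a coupling of expected `tdist` at most `C`.
* `R_map_apply`, `R_erase_apply` : resampling the rows in the range of an embedding is the
  average over the embedded smaller tables.
-/

namespace Vale.Agent.Lib.P328.RP

open Finset
open Vale.Agent.Lib.P335.Bip
open BlockTransfer

/-- The part of row `i` in the number of unit moves between two arrays. -/
noncomputable def rdist {k n : ℕ} (x y : Fin k → Fin n → ℕ) (i : Fin k) : ℝ :=
  ∑ j, |(x i j : ℝ) - (y i j : ℝ)| / 2

/-- The number of unit moves between two arrays, counted row by row. -/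
noncomputable def tdist {k n : ℕ} (x y : Fin k → Fin n → ℕ) : ℝ :=
  ∑ i, rdist x y i

theorem rdist_nonneg {k n : ℕ} (x y : Fin k → Fin n → ℕ) (i : Fin k) : 0 ≤ rdist x y i :=
  Finset.sum_nonneg (fun _ _ => div_nonneg (abs_nonneg _) (by norm_num))

theorem tdist_nonneg {k n : ℕ} (x y : Fin k → Fin n → ℕ) : 0 ≤ tdist x y :=
  Finset.sum_nonneg (fun i _ => rdist_nonneg x y i)

theorem rdist_self {k n : ℕ} (x : Fin k → Fin n → ℕ) (i : Fin k) : rdist x x i = 0 := by
  simp [rdist]

theorem tdist_self {k n : ℕ} (x : Fin k → Fin n → ℕ) : tdist x x = 0 := by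
  simp [tdist, rdist_self]

theorem rdist_comm {k n : ℕ} (x y : Fin k → Fin n → ℕ) (i : Fin k) :
    rdist x y i = rdist y x i := by
  unfold rdist
  exact Finset.sum_congr rfl (fun j _ => by rw [abs_sub_comm])

theorem tdist_comm {k n : ℕ} (x y : Fin k → Fin n → ℕ) : tdist x y = tdist y x := by
  unfold tdist
  exact Finset.sum_congr rfl (fun i _ => rdist_comm x y i)

/-- The coupling hypothesis for `k × n` tables with constant `C`: whenever the column-sum
vector `s'` arises from `s` by moving one unit from column `v` to column `u`, there is a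
coupling `γ` of the uniform laws on the tables with margins `(r, s)` and `(r, s')` whose
expected number of unit moves is at most `C`. -/
def WCoupling (k n : ℕ) (C : ℝ) : Prop :=
  ∀ (r : Fin k → ℕ) (s s' : Fin n → ℕ) (u v : Fin n), u ≠ v → s' u = s u + 1 →
    s v = s' v + 1 → (∀ j, j ≠ u → j ≠ v → s' j = s j) →
    ∃ γ : CT k n r s → CT k n r s' → ℝ, (∀ x y, 0 ≤ γ x y) ∧
      (∀ x, ∑ y, γ x y = 1 / (Fintype.card (CT k n r s) : ℝ)) ∧
      (∀ y, ∑ x, γ x y = 1 / (Fintype.card (CT k n r s') : ℝ)) ∧
      ∑ x, ∑ y, γ x y * tdist x.1 y.1 ≤ C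

section avg

variable {m n k : ℕ} {r : Fin m → ℕ} {c : Fin n → ℕ}

/-- Resampling the rows in the range of `φ` is the average over the embedded `k`-row tables. -/
theorem R_map_apply (φ : Fin k ↪ Fin m) (f : CT m n r c → ℝ) (x0 : CT m n r c) :
    R ((univ : Finset (Fin k)).map φ) f x0
      = (∑ z, f (iota φ x0 z))
        / (Fintype.card (CT k n (r ∘ φ) (fun j => ∑ a, x0.1 (φ a) j)) : ℝ) := by
  rw [R_apply, sum_class, class_eq_image,
    Finset.card_image_of_injective _ (iota_injective φ x0), Finset.card_univ]

theorem univ_map_succAbove {k : ℕ} (i : Fin (k + 1)) :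
    (univ : Finset (Fin k)).map (Fin.succAboveEmb i) = univ.erase i := by
  ext j
  simp only [mem_map, mem_univ, true_and, mem_erase, and_true, Fin.succAboveEmb_apply]
  constructor
  · rintro ⟨a, rfl⟩
    exact Fin.succAbove_ne i a
  · intro h
    exact Fin.exists_succAbove_eq h

end avg

/-- Resampling all rows except row `i` is the average over the tables of the other rows. -/
theorem R_erase_apply {k n : ℕ} {r : Fin (k + 1) → ℕ} {c : Fin n → ℕ} (i : Fin (k + 1))
    (f : CT (k + 1) n r c → ℝ) (x0 : CT (k + 1) n r c) :
    R (univ.erase i) f x0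
      = (∑ z, f (iota (Fin.succAboveEmb i) x0 z))
        / (Fintype.card (CT k n (r ∘ Fin.succAboveEmb i)
            (fun j => ∑ a, x0.1 (Fin.succAboveEmb i a) j)) : ℝ) := by
  rw [← univ_map_succAbove, R_map_apply]

end Vale.Agent.Lib.P328.RP
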