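import Mathlib
import Vale.Agent.Lib.P328.RP.W1Defs

/-!
P328: a table whose row `i` is moved by one unit exists (from the coupling hypothesis).

The coupling hypothesis `WCoupling k n C` gives, for column sums `s`, `s'` that differ by one
unit move, a coupling of the uniform laws on the two table types; a coupling with the stated
marginals forces the target type to be nonempty as soon as the source type is. This yields a
table of the other rows with the shifted column sums, and hence a full table whose row `i` is
the row `i` of `x` plus `e_u - e_v`.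

* `exists_row_step_of_nonempty` : the pure gluing step (any table of the other rows with the
  shifted column sums can be glued to the moved row `i`).
* `exists_row_step` : the same conclusion from the coupling hypothesis.
-/

namespace Vale.Agent.Lib.P328.RP

open Finset
open Vale.Agent.Lib.P335.Bip
open BlockTransfer

namespace LipExists

/-- A coupling with the stated marginals forces the target table type to be nonempty when the
source table type is nonempty. -/
theorem nonempty_of_coupling {k n : ℕ} (C : ℝ) (hW : WCoupling k n C) (r : Fin k → ℕ)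
    (s s' : Fin n → ℕ) (u v : Fin n) (huv : u ≠ v) (h1 : s' u = s u + 1)
    (h2 : s v = s' v + 1) (h3 : ∀ j, j ≠ u → j ≠ v → s' j = s j) (z0 : CT k n r s) :
    Nonempty (CT k n r s') := by
  obtain ⟨γ, -, hγ1, -, -⟩ := hW r s s' u v huv h1 h2 h3
  by_contra hne
  rw [not_nonempty_iff] at hne
  have h := hγ1 z0
  rw [Finset.univ_eq_empty, Finset.sum_empty] at h
  have hc : 0 < (Fintype.card (CT k n r s) : ℝ) := by
    exact_mod_cast Fintype.card_pos_iff.mpr ⟨z0⟩
  have hpos : 0 < 1 / (Fintype.card (CT k n r s) : ℝ) := by positivity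
  linarith

/-- The sum of a row after one unit move equals the sum before. -/
theorem sum_move {n : ℕ} (a b : Fin n → ℕ) (u v : Fin n)
    (key : ∀ j, a j + (if j = v then 1 else 0) = b j + (if j = u then 1 else 0)) :
    ∑ j, a j = ∑ j, b j := by
  have h : ∑ j, (a j + (if j = v then 1 else 0)) = ∑ j, (b j + (if j = u then 1 else 0)) :=
    Finset.sum_congr rfl (fun j _ => key j)
  rw [Finset.sum_add_distrib, Finset.sum_add_distrib, Finset.sum_ite_eq' univ v,
    Finset.sum_ite_eq' univ u] at h
  simp only [mem_univ, if_true] at h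
  omega

end LipExists

/-- The gluing step: given any table `z'` of the other `k` rows whose column sums `s'` are the
column sums of the other rows of `x` with one unit moved from column `u` to column `v`, the
table with row `i` equal to the row `i` of `x` plus `e_u - e_v` and the rows of `z'` elsewhere
exists. -/
theorem exists_row_step_of_nonempty {k n : ℕ} {r : Fin (k + 1) → ℕ} {c : Fin n → ℕ}
    (i : Fin (k + 1)) (u v : Fin n) (huv : u ≠ v) (x : CT (k + 1) n r c) (hv : 1 ≤ x.1 i v)
    (s' : Fin n → ℕ) (hs'v : s' v = (∑ a, x.1 (Fin.succAboveEmb i a) v) + 1)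
    (hs'u : (∑ a, x.1 (Fin.succAboveEmb i a) u) = s' u + 1)
    (hs' : ∀ j, j ≠ u → j ≠ v → s' j = ∑ a, x.1 (Fin.succAboveEmb i a) j)
    (z' : CT k n (r ∘ Fin.succAboveEmb i) s') :
    ∃ x' : CT (k + 1) n r c, x'.1 i u = x.1 i u + 1 ∧ x.1 i v = x'.1 i v + 1 ∧
      ∀ j, j ≠ u → j ≠ v → x'.1 i j = x.1 i j := by
  classical
  have hvu : v ≠ u := fun h => huv h.symm
  have hcol : ∀ j, x.1 i j + ∑ a, x.1 (Fin.succAboveEmb i a) j = c j := by
    intro j
    have h := x.2.2 j
    rw [Fin.sum_univ_succAbove _ i] at h
    exact h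
  obtain ⟨a, ha⟩ : ∃ a : Fin n → ℕ,
      a = fun j => if j = u then x.1 i u + 1 else if j = v then x.1 i v - 1 else x.1 i j :=
    ⟨_, rfl⟩
  have hau : a u = x.1 i u + 1 := by
    rw [ha]
    simp only [if_true]
  have hav : a v = x.1 i v - 1 := by
    rw [ha]
    simp only [if_neg hvu, if_true]
  have haj : ∀ j, j ≠ u → j ≠ v → a j = x.1 i j := by
    intro j hju hjv
    rw [ha]
    simp only [if_neg hju, if_neg hjv]
  have hrow : ∑ j, a j = r i := by
    rw [← x.2.1 i]
    apply LipExists.sum_move a (x.1 i) u v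
    intro j
    by_cases hju : j = u
    · subst hju
      rw [hau]
      simp only [if_neg huv, if_true]
    · by_cases hjv : j = v
      · subst hjv
        rw [hav]
        simp only [if_neg hju, if_true]
        omega
      · rw [haj j hju hjv]
        simp only [if_neg hju, if_neg hjv]
  have hcol' : ∀ j, a j + s' j = c j := by
    intro j
    by_cases hju : j = u
    · subst hju
      have := hcol j
      rw [hau]
      omega
    · by_cases hjv : j = v
      · subst hjv
        have := hcol j
        rw [hav, hs'v]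
        omega
      · rw [haj j hju hjv, hs' j hju hjv]
        exact hcol j
  obtain ⟨X, hX⟩ : ∃ X : Fin (k + 1) → Fin n → ℕ,
      X = Fin.insertNth (α := fun _ => Fin n → ℕ) i a z'.1 := ⟨_, rfl⟩
  have hXi : X i = a := by
    rw [hX]
    exact Fin.insertNth_apply_same (α := fun _ => Fin n → ℕ) i a z'.1
  have hXs : ∀ b, X (i.succAbove b) = z'.1 b := by
    intro b
    rw [hX]
    exact Fin.insertNth_apply_succAbove (α := fun _ => Fin n → ℕ) i a z'.1 b
  have hXrow : ∀ i', ∑ j, X i' j = r i' := by
    intro i'
    rcases Fin.eq_self_or_eq_succAbove i i' with h | ⟨b, h⟩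
    · rw [h, hXi]
      exact hrow
    · rw [h, hXs b]
      exact z'.2.1 b
  have hXcol : ∀ j, ∑ i', X i' j = c j := by
    intro j
    rw [Fin.sum_univ_succAbove _ i, hXi]
    have h : ∑ b, X (i.succAbove b) j = s' j := by
      rw [← z'.2.2 j]
      exact Finset.sum_congr rfl (fun b _ => by rw [hXs b])
    rw [h]
    exact hcol' j
  refine ⟨⟨X, hXrow, hXcol⟩, ?_, ?_, ?_⟩
  · show X i u = x.1 i u + 1
    rw [hXi, hau]
  · show x.1 i v = X i v + 1
    rw [hXi, hav]
    omega
  · intro j hju hjv
    show X i j = x.1 i j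
    rw [hXi, haj j hju hjv]

/-- If row `i` of the table `x` has a unit in column `v` and column `u` has a unit outside
row `i`, there is a table whose row `i` is the row `i` of `x` plus `e_u - e_v`. -/
theorem exists_row_step {k n : ℕ} (C : ℝ) (hW : WCoupling k n C) {r : Fin (k + 1) → ℕ}
    {c : Fin n → ℕ} (i : Fin (k + 1)) (u v : Fin n) (huv : u ≠ v) (x : CT (k + 1) n r c)
    (hv : 1 ≤ x.1 i v) (hu : x.1 i u < c u) :
    ∃ x' : CT (k + 1) n r c, x'.1 i u = x.1 i u + 1 ∧ x.1 i v = x'.1 i v + 1 ∧
      ∀ j, j ≠ u → j ≠ v → x'.1 i j = x.1 i j := by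
  classical
  have hvu : v ≠ u := fun h => huv h.symm
  obtain ⟨s, hs⟩ : ∃ s : Fin n → ℕ, s = fun j => ∑ a, x.1 (Fin.succAboveEmb i a) j :=
    ⟨_, rfl⟩
  have hsj : ∀ j, s j = ∑ a, x.1 (Fin.succAboveEmb i a) j := fun j => by rw [hs]
  have hcol : ∀ j, x.1 i j + s j = c j := by
    intro j
    have h := x.2.2 j
    rw [Fin.sum_univ_succAbove _ i] at h
    rw [hsj]
    exact h
  have hsu : 1 ≤ s u := by
    have := hcol u
    omega
  obtain ⟨s', hs'⟩ : ∃ s' : Fin n → ℕ,
      s' = fun j => if j = u then s u - 1 else if j = v then s v + 1 else s j := ⟨_, rfl⟩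
  have h1 : s' v = s v + 1 := by
    rw [hs']
    simp only [if_neg hvu, if_true]
  have h2 : s u = s' u + 1 := by
    rw [hs']
    simp only [if_true]
    omega
  have h3 : ∀ j, j ≠ v → j ≠ u → s' j = s j := by
    intro j hjv hju
    rw [hs']
    simp only [if_neg hju, if_neg hjv]
  have z0 : CT k n (r ∘ Fin.succAboveEmb i) s := by
    refine ⟨fun a => x.1 (Fin.succAboveEmb i a), fun a => ?_, fun j => ?_⟩
    · exact x.2.1 (Fin.succAboveEmb i a)
    · rw [hsj]
  obtain ⟨z'⟩ := LipExists.nonempty_of_coupling C hW (r ∘ Fin.succAboveEmb i) s s' v u hvu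
    h1 h2 h3 z0
  refine exists_row_step_of_nonempty i u v huv x hv s' ?_ ?_ ?_ z'
  · rw [h1, hsj]
  · rw [← hsj, h2]
  · intro j hju hjv
    rw [h3 j hjv hju, hsj]

end Vale.Agent.Lib.P328.RP
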