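import Mathlib
import Vale.Agent.Lib.P328.RP.W1Defs

/-!
P328: one unit move of row `i` changes the average over the other rows by at most `(1 + C) L`.

If `F` is `L`-Lipschitz for `tdist` and the tables `x`, `x'` differ in row `i` by one unit
move, then under the coupling hypothesis `WCoupling k n C` the averages of `F` over the tables
with the same row `i` as `x` resp. `x'` differ by at most `(1 + C) * L`.
-/

namespace Vale.Agent.Lib.P328.RP

open Finset
open Vale.Agent.Lib.P335.Bip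
open BlockTransfer

namespace LipStep

/-- a column sum is the entry of row `i` plus the column sum of the other rows -/
lemma col_split {k n : ℕ} {r : Fin (k + 1) → ℕ} {c : Fin n → ℕ} (i : Fin (k + 1))
    (x : CT (k + 1) n r c) (j : Fin n) :
    x.1 i j + ∑ a, x.1 (Fin.succAboveEmb i a) j = c j := by
  have h := x.2.2 j
  rw [Fin.sum_univ_succAbove _ i] at h
  exact h

/-- two rows that differ by one unit move are at row distance one -/
lemma rdist_row_step {m n : ℕ} (y y' : Fin m → Fin n → ℕ) (i : Fin m) (u v : Fin n)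
    (huv : u ≠ v) (hu : y' i u = y i u + 1) (hv : y i v = y' i v + 1)
    (hj : ∀ j, j ≠ u → j ≠ v → y' i j = y i j) : rdist y y' i = 1 := by
  unfold rdist
  rw [← Finset.add_sum_erase univ _ (mem_univ u),
    ← Finset.add_sum_erase (univ.erase u) _ (mem_erase.mpr ⟨huv.symm, mem_univ v⟩)]
  have h0 : ∑ j ∈ (univ.erase u).erase v, |(y i j : ℝ) - (y' i j : ℝ)| / 2 = 0 := by
    refine Finset.sum_eq_zero (fun j hj' => ?_)
    have h1 : j ≠ v := (mem_erase.mp hj').1
    have h2 : j ≠ u := (mem_erase.mp (mem_erase.mp hj').2).1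
    rw [hj j h2 h1]
    simp
  rw [h0, hu, hv]
  push_cast
  have e1 : |(y i u : ℝ) - ((y i u : ℝ) + 1)| = 1 := by
    rw [show (y i u : ℝ) - ((y i u : ℝ) + 1) = -1 by ring]
    simp
  have e2 : |(y' i v : ℝ) + 1 - (y' i v : ℝ)| = 1 := by
    rw [show (y' i v : ℝ) + 1 - (y' i v : ℝ) = 1 by ring]
    simp
  rw [e1, e2]
  norm_num

/-- the distance of two embedded tables is the distance of the rows `i` plus the distance of
the embedded parts -/
lemma tdist_iota {k n : ℕ} {r : Fin (k + 1) → ℕ} {c : Fin n → ℕ} (i : Fin (k + 1))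
    (x x' : CT (k + 1) n r c)
    (z : CT k n (r ∘ Fin.succAboveEmb i) (fun j => ∑ a, x.1 (Fin.succAboveEmb i a) j))
    (z' : CT k n (r ∘ Fin.succAboveEmb i) (fun j => ∑ a, x'.1 (Fin.succAboveEmb i a) j)) :
    tdist (iota (Fin.succAboveEmb i) x z).1 (iota (Fin.succAboveEmb i) x' z').1
      = rdist x.1 x'.1 i + tdist z.1 z'.1 := by
  have hi : i ∉ (univ : Finset (Fin k)).map (Fin.succAboveEmb i) := by
    rw [univ_map_succAbove]
    simp
  have hrow : ∀ a : Fin k,
      (iota (Fin.succAboveEmb i) x z).1 (i.succAbove a) = z.1 a := fun a =>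
    emb_apply_emb (Fin.succAboveEmb i) x.1 z.1 a
  have hrow' : ∀ a : Fin k,
      (iota (Fin.succAboveEmb i) x' z').1 (i.succAbove a) = z'.1 a := fun a =>
    emb_apply_emb (Fin.succAboveEmb i) x'.1 z'.1 a
  unfold tdist
  rw [Fin.sum_univ_succAbove _ i]
  congr 1
  · unfold rdist
    rw [iota_agree _ x z hi, iota_agree _ x' z' hi]
  · refine Finset.sum_congr rfl (fun a _ => ?_)
    unfold rdist
    rw [hrow a, hrow' a]

end LipStep

theorem R_erase_step {k n : ℕ} (C : ℝ) (hW : WCoupling k n C) {r : Fin (k + 1) → ℕ}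
    {c : Fin n → ℕ} (F : CT (k + 1) n r c → ℝ) (L : ℝ) (hL : 0 ≤ L)
    (hF : ∀ x y : CT (k + 1) n r c, |F x - F y| ≤ L * tdist x.1 y.1)
    (i : Fin (k + 1)) (u v : Fin n) (huv : u ≠ v) (x x' : CT (k + 1) n r c)
    (hu : x'.1 i u = x.1 i u + 1) (hv : x.1 i v = x'.1 i v + 1)
    (hj : ∀ j, j ≠ u → j ≠ v → x'.1 i j = x.1 i j) :
    |R (univ.erase i) F x - R (univ.erase i) F x'| ≤ (1 + C) * L := by
  classical
  have hcx : ∀ j, x.1 i j + ∑ a, x.1 (Fin.succAboveEmb i a) j = c j :=
    fun j => LipStep.col_split i x j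
  have hcx' : ∀ j, x'.1 i j + ∑ a, x'.1 (Fin.succAboveEmb i a) j = c j :=
    fun j => LipStep.col_split i x' j
  obtain ⟨γ, hγ0, hγ1, hγ2, hγC⟩ := hW (r ∘ Fin.succAboveEmb i)
    (fun j => ∑ a, x.1 (Fin.succAboveEmb i a) j)
    (fun j => ∑ a, x'.1 (Fin.succAboveEmb i a) j) v u huv.symm
    (by
      have h1 := hcx v
      have h2 := hcx' v
      show ∑ a, x'.1 (Fin.succAboveEmb i a) v = ∑ a, x.1 (Fin.succAboveEmb i a) v + 1
      omega)
    (by
      have h1 := hcx u
      have h2 := hcx' u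
      show ∑ a, x.1 (Fin.succAboveEmb i a) u = ∑ a, x'.1 (Fin.succAboveEmb i a) u + 1
      omega)
    (fun j hjv hju => by
      have h1 := hcx j
      have h2 := hcx' j
      have h3 := hj j hju hjv
      show ∑ a, x'.1 (Fin.succAboveEmb i a) j = ∑ a, x.1 (Fin.succAboveEmb i a) j
      omega)
  -- the source type is nonempty
  have z0 : CT k n (r ∘ Fin.succAboveEmb i) (fun j => ∑ a, x.1 (Fin.succAboveEmb i a) j) :=
    ⟨fun a => x.1 (Fin.succAboveEmb i a), fun a => x.2.1 (Fin.succAboveEmb i a), fun j => rfl⟩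
  have hcard : (0 : ℝ) < (Fintype.card
      (CT k n (r ∘ Fin.succAboveEmb i) (fun j => ∑ a, x.1 (Fin.succAboveEmb i a) j)) : ℝ) := by
    have : 0 < Fintype.card
        (CT k n (r ∘ Fin.succAboveEmb i) (fun j => ∑ a, x.1 (Fin.succAboveEmb i a) j)) :=
      Fintype.card_pos_iff.mpr ⟨z0⟩
    exact_mod_cast this
  have hmass : ∑ z, ∑ z', γ z z' = 1 := by
    rw [Finset.sum_congr rfl (fun z _ => hγ1 z)]
    rw [Finset.sum_const, Finset.card_univ, nsmul_eq_mul]
    field_simp
  have hRx : R (univ.erase i) F x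
      = ∑ z, ∑ z', γ z z' * F (iota (Fin.succAboveEmb i) x z) := by
    rw [R_erase_apply, Finset.sum_div]
    refine Finset.sum_congr rfl (fun z _ => ?_)
    rw [← Finset.sum_mul, hγ1 z]
    ring
  have hRx' : R (univ.erase i) F x'
      = ∑ z, ∑ z', γ z z' * F (iota (Fin.succAboveEmb i) x' z') := by
    rw [R_erase_apply, Finset.sum_div, Finset.sum_comm]
    refine Finset.sum_congr rfl (fun z' _ => ?_)
    rw [← Finset.sum_mul, hγ2 z']
    ring
  have hrow : rdist x.1 x'.1 i = 1 := LipStep.rdist_row_step x.1 x'.1 i u v huv hu hv hj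
  have hdiff : R (univ.erase i) F x - R (univ.erase i) F x'
      = ∑ z, ∑ z', γ z z' * (F (iota (Fin.succAboveEmb i) x z)
          - F (iota (Fin.succAboveEmb i) x' z')) := by
    rw [hRx, hRx', ← Finset.sum_sub_distrib]
    refine Finset.sum_congr rfl (fun z _ => ?_)
    rw [← Finset.sum_sub_distrib]
    refine Finset.sum_congr rfl (fun z' _ => ?_)
    ring
  have hterm : ∀ z z', |γ z z' * (F (iota (Fin.succAboveEmb i) x z)
        - F (iota (Fin.succAboveEmb i) x' z'))|
      ≤ L * γ z z' + L * (γ z z' * tdist z.1 z'.1) := by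
    intro z z'
    rw [abs_mul, abs_of_nonneg (hγ0 z z')]
    have h1 := hF (iota (Fin.succAboveEmb i) x z) (iota (Fin.succAboveEmb i) x' z')
    rw [LipStep.tdist_iota i x x' z z', hrow] at h1
    have h2 := mul_le_mul_of_nonneg_left h1 (hγ0 z z')
    calc γ z z' * |F (iota (Fin.succAboveEmb i) x z) - F (iota (Fin.succAboveEmb i) x' z')|
        ≤ γ z z' * (L * (1 + tdist z.1 z'.1)) := h2
      _ = L * γ z z' + L * (γ z z' * tdist z.1 z'.1) := by ring
  calc |R (univ.erase i) F x - R (univ.erase i) F x'|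
      = |∑ z, ∑ z', γ z z' * (F (iota (Fin.succAboveEmb i) x z)
          - F (iota (Fin.succAboveEmb i) x' z'))| := by rw [hdiff]
    _ ≤ ∑ z, |∑ z', γ z z' * (F (iota (Fin.succAboveEmb i) x z)
          - F (iota (Fin.succAboveEmb i) x' z'))| := Finset.abs_sum_le_sum_abs _ _
    _ ≤ ∑ z, ∑ z', |γ z z' * (F (iota (Fin.succAboveEmb i) x z)
          - F (iota (Fin.succAboveEmb i) x' z'))| :=
        Finset.sum_le_sum (fun z _ => Finset.abs_sum_le_sum_abs _ _)
    _ ≤ ∑ z, ∑ z', (L * γ z z' + L * (γ z z' * tdist z.1 z'.1)) :=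
        Finset.sum_le_sum (fun z _ => Finset.sum_le_sum (fun z' _ => hterm z z'))
    _ = L * (∑ z, ∑ z', γ z z') + L * (∑ z, ∑ z', γ z z' * tdist z.1 z'.1) := by
        simp only [Finset.sum_add_distrib, Finset.mul_sum]
    _ ≤ L * 1 + L * C := by
        rw [hmass]
        exact add_le_add le_rfl (mul_le_mul_of_nonneg_left hγC hL)
    _ = (1 + C) * L := by ring

end Vale.Agent.Lib.P328.RP
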