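import Mathlib
import Vale.Agent.Lib.P328.RP.Defs

/-!
P328, row-pair heat bath: the class of a row subset is a small system of tables.

For a set `T` of `k` rows, the class of tables that agree with a given table `x0` outside `T`
is the image of an injective map `iota` from the `k`-row system whose column sums are the
column sums of the rows of `x0` in `T`.  The conditional expectations `R q` with `q ⊆ T` are
transported by `iota`, so that an inequality for all `3`-row systems transfers to every row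
triple of an arbitrary system.
-/

namespace Vale.Agent.Lib.P328.RP

open Finset
open Vale.Agent.Lib.P335.Bip

namespace Transfer

section transfer

variable {m n k : ℕ}

/-- restriction of an array to the rows `φ a` -/
def res (φ : Fin k ↪ Fin m) (x : Fin m → Fin n → ℕ) : Fin k → Fin n → ℕ := fun a => x (φ a)

/-- the array with rows `z a` at `φ a` and the rows of `x0` elsewhere -/
noncomputable def emb (φ : Fin k ↪ Fin m) (x0 : Fin m → Fin n → ℕ) (z : Fin k → Fin n → ℕ) :
    Fin m → Fin n → ℕ :=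
  fun i => if h : ∃ a, φ a = i then z h.choose else x0 i

lemma emb_apply_emb (φ : Fin k ↪ Fin m) (x0 : Fin m → Fin n → ℕ) (z : Fin k → Fin n → ℕ)
    (a : Fin k) : emb φ x0 z (φ a) = z a := by
  have h : ∃ b, φ b = φ a := ⟨a, rfl⟩
  unfold emb
  rw [dif_pos h]
  congr 1
  exact φ.injective h.choose_spec

lemma mem_univ_map_iff (φ : Fin k ↪ Fin m) (i : Fin m) :
    i ∈ (univ : Finset (Fin k)).map φ ↔ ∃ a, φ a = i := by
  simp only [mem_map, mem_univ, true_and]

lemma emb_apply_of_not (φ : Fin k ↪ Fin m) (x0 : Fin m → Fin n → ℕ) (z : Fin k → Fin n → ℕ)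
    {i : Fin m} (hi : i ∉ (univ : Finset (Fin k)).map φ) : emb φ x0 z i = x0 i := by
  have h : ¬ ∃ a, φ a = i := fun h' => hi ((mem_univ_map_iff φ i).mpr h')
  unfold emb
  rw [dif_neg h]

lemma res_emb (φ : Fin k ↪ Fin m) (x0 : Fin m → Fin n → ℕ) (z : Fin k → Fin n → ℕ) :
    res φ (emb φ x0 z) = z := by
  funext a
  exact emb_apply_emb φ x0 z a

lemma colSum_split (φ : Fin k ↪ Fin m) (x : Fin m → Fin n → ℕ) (j : Fin n) :
    ∑ i, x i j = ∑ a, x (φ a) j
      + ∑ i ∈ univ.filter (fun i => i ∉ (univ : Finset (Fin k)).map φ), x i j := by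
  have h1 : ∑ a, x (φ a) j = ∑ i ∈ (univ : Finset (Fin k)).map φ, x i j := by
    rw [Finset.sum_map]
  have h2 : univ.filter (fun i => i ∉ (univ : Finset (Fin k)).map φ)
      = ((univ : Finset (Fin k)).map φ)ᶜ := by
    ext i
    simp only [mem_filter, mem_univ, true_and, mem_compl]
  rw [h1, h2, Finset.sum_add_sum_compl]

variable {r : Fin m → ℕ} {c : Fin n → ℕ}

lemma emb_rows (φ : Fin k ↪ Fin m) (x0 : CT m n r c)
    (z : CT k n (r ∘ φ) (fun j => ∑ a, x0.1 (φ a) j)) (i : Fin m) :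
    ∑ j, emb φ x0.1 z.1 i j = r i := by
  by_cases h : i ∈ (univ : Finset (Fin k)).map φ
  · obtain ⟨a, rfl⟩ := (mem_univ_map_iff φ i).mp h
    rw [emb_apply_emb]
    exact z.2.1 a
  · rw [emb_apply_of_not φ x0.1 z.1 h]
    exact x0.2.1 i

lemma emb_cols (φ : Fin k ↪ Fin m) (x0 : CT m n r c)
    (z : CT k n (r ∘ φ) (fun j => ∑ a, x0.1 (φ a) j)) (j : Fin n) :
    ∑ i, emb φ x0.1 z.1 i j = c j := by
  have h3 : ∑ i ∈ univ.filter (fun i => i ∉ (univ : Finset (Fin k)).map φ),
        emb φ x0.1 z.1 i j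
      = ∑ i ∈ univ.filter (fun i => i ∉ (univ : Finset (Fin k)).map φ), x0.1 i j := by
    refine Finset.sum_congr rfl (fun i hi => ?_)
    rw [emb_apply_of_not φ x0.1 z.1 (mem_filter.mp hi).2]
  have h4 : ∑ a, emb φ x0.1 z.1 (φ a) j = ∑ a, x0.1 (φ a) j := by
    have h5 : ∑ a, emb φ x0.1 z.1 (φ a) j = ∑ a, z.1 a j :=
      Finset.sum_congr rfl (fun a _ => by rw [emb_apply_emb])
    rw [h5]
    exact z.2.2 j
  have h1 := colSum_split φ (emb φ x0.1 z.1) j
  have h2 := colSum_split φ x0.1 j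
  rw [h4, h3] at h1
  rw [x0.2.2 j] at h2
  rw [h1, h2]

/-- the embedding of the `k`-row system into the class of `x0` -/
noncomputable def iota (φ : Fin k ↪ Fin m) (x0 : CT m n r c)
    (z : CT k n (r ∘ φ) (fun j => ∑ a, x0.1 (φ a) j)) : CT m n r c :=
  ⟨emb φ x0.1 z.1, emb_rows φ x0 z, emb_cols φ x0 z⟩

lemma iota_val (φ : Fin k ↪ Fin m) (x0 : CT m n r c)
    (z : CT k n (r ∘ φ) (fun j => ∑ a, x0.1 (φ a) j)) :
    (iota φ x0 z).1 = emb φ x0.1 z.1 := rfl

lemma iota_injective (φ : Fin k ↪ Fin m) (x0 : CT m n r c) :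
    Function.Injective (iota φ x0) := by
  intro z z' h
  apply Subtype.ext
  have h1 := congrArg (fun y : CT m n r c => res φ y.1) h
  simp only [iota_val, res_emb] at h1
  exact h1

lemma iota_agree (φ : Fin k ↪ Fin m) (x0 : CT m n r c)
    (z : CT k n (r ∘ φ) (fun j => ∑ a, x0.1 (φ a) j)) {i : Fin m}
    (hi : i ∉ (univ : Finset (Fin k)).map φ) : (iota φ x0 z).1 i = x0.1 i :=
  emb_apply_of_not φ x0.1 z.1 hi

lemma exists_iota_eq (φ : Fin k ↪ Fin m) (x0 y : CT m n r c)
    (h : ∀ i, i ∉ (univ : Finset (Fin k)).map φ → y.1 i = x0.1 i) :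
    ∃ z, iota φ x0 z = y := by
  have hcols : ∀ j, ∑ a, y.1 (φ a) j = ∑ a, x0.1 (φ a) j := by
    intro j
    have h1 := colSum_split φ y.1 j
    have h2 := colSum_split φ x0.1 j
    rw [y.2.2 j] at h1
    rw [x0.2.2 j] at h2
    have h3 : ∑ i ∈ univ.filter (fun i => i ∉ (univ : Finset (Fin k)).map φ), y.1 i j
        = ∑ i ∈ univ.filter (fun i => i ∉ (univ : Finset (Fin k)).map φ), x0.1 i j := by
      refine Finset.sum_congr rfl (fun i hi => ?_)
      rw [h i (mem_filter.mp hi).2]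
    rw [h3] at h1
    omega
  refine ⟨⟨res φ y.1, fun a => y.2.1 (φ a), hcols⟩, ?_⟩
  apply Subtype.ext
  funext i
  by_cases hi : i ∈ (univ : Finset (Fin k)).map φ
  · obtain ⟨a, rfl⟩ := (mem_univ_map_iff φ i).mp hi
    rw [iota_val, emb_apply_emb]
    rfl
  · rw [iota_val, emb_apply_of_not φ x0.1 _ hi, h i hi]

lemma mask_iota_iff (φ : Fin k ↪ Fin m) (x0 : CT m n r c) (q : Finset (Fin k))
    (z z' : CT k n (r ∘ φ) (fun j => ∑ a, x0.1 (φ a) j)) :
    mask (q.map φ) (iota φ x0 z').1 = mask (q.map φ) (iota φ x0 z).1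
      ↔ mask q z'.1 = mask q z.1 := by
  rw [mask_eq_iff, mask_eq_iff]
  constructor
  · intro h a ha
    have h1 := h (φ a) (fun hq => ha ((mem_map' φ).mp hq))
    rw [iota_val, iota_val, emb_apply_emb, emb_apply_emb] at h1
    exact h1
  · intro h i hi
    by_cases hi' : i ∈ (univ : Finset (Fin k)).map φ
    · obtain ⟨a, rfl⟩ := (mem_univ_map_iff φ i).mp hi'
      rw [iota_val, iota_val, emb_apply_emb, emb_apply_emb]
      exact h a (fun ha => hi (mem_map_of_mem φ ha))
    · rw [iota_agree φ x0 z' hi', iota_agree φ x0 z hi']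

lemma class_eq_image (φ : Fin k ↪ Fin m) (x0 : CT m n r c) :
    univ.filter (fun y : CT m n r c =>
        mask ((univ : Finset (Fin k)).map φ) y.1 = mask ((univ : Finset (Fin k)).map φ) x0.1)
      = univ.image (iota φ x0) := by
  ext y
  simp only [mem_filter, mem_univ, true_and, mem_image]
  rw [mask_eq_iff]
  constructor
  · intro h
    exact exists_iota_eq φ x0 y h
  · rintro ⟨z, rfl⟩ i hi
    exact iota_agree φ x0 z hi

lemma sum_class (φ : Fin k ↪ Fin m) (x0 : CT m n r c) (G : CT m n r c → ℝ) :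
    ∑ y ∈ univ.filter (fun y : CT m n r c =>
        mask ((univ : Finset (Fin k)).map φ) y.1 = mask ((univ : Finset (Fin k)).map φ) x0.1),
      G y = ∑ z, G (iota φ x0 z) := by
  rw [class_eq_image, Finset.sum_image]
  intro z _ z' _ h
  exact iota_injective φ x0 h

lemma fibre_iota (φ : Fin k ↪ Fin m) (x0 : CT m n r c) (q : Finset (Fin k))
    (z : CT k n (r ∘ φ) (fun j => ∑ a, x0.1 (φ a) j)) :
    univ.filter (fun y : CT m n r c =>
        mask (q.map φ) y.1 = mask (q.map φ) (iota φ x0 z).1)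
      = (univ.filter (fun z' : CT k n (r ∘ φ) (fun j => ∑ a, x0.1 (φ a) j) =>
          mask q z'.1 = mask q z.1)).image (iota φ x0) := by
  ext y
  simp only [mem_filter, mem_univ, true_and, mem_image]
  constructor
  · intro h
    have h1 : ∀ i, i ∉ (univ : Finset (Fin k)).map φ → y.1 i = x0.1 i := by
      intro i hi
      have h2 := (mask_eq_iff _ _ _).mp h i
        (fun hq => hi (map_subset_map.mpr (subset_univ q) hq))
      rw [h2, iota_agree φ x0 z hi]
    obtain ⟨z', rfl⟩ := exists_iota_eq φ x0 y h1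
    exact ⟨z', (mask_iota_iff φ x0 q z z').mp h, rfl⟩
  · rintro ⟨z', hz', rfl⟩
    exact (mask_iota_iff φ x0 q z z').mpr hz'

lemma R_iota (φ : Fin k ↪ Fin m) (x0 : CT m n r c) (q : Finset (Fin k))
    (f : CT m n r c → ℝ) (z : CT k n (r ∘ φ) (fun j => ∑ a, x0.1 (φ a) j))
    (g : CT k n (r ∘ φ) (fun j => ∑ a, x0.1 (φ a) j) → ℝ)
    (hg : ∀ z', g z' = f (iota φ x0 z')) :
    R (q.map φ) f (iota φ x0 z) = R q g z := by
  have hgf : g = fun z' => f (iota φ x0 z') := funext hg
  subst hgf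
  rw [R_apply, R_apply, fibre_iota, Finset.sum_image,
    Finset.card_image_of_injective _ (iota_injective φ x0)]
  intro a _ b _ h
  exact iota_injective φ x0 h

/-- an inequality between sums over the whole system follows from the inequalities between the
sums over each class of tables with the same rows outside `T` -/
lemma sum_le_sum_of_classes (T : Finset (Fin m)) (H1 H2 : CT m n r c → ℝ)
    (h : ∀ x0 : CT m n r c,
      ∑ y ∈ univ.filter (fun y : CT m n r c => mask T y.1 = mask T x0.1), H1 y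
        ≤ ∑ y ∈ univ.filter (fun y : CT m n r c => mask T y.1 = mask T x0.1), H2 y) :
    ∑ x, H1 x ≤ ∑ x, H2 x := by
  have hmaps : ∀ x ∈ (univ : Finset (CT m n r c)),
      mask T x.1 ∈ univ.image (fun x : CT m n r c => mask T x.1) :=
    fun x _ => mem_image_of_mem _ (mem_univ x)
  rw [← Finset.sum_fiberwise_of_maps_to hmaps H1, ← Finset.sum_fiberwise_of_maps_to hmaps H2]
  apply Finset.sum_le_sum
  intro μ hμ
  obtain ⟨x0, -, rfl⟩ := mem_image.mp hμ
  exact h x0

end transfer

end Transfer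

open Transfer

/-- **Row triples.**  The three-row inequality (for all margins of `3 × n` tables) transfers to
every row triple of a system of tables with any number of rows. -/
theorem triple_of_threeRow {n : ℕ}
    (h3 : ∀ (r : Fin 3 → ℕ) (c : Fin n → ℕ) (g : CT 3 n r c → ℝ),
      ∑ q ∈ (univ : Finset (Fin 3)).powersetCard 2, ip g (R q g) ≤ 2 * ip g g + ip g (R univ g))
    {m : ℕ} {r : Fin m → ℕ} {c : Fin n → ℕ} (T : Finset (Fin m)) (hT : T.card = 3)
    (f : CT m n r c → ℝ) :
    ∑ p ∈ T.powersetCard 2, ip f (R p f) ≤ 2 * ip f f + ip f (R T f) := by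
  obtain ⟨φ, rfl⟩ : ∃ φ : Fin 3 ↪ Fin m, (univ : Finset (Fin 3)).map φ = T :=
    ⟨(T.orderEmbOfFin hT).toEmbedding, map_orderEmbOfFin_univ T hT⟩
  have hL : ∑ p ∈ ((univ : Finset (Fin 3)).map φ).powersetCard 2, ip f (R p f)
      = ∑ x, ∑ p ∈ ((univ : Finset (Fin 3)).map φ).powersetCard 2, f x * R p f x := by
    unfold ip
    rw [Finset.sum_comm]
  have hR : 2 * ip f f + ip f (R ((univ : Finset (Fin 3)).map φ) f)
      = ∑ x, (2 * (f x * f x) + f x * R ((univ : Finset (Fin 3)).map φ) f x) := by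
    unfold ip
    rw [Finset.sum_add_distrib, Finset.mul_sum]
  rw [hL, hR]
  apply sum_le_sum_of_classes ((univ : Finset (Fin 3)).map φ)
  intro x0
  rw [sum_class, sum_class]
  obtain ⟨g, hg⟩ : ∃ g : CT 3 n (r ∘ φ) (fun j => ∑ a, x0.1 (φ a) j) → ℝ,
      ∀ z, g z = f (iota φ x0 z) := ⟨_, fun _ => rfl⟩
  have key := h3 (r ∘ φ) (fun j => ∑ a, x0.1 (φ a) j) g
  unfold ip at key
  rw [Finset.sum_comm] at key
  have e1 : ∀ z, ∑ p ∈ ((univ : Finset (Fin 3)).map φ).powersetCard 2,
        f (iota φ x0 z) * R p f (iota φ x0 z)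
      = ∑ q ∈ (univ : Finset (Fin 3)).powersetCard 2, g z * R q g z := by
    intro z
    rw [powersetCard_map, Finset.sum_map]
    refine Finset.sum_congr rfl (fun q _ => ?_)
    simp only [RelEmbedding.coe_toEmbedding, mapEmbedding_apply]
    rw [R_iota φ x0 q f z g hg, hg z]
  have e2 : ∀ z, 2 * (f (iota φ x0 z) * f (iota φ x0 z))
        + f (iota φ x0 z) * R ((univ : Finset (Fin 3)).map φ) f (iota φ x0 z)
      = 2 * (g z * g z) + g z * R univ g z := by
    intro z
    rw [R_iota φ x0 univ f z g hg, hg z]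
  simp only [e1, e2]
  rw [Finset.sum_add_distrib, ← Finset.mul_sum]
  exact key

end Vale.Agent.Lib.P328.RP
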