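import Mathlib
import Vale.Agent.Lib.P328.RP.W1Defs
import Vale.Agent.Lib.P328.RP.LipStep
import Vale.Agent.Lib.P328.RP.LipExists
import Vale.Agent.Lib.P328.W1.RowLip

/-!
P328: from the coupling hypothesis to the Lipschitz bound for row averages and the
quadratic-form bound for the sum of the row conditional expectations.

* `R_erase_lip` : if `F` is `L`-Lipschitz for `tdist`, then the average of `F` given row `i`
  is `(1 + C) * L`-Lipschitz in row `i`.
* `rowSum_le_of_coupling` : `sum_i E_i ≤ (1 + C) + (k - C) E_0` as quadratic forms, where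
  `E_i` is the conditional expectation given row `i` and `E_0` is the mean.
-/

namespace Vale.Agent.Lib.P328.RP

open Finset
open Vale.Agent.Lib.P335.Bip
open BlockTransfer

namespace Lip

/-- For two rows with the same sum the excess of `a` over `b` equals that of `b` over `a`. -/
theorem excess_symm {n : ℕ} (a b : Fin n → ℕ) (h : ∑ j, a j = ∑ j, b j) :
    ∑ j, (a j - b j) = ∑ j, (b j - a j) := by
  have h1 : ∑ j, (a j + (b j - a j)) = ∑ j, (b j + (a j - b j)) :=
    Finset.sum_congr rfl (fun j _ => by omega)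
  rw [Finset.sum_add_distrib, Finset.sum_add_distrib] at h1
  omega

theorem rdist_eq_excess {n : ℕ} (a b : Fin n → ℕ) (h : ∑ j, a j = ∑ j, b j) :
    ∑ j, |(a j : ℝ) - (b j : ℝ)| / 2 = ((∑ j, (a j - b j) : ℕ) : ℝ) := by
  have h1 : ∀ j, |(a j : ℝ) - (b j : ℝ)| = ((a j - b j : ℕ) : ℝ) + ((b j - a j : ℕ) : ℝ) := by
    intro j
    rcases le_total (a j) (b j) with hab | hab
    · rw [Nat.sub_eq_zero_of_le hab, Nat.cast_zero, zero_add, Nat.cast_sub hab, abs_sub_comm,
        abs_of_nonneg]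
      exact sub_nonneg.mpr (Nat.cast_le.mpr hab)
    · rw [Nat.sub_eq_zero_of_le hab, Nat.cast_zero, add_zero, Nat.cast_sub hab, abs_of_nonneg]
      exact sub_nonneg.mpr (Nat.cast_le.mpr hab)
  rw [← Finset.sum_div]
  simp_rw [h1]
  rw [Finset.sum_add_distrib, ← Nat.cast_sum, ← Nat.cast_sum, ← excess_symm a b h]
  ring

theorem eq_of_excess_zero {n : ℕ} (a b : Fin n → ℕ) (h : ∑ j, a j = ∑ j, b j)
    (h0 : ∑ j, (a j - b j) = 0) : a = b := by
  have h0' : ∑ j, (b j - a j) = 0 := by rw [← excess_symm a b h]; exact h0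
  funext j
  have h1 := (Finset.sum_eq_zero_iff.mp h0) j (Finset.mem_univ j)
  have h2 := (Finset.sum_eq_zero_iff.mp h0') j (Finset.mem_univ j)
  omega

theorem exists_pos_of_excess {n : ℕ} (a b : Fin n → ℕ) (e : ℕ)
    (he : ∑ j, (a j - b j) = e + 1) : ∃ v, b v < a v := by
  by_contra hcon
  push Not at hcon
  have h0 : ∑ j, (a j - b j) = 0 :=
    Finset.sum_eq_zero (fun j _ => Nat.sub_eq_zero_of_le (hcon j))
  omega

theorem excess_step {n : ℕ} (a a' b : Fin n → ℕ) (u v : Fin n)
    (hu : a' u = a u + 1) (hv : a v = a' v + 1) (hj : ∀ j, j ≠ u → j ≠ v → a' j = a j)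
    (hau : a u < b u) (hbv : b v < a v) :
    ∑ j, (a' j - b j) + 1 = ∑ j, (a j - b j) := by
  rw [← Finset.add_sum_erase univ (fun j => a' j - b j) (Finset.mem_univ v),
    ← Finset.add_sum_erase univ (fun j => a j - b j) (Finset.mem_univ v)]
  have h1 : ∑ j ∈ univ.erase v, (a' j - b j) = ∑ j ∈ univ.erase v, (a j - b j) := by
    refine Finset.sum_congr rfl (fun j hjm => ?_)
    have hjv : j ≠ v := Finset.ne_of_mem_erase hjm
    by_cases hju : j = u
    · subst hju; omega
    · rw [hj j hju hjv]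
  rw [h1]
  omega

theorem lip_aux {k n : ℕ} (C : ℝ) (hW : WCoupling k n C)
    {r : Fin (k + 1) → ℕ} {c : Fin n → ℕ} (F : CT (k + 1) n r c → ℝ) (L : ℝ) (hL : 0 ≤ L)
    (hF : ∀ x y : CT (k + 1) n r c, |F x - F y| ≤ L * tdist x.1 y.1)
    (i : Fin (k + 1)) (y : CT (k + 1) n r c) (e : ℕ) :
    ∀ x : CT (k + 1) n r c, ∑ j, (x.1 i j - y.1 i j) = e →
      |R (univ.erase i) F x - R (univ.erase i) F y| ≤ (1 + C) * L * e := by
  induction e with
  | zero =>
    intro x he
    have hrow : x.1 i = y.1 i :=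
      eq_of_excess_zero _ _ (by rw [x.2.1 i, y.2.1 i]) he
    have hR : R (univ.erase i) F x = R (univ.erase i) F y := by
      apply R_congr
      intro i' hi'
      have hii : i' = i := by
        by_contra hne
        exact hi' (Finset.mem_erase.mpr ⟨hne, Finset.mem_univ _⟩)
      rw [hii, hrow]
    rw [hR, sub_self, abs_zero, Nat.cast_zero, mul_zero]
  | succ e ih =>
    intro x he
    have hsum : ∑ j, x.1 i j = ∑ j, y.1 i j := by rw [x.2.1 i, y.2.1 i]
    obtain ⟨v, hv⟩ := exists_pos_of_excess (x.1 i) (y.1 i) e he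
    have he' : ∑ j, (y.1 i j - x.1 i j) = e + 1 := by
      rw [← excess_symm _ _ hsum]; exact he
    obtain ⟨u, hu⟩ := exists_pos_of_excess (y.1 i) (x.1 i) e he'
    have huv : u ≠ v := by
      rintro rfl; omega
    have hyc : y.1 i u ≤ c u := by
      rw [← y.2.2 u]
      exact Finset.single_le_sum (f := fun i' => y.1 i' u) (fun _ _ => Nat.zero_le _)
        (Finset.mem_univ i)
    obtain ⟨x', hx'u, hx'v, hx'j⟩ :=
      exists_row_step C hW i u v huv x (by omega) (by omega)
    have hex' : ∑ j, (x'.1 i j - y.1 i j) = e := by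
      have hstep := excess_step (x.1 i) (x'.1 i) (y.1 i) u v hx'u hx'v hx'j hu hv
      omega
    have h1 := R_erase_step C hW F L hL hF i u v huv x x' hx'u hx'v hx'j
    have h2 := ih x' hex'
    have h3 := abs_sub_le (R (univ.erase i) F x) (R (univ.erase i) F x')
      (R (univ.erase i) F y)
    have h4 : (1 + C) * L * ((e + 1 : ℕ) : ℝ) = (1 + C) * L + (1 + C) * L * (e : ℝ) := by
      push_cast; ring
    rw [h4]
    linarith

theorem tdist_pos {k n : ℕ} {r : Fin k → ℕ} {c : Fin n → ℕ} (x y : CT k n r c)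
    (h : x ≠ y) : 0 < tdist x.1 y.1 := by
  have h1 : x.1 ≠ y.1 := fun h' => h (Subtype.ext h')
  obtain ⟨i, hi⟩ := Function.ne_iff.mp h1
  obtain ⟨j, hj⟩ := Function.ne_iff.mp hi
  have h2 : 0 < |(x.1 i j : ℝ) - (y.1 i j : ℝ)| / 2 := by
    refine div_pos (abs_pos.mpr ?_) (by norm_num)
    intro h0
    apply hj
    have h0' : (x.1 i j : ℝ) = (y.1 i j : ℝ) := by linarith
    exact_mod_cast h0'
  have h3 : 0 < rdist x.1 y.1 i := by
    unfold rdist
    exact lt_of_lt_of_le h2
      (Finset.single_le_sum (f := fun j => |(x.1 i j : ℝ) - (y.1 i j : ℝ)| / 2)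
        (fun _ _ => div_nonneg (abs_nonneg _) (by norm_num)) (Finset.mem_univ j))
  unfold tdist
  exact lt_of_lt_of_le h3
    (Finset.single_le_sum (f := fun i => rdist x.1 y.1 i)
      (fun i _ => rdist_nonneg _ _ i) (Finset.mem_univ i))

end Lip

/-- If `F` is `L`-Lipschitz for the number of unit moves, the average of `F` given row `i` is
`(1 + C) * L`-Lipschitz in the row-`i` part of the number of unit moves. -/
theorem R_erase_lip {k n : ℕ} (C : ℝ) (hC : 0 ≤ C) (hW : WCoupling k n C)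
    {r : Fin (k + 1) → ℕ} {c : Fin n → ℕ} (F : CT (k + 1) n r c → ℝ) (L : ℝ) (hL : 0 ≤ L)
    (hF : ∀ x y : CT (k + 1) n r c, |F x - F y| ≤ L * tdist x.1 y.1)
    (i : Fin (k + 1)) (x y : CT (k + 1) n r c) :
    |R (univ.erase i) F x - R (univ.erase i) F y| ≤ (1 + C) * L * rdist x.1 y.1 i := by
  have _hC := hC
  have h := Lip.lip_aux C hW F L hL hF i y _ x rfl
  have hr : rdist x.1 y.1 i = ((∑ j, (x.1 i j - y.1 i j) : ℕ) : ℝ) := by
    unfold rdist
    exact Lip.rdist_eq_excess _ _ (by rw [x.2.1 i, y.2.1 i])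
  rw [hr]
  exact h

namespace Lip

/-- An eigenfunction of the sum of the row conditional expectations with eigenvalue above
`1 + C` is constant. -/
theorem const_of_eigen {k n : ℕ} (C : ℝ) (hC : 0 ≤ C) (hW : WCoupling k n C)
    {r : Fin (k + 1) → ℕ} {c : Fin n → ℕ} (F : CT (k + 1) n r c → ℝ) (μ : ℝ)
    (hμ : 1 + C < μ) (hev : ∀ x, ∑ i, R (univ.erase i) F x = μ * F x) :
    ∀ x y, F x = F y := by
  classical
  by_contra hcon
  push Not at hcon
  obtain ⟨xa, ya, hne⟩ := hcon
  have hxya : xa ≠ ya := by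
    rintro rfl; exact hne rfl
  obtain ⟨p0, hp0, hmax⟩ := Finset.exists_max_image
    ((univ : Finset (CT (k + 1) n r c × CT (k + 1) n r c)).filter (fun p => p.1 ≠ p.2))
    (fun p => |F p.1 - F p.2| / tdist p.1.1 p.2.1)
    ⟨(xa, ya), Finset.mem_filter.mpr ⟨Finset.mem_univ _, hxya⟩⟩
  have hp0ne : p0.1 ≠ p0.2 := (Finset.mem_filter.mp hp0).2
  have ht0 : 0 < tdist p0.1.1 p0.2.1 := tdist_pos _ _ hp0ne
  obtain ⟨L, hLdef⟩ : ∃ L : ℝ, L = |F p0.1 - F p0.2| / tdist p0.1.1 p0.2.1 := ⟨_, rfl⟩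
  have hL : 0 ≤ L := by
    rw [hLdef]; exact div_nonneg (abs_nonneg _) ht0.le
  have hF : ∀ x y : CT (k + 1) n r c, |F x - F y| ≤ L * tdist x.1 y.1 := by
    intro x y
    by_cases hxy : x = y
    · subst hxy
      rw [sub_self, abs_zero, tdist_self, mul_zero]
    · have ht : 0 < tdist x.1 y.1 := tdist_pos _ _ hxy
      have hm := hmax (x, y) (Finset.mem_filter.mpr ⟨Finset.mem_univ _, hxy⟩)
      rw [← hLdef] at hm
      exact (div_le_iff₀ ht).mp hm
  have hsum : |∑ i, (R (univ.erase i) F p0.1 - R (univ.erase i) F p0.2)|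
      ≤ (1 + C) * L * tdist p0.1.1 p0.2.1 := by
    calc |∑ i, (R (univ.erase i) F p0.1 - R (univ.erase i) F p0.2)|
        ≤ ∑ i, |R (univ.erase i) F p0.1 - R (univ.erase i) F p0.2| :=
          Finset.abs_sum_le_sum_abs _ _
      _ ≤ ∑ i, (1 + C) * L * rdist p0.1.1 p0.2.1 i :=
          Finset.sum_le_sum (fun i _ => R_erase_lip C hC hW F L hL hF i p0.1 p0.2)
      _ = (1 + C) * L * tdist p0.1.1 p0.2.1 := by
          unfold tdist; rw [Finset.mul_sum]
  have hlhs : ∑ i, (R (univ.erase i) F p0.1 - R (univ.erase i) F p0.2)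
      = μ * (F p0.1 - F p0.2) := by
    rw [Finset.sum_sub_distrib, hev, hev]; ring
  have hLt : L * tdist p0.1.1 p0.2.1 = |F p0.1 - F p0.2| := by
    rw [hLdef]; exact div_mul_cancel₀ _ ht0.ne'
  have hμpos : (0 : ℝ) < μ := by linarith
  rw [hlhs, abs_mul, abs_of_pos hμpos, mul_assoc, hLt] at hsum
  have hd : |F p0.1 - F p0.2| = 0 := by
    have hnn := abs_nonneg (F p0.1 - F p0.2)
    nlinarith
  have hL0 : L = 0 := by
    rw [hLdef, hd, zero_div]
  have hfin := hF xa ya
  rw [hL0, zero_mul] at hfin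
  have h0 : F xa - F ya = 0 := abs_eq_zero.mp (le_antisymm hfin (abs_nonneg _))
  exact hne (sub_eq_zero.mp h0)

end Lip

/-- Step 1 of the non-sharp row recursion: with `E_i` the conditional expectation given row
`i` and `E_0` the mean, `sum_i E_i ≤ (1 + C) + (k - C) E_0` as quadratic forms on the tables
with `k + 1` rows. -/
theorem rowSum_le_of_coupling {k n : ℕ} (C : ℝ) (hC : 0 ≤ C) (hW : WCoupling k n C)
    (r : Fin (k + 1) → ℕ) (c : Fin n → ℕ) (f : CT (k + 1) n r c → ℝ) :
    ∑ i, ip f (R (univ.erase i) f) ≤ (1 + C) * ip f f + ((k : ℝ) - C) * ip f (R univ f) := by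
  obtain ⟨T, hT⟩ : ∃ T : (CT (k + 1) n r c → ℝ) →ₗ[ℝ] (CT (k + 1) n r c → ℝ),
      T = ∑ i, R (univ.erase i) - ((k : ℝ) - C) • R univ := ⟨_, rfl⟩
  have hTapp : ∀ g, T g = ∑ i, R (univ.erase i) g - ((k : ℝ) - C) • R univ g := by
    intro g
    rw [hT, LinearMap.sub_apply, LinearMap.sum_apply, LinearMap.smul_apply]
  have hsymm : ∀ g h, ip g (T h) = ip (T g) h := by
    intro g h
    rw [hTapp, hTapp, ip_sub_right, ip_sub_left, ip_sum_right, ip_sum_left, ip_smul_right,
      ip_smul_left, R_symm]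
    congr 1
    exact Finset.sum_congr rfl (fun i _ => R_symm _ g h)
  have heig : ∀ (μ : ℝ) (F : CT (k + 1) n r c → ℝ), F ≠ 0 → T F = μ • F → μ ≤ 1 + C := by
    intro μ F hF0 hev
    by_contra hlt
    push Not at hlt
    have hUi : ∀ i : Fin (k + 1), R (univ : Finset (Fin (k + 1))) (R (univ.erase i) F)
        = R univ F := fun i => R_T_R_of_subset (Finset.subset_univ _) F
    have h1 : R (univ : Finset (Fin (k + 1))) (T F)
        = (1 + C) • R (univ : Finset (Fin (k + 1))) F := by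
      rw [hTapp, map_sub, map_sum, map_smul, R_idem]
      simp_rw [hUi]
      rw [Finset.sum_const, Finset.card_univ, Fintype.card_fin, ← Nat.cast_smul_eq_nsmul ℝ,
        ← sub_smul]
      congr 1
      push_cast; ring
    have h2 : R (univ : Finset (Fin (k + 1))) (T F)
        = μ • R (univ : Finset (Fin (k + 1))) F := by
      rw [hev, map_smul]
    have h3 : R (univ : Finset (Fin (k + 1))) F = 0 := by
      have h4 : (μ - (1 + C)) • R (univ : Finset (Fin (k + 1))) F = 0 := by
        rw [sub_smul, ← h2, ← h1, sub_self]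
      rcases smul_eq_zero.mp h4 with h5 | h5
      · linarith
      · exact h5
    have hev' : ∀ x, ∑ i, R (univ.erase i) F x = μ * F x := by
      intro x
      have hx := congrFun hev x
      rw [hTapp, h3, smul_zero, sub_zero, Finset.sum_apply, Pi.smul_apply, smul_eq_mul] at hx
      exact hx
    have hconst := Lip.const_of_eigen C hC hW F μ hlt hev'
    apply hF0
    funext x
    have h6 := congrFun h3 x
    rw [R_univ_apply] at h6
    have h7 : ∑ y, F y = (Fintype.card (CT (k + 1) n r c) : ℝ) * F x := by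
      rw [Finset.sum_congr rfl (fun y _ => hconst y x), Finset.sum_const, Finset.card_univ,
        nsmul_eq_mul]
    have hcard : (0 : ℝ) < (Fintype.card (CT (k + 1) n r c) : ℝ) := by
      exact_mod_cast Fintype.card_pos_iff.mpr ⟨x⟩
    rw [h7, mul_div_cancel_left₀ _ hcard.ne'] at h6
    exact h6
  have key := form_le_of_eigen T hsymm (1 + C) heig f
  rw [hTapp, ip_sub_right, ip_sum_right, ip_smul_right] at key
  linarith

/-- The number of unit moves equals the row distance of the `W1` files. -/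
theorem tdist_eq_rowDist {k n : ℕ} (x y : Fin k → Fin n → ℕ) :
    tdist x y = W1.rowDist x y := by
  unfold tdist rdist W1.rowDist
  rw [Finset.mul_sum]
  refine Finset.sum_congr rfl (fun i _ => ?_)
  rw [Finset.mul_sum]
  exact Finset.sum_congr rfl (fun j _ => by ring)

/-- The coupling hypothesis in the form used by the `W1` files. -/
theorem whyp_of_coupling {k n : ℕ} {C : ℝ} (hW : WCoupling k n C) : W1.WHyp k n C := by
  intro r s s' u v hstep
  obtain ⟨huv, hu, hv, ho⟩ := hstep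
  obtain ⟨γ, h1, h2, h3, h4⟩ := hW r s s' u v huv hu hv ho
  refine ⟨γ, h1, h2, h3, ?_⟩
  have e : ∑ x, ∑ y, γ x y * W1.rowDist x.1 y.1 = ∑ x, ∑ y, γ x y * tdist x.1 y.1 :=
    Finset.sum_congr rfl (fun x _ => Finset.sum_congr rfl (fun y _ => by
      rw [tdist_eq_rowDist]))
  rw [e]
  exact h4

end Vale.Agent.Lib.P328.RP
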