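import Mathlib
import Vale.Agent.Lib.P328.RP.W1Defs
import Vale.Agent.Lib.P328.RP.BlockTransfer

/-!
P328: the row recursion for the row-pair heat bath.

`RowPoinc m n K` is the Poincare inequality `1 - mean ≤ K ∑ p, (1 - R p)` for the row-pair
resamplings of `m × n` tables, for all margins.  If it holds for `k` rows with constant `K`,
and on `(k + 1)`-row tables the conditional expectations `E i` given one row satisfy
`∑ i, E i ≤ Λ + (k + 1 - Λ) mean` with `Λ < k + 1`, then it holds for `k + 1` rows with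
constant `K (k - 1) / (k + 1 - Λ)`: condition on row `i`, use the inequality for the other
`k` rows, and sum over `i` (each pair of rows avoids `k - 1` rows).
-/

namespace Vale.Agent.Lib.P328.RP

open Finset
open Vale.Agent.Lib.P335.Bip
open BlockTransfer

/-- The Poincare inequality with constant `K` for the row-pair resamplings of `m × n` tables,
for all margins. -/
def RowPoinc (m n : ℕ) (K : ℝ) : Prop :=
  ∀ (r : Fin m → ℕ) (c : Fin n → ℕ) (f : CT m n r c → ℝ),
    ip f f - ip f (R univ f)
      ≤ K * ∑ p ∈ (univ : Finset (Fin m)).powersetCard 2, (ip f f - ip f (R p f))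

namespace RowRec

theorem ip_R_le {m n : ℕ} {r : Fin m → ℕ} {c : Fin n → ℕ} (p : Finset (Fin m))
    (f : CT m n r c → ℝ) : ip f (R p f) ≤ ip f f :=
  ip_cexp_le _ f

theorem form_nonneg {m n : ℕ} {r : Fin m → ℕ} {c : Fin n → ℕ} (f : CT m n r c → ℝ) :
    0 ≤ ∑ p ∈ (univ : Finset (Fin m)).powersetCard 2, (ip f f - ip f (R p f)) :=
  Finset.sum_nonneg (fun p _ => sub_nonneg.mpr (ip_R_le p f))

/-- the pairs of rows of `Fin (k + 1)` that avoid `i` are the images of the pairs of `Fin k` -/
theorem sum_pairs_map {k : ℕ} (i : Fin (k + 1)) (G : Finset (Fin (k + 1)) → ℝ) :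
    ∑ p ∈ (univ : Finset (Fin k)).powersetCard 2, G (p.map (Fin.succAboveEmb i))
      = ∑ q ∈ ((univ : Finset (Fin (k + 1))).powersetCard 2).filter (fun q => i ∉ q), G q := by
  have h1 : ((univ : Finset (Fin (k + 1))).powersetCard 2).filter (fun q => i ∉ q)
      = (univ.erase i).powersetCard 2 := by
    ext q
    simp only [mem_filter, mem_powersetCard, subset_univ, true_and]
    constructor
    · rintro ⟨hc, hi⟩
      refine ⟨fun j hj => mem_erase.mpr ⟨fun h => hi (h ▸ hj), mem_univ _⟩, hc⟩
    · rintro ⟨hs, hc⟩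
      exact ⟨hc, fun hi => (mem_erase.mp (hs hi)).1 rfl⟩
  rw [h1, ← univ_map_succAbove, Finset.powersetCard_map, Finset.sum_map]
  rfl

/-- each pair of rows avoids `k - 1` of the `k + 1` rows -/
theorem sum_sum_pairs {k : ℕ} (G : Finset (Fin (k + 1)) → ℝ) :
    ∑ i, ∑ p ∈ (univ : Finset (Fin k)).powersetCard 2, G (p.map (Fin.succAboveEmb i))
      = ((k : ℝ) - 1) * ∑ q ∈ (univ : Finset (Fin (k + 1))).powersetCard 2, G q := by
  have h1 : ∀ i : Fin (k + 1),
      ∑ p ∈ (univ : Finset (Fin k)).powersetCard 2, G (p.map (Fin.succAboveEmb i))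
        = ∑ q ∈ (univ : Finset (Fin (k + 1))).powersetCard 2, (if i ∉ q then G q else 0) := by
    intro i
    rw [sum_pairs_map, Finset.sum_filter]
  rw [Finset.sum_congr rfl (fun i _ => h1 i), Finset.sum_comm, Finset.mul_sum]
  refine Finset.sum_congr rfl (fun q hq => ?_)
  have hc : q.card = 2 := (mem_powersetCard.mp hq).2
  rw [← Finset.sum_filter, Finset.sum_const, nsmul_eq_mul]
  have h2 : (univ.filter (fun i : Fin (k + 1) => i ∉ q)) = qᶜ := by
    ext i
    simp
  rw [h2, Finset.card_compl, Fintype.card_fin, hc]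
  have hk : 2 ≤ k + 1 := by
    have := Finset.card_le_univ q
    rw [Fintype.card_fin, hc] at this
    exact this
  rw [Nat.cast_sub hk]
  push_cast
  ring

/-- The inequality for `k` rows, used inside the rows other than `i` of a `(k + 1)`-row
table. -/
theorem transfer_erase {k n : ℕ} (K : ℝ) (hP : RowPoinc k n K) {r : Fin (k + 1) → ℕ}
    {c : Fin n → ℕ} (i : Fin (k + 1)) (f : CT (k + 1) n r c → ℝ) :
    ip f f - ip f (R (univ.erase i) f)
      ≤ K * ∑ p ∈ (univ : Finset (Fin k)).powersetCard 2,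
          (ip f f - ip f (R (p.map (Fin.succAboveEmb i)) f)) := by
  classical
  set s : Finset (Option (Finset (Fin k))) :=
    insertNone ((univ : Finset (Fin k)).powersetCard 2) with hs
  set a : Option (Finset (Fin k)) → ℝ := fun o => if o = none then -1 else K with ha
  set P : Option (Finset (Fin k)) → Finset (Fin k) := fun o => o.getD univ with hPdef
  have h2 : ∀ (r : Fin k → ℕ) (c : Fin n → ℕ) (g : CT k n r c → ℝ),
      ∑ α ∈ s, a α * ip g (E (P α) (univ : Finset (Fin n)) g)
        ≤ (K * ((k.choose 2 : ℕ) : ℝ) - 1) * ip g g := by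
    intro r c g
    have h := hP r c g
    rw [hs, Finset.sum_insertNone]
    simp only [ha, hPdef, Option.getD_none, Option.getD_some, if_true, reduceCtorEq, if_false]
    rw [Finset.sum_sub_distrib, Finset.sum_const, Finset.card_powersetCard, Finset.card_univ,
      Fintype.card_fin, nsmul_eq_mul] at h
    simp only [E_univ_right]
    rw [← Finset.mul_sum]
    linarith
  have key := block_transfer s a P (fun _ => (univ : Finset (Fin n)))
    (K * ((k.choose 2 : ℕ) : ℝ) - 1) h2 (Fin.succAboveEmb i) f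
  rw [hs, Finset.sum_insertNone] at key
  simp only [ha, hPdef, Option.getD_none, Option.getD_some, if_true, reduceCtorEq, if_false]
    at key
  simp only [E_univ_right] at key
  rw [univ_map_succAbove, ← Finset.mul_sum] at key
  rw [Finset.sum_sub_distrib, Finset.sum_const, Finset.card_powersetCard, Finset.card_univ,
    Fintype.card_fin, nsmul_eq_mul]
  linarith

end RowRec

open RowRec

/-- A larger constant is allowed. -/
theorem RowPoinc.mono {m n : ℕ} {K K' : ℝ} (h : RowPoinc m n K) (hK : K ≤ K') :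
    RowPoinc m n K' := by
  intro r c f
  exact (h r c f).trans (mul_le_mul_of_nonneg_right hK (form_nonneg f))

/-- Two rows: the only pair is everything. -/
theorem rowPoinc_two (n : ℕ) : RowPoinc 2 n 1 := by
  intro r c f
  have h : (univ : Finset (Fin 2)).powersetCard 2 = {univ} := by decide
  rw [h, Finset.sum_singleton, one_mul]

/-- **Row recursion.** -/
theorem rowPoinc_succ {k n : ℕ} (K Λ : ℝ) (hΛ : Λ < (k : ℝ) + 1) (hP : RowPoinc k n K)
    (hT : ∀ (r : Fin (k + 1) → ℕ) (c : Fin n → ℕ) (f : CT (k + 1) n r c → ℝ),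
      ∑ i, ip f (R (univ.erase i) f) ≤ Λ * ip f f + ((k : ℝ) + 1 - Λ) * ip f (R univ f)) :
    RowPoinc (k + 1) n (K * ((k : ℝ) - 1) / ((k : ℝ) + 1 - Λ)) := by
  intro r c f
  have hpos : 0 < (k : ℝ) + 1 - Λ := by linarith
  have h1 : ∑ i : Fin (k + 1), (ip f f - ip f (R (univ.erase i) f))
      ≤ ∑ i : Fin (k + 1), K * ∑ p ∈ (univ : Finset (Fin k)).powersetCard 2,
          (ip f f - ip f (R (p.map (Fin.succAboveEmb i)) f)) :=
    Finset.sum_le_sum (fun i _ => transfer_erase K hP i f)
  rw [← Finset.mul_sum, sum_sum_pairs (fun q => ip f f - ip f (R q f)),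
    Finset.sum_sub_distrib, Finset.sum_const, Finset.card_univ, Fintype.card_fin,
    nsmul_eq_mul] at h1
  have h2 := hT r c f
  have h3 : ((k : ℝ) + 1 - Λ) * (ip f f - ip f (R univ f))
      ≤ K * (((k : ℝ) - 1) * ∑ q ∈ (univ : Finset (Fin (k + 1))).powersetCard 2,
          (ip f f - ip f (R q f))) := by
    push_cast at h1
    linarith
  rw [div_mul_eq_mul_div, le_div_iff₀ hpos]
  linarith

/-- The row recursion with the one-row bound `Λ = 1 + C` for every number of rows: the
Poincare constant of `m ≥ 3` rows is at most `(m - 2) / (2 - C)`. -/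
theorem rowPoinc_of_rowSum {n : ℕ} (C : ℝ) (hC2 : C < 2)
    (hT : ∀ (k : ℕ), 2 ≤ k → ∀ (r : Fin (k + 1) → ℕ) (c : Fin n → ℕ)
      (f : CT (k + 1) n r c → ℝ),
      ∑ i, ip f (R (univ.erase i) f) ≤ (1 + C) * ip f f + ((k : ℝ) - C) * ip f (R univ f))
    (m : ℕ) (hm : 3 ≤ m) : RowPoinc m n (((m : ℝ) - 2) / (2 - C)) := by
  have h2C : 0 < 2 - C := by linarith
  induction m, hm using Nat.le_induction with
  | base =>
    have h := rowPoinc_succ (k := 2) (n := n) 1 (1 + C) (by push_cast; linarith)
      (rowPoinc_two n)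
      (fun r c f => by
        have := hT 2 le_rfl r c f
        push_cast at this ⊢
        linarith)
    refine h.mono (le_of_eq ?_)
    push_cast
    rw [show (2 : ℝ) + 1 - (1 + C) = 2 - C by ring]
    norm_num
  | succ k hk ih =>
    have hk3 : (3 : ℝ) ≤ (k : ℝ) := by exact_mod_cast hk
    have hkC : 0 < (k : ℝ) - C := by linarith
    have h := rowPoinc_succ (k := k) (n := n) (((k : ℝ) - 2) / (2 - C)) (1 + C)
      (by linarith) ih
      (fun r c f => by
        have := hT k (by omega) r c f
        linarith)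
    refine h.mono ?_
    push_cast
    have e : (k : ℝ) + 1 - (1 + C) = (k : ℝ) - C := by ring
    rw [e, div_le_div_iff₀ hkC h2C]
    have h5 : ((k : ℝ) - 2) / (2 - C) * ((k : ℝ) - 1) * (2 - C)
        = ((k : ℝ) - 2) * ((k : ℝ) - 1) := by
      field_simp
    rw [h5]
    nlinarith

/-- All `m ≥ 2`: the Poincare constant is at most `m / (2 - C)`. -/
theorem rowPoinc_of_rowSum' {n : ℕ} (C : ℝ) (hC0 : 0 ≤ C) (hC2 : C < 2)
    (hT : ∀ (k : ℕ), 2 ≤ k → ∀ (r : Fin (k + 1) → ℕ) (c : Fin n → ℕ)
      (f : CT (k + 1) n r c → ℝ),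
      ∑ i, ip f (R (univ.erase i) f) ≤ (1 + C) * ip f f + ((k : ℝ) - C) * ip f (R univ f))
    (m : ℕ) (hm : 2 ≤ m) : RowPoinc m n ((m : ℝ) / (2 - C)) := by
  have h2C : 0 < 2 - C := by linarith
  rcases Nat.lt_or_ge m 3 with h | h
  · have hm2 : m = 2 := by omega
    subst hm2
    refine (rowPoinc_two n).mono ?_
    rw [le_div_iff₀ h2C]
    push_cast
    linarith
  · refine (rowPoinc_of_rowSum C hC2 hT m h).mono ?_
    exact div_le_div_of_nonneg_right (by linarith) h2C.le

end Vale.Agent.Lib.P328.RP
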