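import Mathlib
import Vale.Agent.Lib.P328.RP.W1Defs

/-!
P328: the one-row bound from row-wise couplings.

`WCouplingRows k n C` weakens `WCoupling k n C`: for each row `l` there may be a different
coupling `γ l` of the two uniform laws, and only the moves of row `l` under `γ l` are counted;
the sum over the rows of these costs is at most `C`.  It implies
`∑ i, E i ≤ (1 + C) + (k - C) mean` on `(k + 1)`-row tables (`rowSum_le_of_rowCoupling`),
where `E i` is the conditional expectation given row `i`.
-/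

namespace Vale.Agent.Lib.P328.RP

open Finset
open Vale.Agent.Lib.P335.Bip
open BlockTransfer

/-- The row-wise coupling hypothesis for `k × n` tables with constant `C`: whenever the
column-sum vector `s'` arises from `s` by moving one unit from column `v` to column `u`, there
are couplings `γ l`, one for each row `l`, of the uniform laws on the tables with margins
`(r, s)` and `(r, s')`, such that the expected numbers of unit moves of row `l` under `γ l`
add up to at most `C`. -/
def WCouplingRows (k n : ℕ) (C : ℝ) : Prop :=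
  ∀ (r : Fin k → ℕ) (s s' : Fin n → ℕ) (u v : Fin n), u ≠ v → s' u = s u + 1 →
    s v = s' v + 1 → (∀ j, j ≠ u → j ≠ v → s' j = s j) →
    ∃ γ : Fin k → CT k n r s → CT k n r s' → ℝ, (∀ l x y, 0 ≤ γ l x y) ∧
      (∀ l x, ∑ y, γ l x y = 1 / (Fintype.card (CT k n r s) : ℝ)) ∧
      (∀ l y, ∑ x, γ l x y = 1 / (Fintype.card (CT k n r s') : ℝ)) ∧
      ∑ l, ∑ x, ∑ y, γ l x y * rdist x.1 y.1 l ≤ C

/-- One coupling of the tables is in particular a family of row-wise couplings. -/
theorem WCoupling.rows {k n : ℕ} {C : ℝ} (h : WCoupling k n C) : WCouplingRows k n C := by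
  intro r s s' u v huv h1 h2 h3
  obtain ⟨γ, hγ0, hγ1, hγ2, hγc⟩ := h r s s' u v huv h1 h2 h3
  refine ⟨fun _ => γ, fun _ => hγ0, fun _ => hγ1, fun _ => hγ2, ?_⟩
  have e : ∑ l : Fin k, ∑ x : CT k n r s, ∑ y : CT k n r s', γ x y * rdist x.1 y.1 l
      = ∑ x : CT k n r s, ∑ y : CT k n r s', γ x y * tdist x.1 y.1 := by
    rw [Finset.sum_comm]
    refine Finset.sum_congr rfl (fun x _ => ?_)
    rw [Finset.sum_comm]
    refine Finset.sum_congr rfl (fun y _ => ?_)
    rw [tdist, Finset.mul_sum]
  rw [e]
  exact hγc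

namespace W1Rows

variable {k n : ℕ} {r : Fin (k + 1) → ℕ} {c : Fin n → ℕ}

/-- a column sum is the entry of row `i` plus the column sum of the other rows -/
theorem col_split (i : Fin (k + 1)) (x : CT (k + 1) n r c) (j : Fin n) :
    x.1 i j + ∑ a, x.1 (Fin.succAboveEmb i a) j = c j := by
  rw [← x.2.2 j, Fin.sum_univ_succAbove _ i]
  rfl

theorem not_mem_map (i : Fin (k + 1)) : i ∉ (univ : Finset (Fin k)).map (Fin.succAboveEmb i) := by
  rw [univ_map_succAbove]
  exact Finset.notMem_erase i univ

/-- row `i.succAbove l` of an embedded table is row `l` of the small table -/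
theorem rdist_iota (i : Fin (k + 1)) (x x' : CT (k + 1) n r c)
    (z : CT k n (r ∘ Fin.succAboveEmb i) (fun j => ∑ a, x.1 (Fin.succAboveEmb i a) j))
    (z' : CT k n (r ∘ Fin.succAboveEmb i) (fun j => ∑ a, x'.1 (Fin.succAboveEmb i a) j))
    (l : Fin k) :
    rdist (iota (Fin.succAboveEmb i) x z).1 (iota (Fin.succAboveEmb i) x' z').1 (i.succAbove l)
      = rdist z.1 z'.1 l := by
  unfold rdist
  have h1 : (iota (Fin.succAboveEmb i) x z).1 (i.succAbove l) = z.1 l := by
    rw [iota_val]
    exact emb_apply_emb (Fin.succAboveEmb i) x.1 z.1 l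
  have h2 : (iota (Fin.succAboveEmb i) x' z').1 (i.succAbove l) = z'.1 l := by
    rw [iota_val]
    exact emb_apply_emb (Fin.succAboveEmb i) x'.1 z'.1 l
  rw [h1, h2]

/-- the small system of a table is nonempty -/
theorem card_pos (i : Fin (k + 1)) (x : CT (k + 1) n r c) :
    (0 : ℝ) < (Fintype.card (CT k n (r ∘ Fin.succAboveEmb i)
      (fun j => ∑ a, x.1 (Fin.succAboveEmb i a) j)) : ℝ) := by
  have : Nonempty (CT k n (r ∘ Fin.succAboveEmb i)
      (fun j => ∑ a, x.1 (Fin.succAboveEmb i a) j)) :=
    ⟨⟨fun a => x.1 (Fin.succAboveEmb i a), fun a => x.2.1 (Fin.succAboveEmb i a), fun j => rfl⟩⟩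
  exact Nat.cast_pos.mpr (Fintype.card_pos_iff.mpr this)

/-- One unit move of row `i`: the sum over the other rows `l` of the changes of the averages
of functions `G l` that are Lipschitz in row `l` is at most `L * C`. -/
theorem step_row (C : ℝ) (hW : WCouplingRows k n C) (i : Fin (k + 1)) (u v : Fin n)
    (huv : u ≠ v) (x x' : CT (k + 1) n r c) (hu : x'.1 i u = x.1 i u + 1)
    (hv : x.1 i v = x'.1 i v + 1) (hj : ∀ j, j ≠ u → j ≠ v → x'.1 i j = x.1 i j)
    (G : Fin k → CT (k + 1) n r c → ℝ) (L : ℝ) (hL : 0 ≤ L)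
    (hG : ∀ (l : Fin k) (w w' : CT (k + 1) n r c),
      |G l w - G l w'| ≤ L * rdist w.1 w'.1 (i.succAbove l)) :
    |∑ l, (R (univ.erase i) (G l) x - R (univ.erase i) (G l) x')| ≤ L * C := by
  set φ := Fin.succAboveEmb i with hφ
  set s : Fin n → ℕ := fun j => ∑ a, x.1 (φ a) j with hs
  set s' : Fin n → ℕ := fun j => ∑ a, x'.1 (φ a) j with hs'
  have hc : ∀ j, x.1 i j + s j = c j := fun j => col_split i x j
  have hc' : ∀ j, x'.1 i j + s' j = c j := fun j => col_split i x' j
  have e1 : s' v = s v + 1 := by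
    have := hc v
    have := hc' v
    omega
  have e2 : s u = s' u + 1 := by
    have := hc u
    have := hc' u
    omega
  have e3 : ∀ j, j ≠ v → j ≠ u → s' j = s j := by
    intro j hjv hju
    have := hc j
    have := hc' j
    have := hj j hju hjv
    omega
  obtain ⟨γ, hγ0, hγ1, hγ2, hγc⟩ := hW (r ∘ φ) s s' v u (Ne.symm huv) e1 e2 e3
  have hcard := card_pos i x
  have hcard' := card_pos i x'
  -- the two averages as sums against the coupling
  have hx : ∀ l : Fin k, R (univ.erase i) (G l) x
      = ∑ z : CT k n (r ∘ φ) s, ∑ z' : CT k n (r ∘ φ) s', γ l z z' * G l (iota φ x z) := by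
    intro l
    rw [R_erase_apply, Finset.sum_div]
    refine Finset.sum_congr rfl (fun z _ => ?_)
    rw [← Finset.sum_mul, hγ1 l z]
    ring
  have hx' : ∀ l : Fin k, R (univ.erase i) (G l) x'
      = ∑ z : CT k n (r ∘ φ) s, ∑ z' : CT k n (r ∘ φ) s', γ l z z' * G l (iota φ x' z') := by
    intro l
    rw [R_erase_apply, Finset.sum_div, Finset.sum_comm]
    refine Finset.sum_congr rfl (fun z' _ => ?_)
    rw [← Finset.sum_mul, hγ2 l z']
    ring
  have hdiff : ∀ l : Fin k, |R (univ.erase i) (G l) x - R (univ.erase i) (G l) x'|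
      ≤ L * ∑ z : CT k n (r ∘ φ) s, ∑ z' : CT k n (r ∘ φ) s', γ l z z' * rdist z.1 z'.1 l := by
    intro l
    rw [hx l, hx' l, ← Finset.sum_sub_distrib, Finset.mul_sum]
    refine (Finset.abs_sum_le_sum_abs _ _).trans (Finset.sum_le_sum (fun z _ => ?_))
    rw [← Finset.sum_sub_distrib, Finset.mul_sum]
    refine (Finset.abs_sum_le_sum_abs _ _).trans (Finset.sum_le_sum (fun z' _ => ?_))
    rw [← mul_sub, abs_mul, abs_of_nonneg (hγ0 l z z')]
    have h1 := hG l (iota φ x z) (iota φ x' z')
    rw [rdist_iota i x x' z z' l] at h1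
    calc γ l z z' * |G l (iota φ x z) - G l (iota φ x' z')|
        ≤ γ l z z' * (L * rdist z.1 z'.1 l) := mul_le_mul_of_nonneg_left h1 (hγ0 l z z')
      _ = L * (γ l z z' * rdist z.1 z'.1 l) := by ring
  calc |∑ l, (R (univ.erase i) (G l) x - R (univ.erase i) (G l) x')|
      ≤ ∑ l, |R (univ.erase i) (G l) x - R (univ.erase i) (G l) x'| :=
        Finset.abs_sum_le_sum_abs _ _
    _ ≤ ∑ l, L * ∑ z : CT k n (r ∘ φ) s, ∑ z' : CT k n (r ∘ φ) s',
          γ l z z' * rdist z.1 z'.1 l := Finset.sum_le_sum (fun l _ => hdiff l)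
    _ = L * ∑ l, ∑ z : CT k n (r ∘ φ) s, ∑ z' : CT k n (r ∘ φ) s',
          γ l z z' * rdist z.1 z'.1 l := by rw [Finset.mul_sum]
    _ ≤ L * C := mul_le_mul_of_nonneg_left hγc hL

/-- the number of units by which `a` exceeds `b` -/
def exc (a b : Fin n → ℕ) : ℕ := ∑ j, (a j - b j)

theorem exc_symm {a b : Fin n → ℕ} (h : ∑ j, a j = ∑ j, b j) : exc a b = exc b a := by
  have h1 : ∀ j, (a j - b j) + b j = (b j - a j) + a j := fun j => by omega
  have h2 : exc a b + ∑ j, b j = exc b a + ∑ j, a j := by
    unfold exc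
    rw [← Finset.sum_add_distrib, ← Finset.sum_add_distrib]
    exact Finset.sum_congr rfl (fun j _ => h1 j)
  omega

theorem rdist_eq_exc (i : Fin (k + 1)) (x y : CT (k + 1) n r c) :
    rdist x.1 y.1 i = (exc (x.1 i) (y.1 i) : ℝ) := by
  have hs : ∑ j, x.1 i j = ∑ j, y.1 i j := by rw [x.2.1 i, y.2.1 i]
  have h1 : ∀ j, |(x.1 i j : ℝ) - (y.1 i j : ℝ)|
      = ((x.1 i j - y.1 i j : ℕ) : ℝ) + ((y.1 i j - x.1 i j : ℕ) : ℝ) := by
    intro j
    rcases le_total (x.1 i j) (y.1 i j) with h | h
    · rw [Nat.sub_eq_zero_of_le h, Nat.cast_sub h, abs_of_nonpos (by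
        have : (x.1 i j : ℝ) ≤ (y.1 i j : ℝ) := by exact_mod_cast h
        linarith)]
      push_cast
      ring
    · rw [Nat.sub_eq_zero_of_le h, Nat.cast_sub h, abs_of_nonneg (by
        have : (y.1 i j : ℝ) ≤ (x.1 i j : ℝ) := by exact_mod_cast h
        linarith)]
      push_cast
      ring
  unfold rdist
  rw [← Finset.sum_div, Finset.sum_congr rfl (fun j _ => h1 j), Finset.sum_add_distrib]
  have h2 : (∑ j, ((x.1 i j - y.1 i j : ℕ) : ℝ)) = (exc (x.1 i) (y.1 i) : ℝ) := by
    unfold exc
    push_cast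
    rfl
  have h3 : (∑ j, ((y.1 i j - x.1 i j : ℕ) : ℝ)) = (exc (x.1 i) (y.1 i) : ℝ) := by
    rw [exc_symm hs]
    unfold exc
    push_cast
    rfl
  rw [h2, h3]
  ring

theorem rdist_pos (i : Fin (k + 1)) (x y : CT (k + 1) n r c) (h : x.1 i ≠ y.1 i) :
    0 < rdist x.1 y.1 i := by
  obtain ⟨j, hj⟩ : ∃ j, x.1 i j ≠ y.1 i j := by
    by_contra hcon
    push Not at hcon
    exact h (funext hcon)
  unfold rdist
  refine Finset.sum_pos' (fun j _ => div_nonneg (abs_nonneg _) (by norm_num)) ⟨j, mem_univ j, ?_⟩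
  have : (x.1 i j : ℝ) - (y.1 i j : ℝ) ≠ 0 := by
    intro h0
    apply hj
    have : (x.1 i j : ℝ) = (y.1 i j : ℝ) := by linarith
    exact_mod_cast this
  exact div_pos (abs_pos.mpr this) (by norm_num)

theorem entry_le_col (i : Fin (k + 1)) (x : CT (k + 1) n r c) (j : Fin n) : x.1 i j ≤ c j := by
  have := col_split i x j
  omega

/-- A function of row `i` that changes by at most `B` under every unit move of row `i` is
`B`-Lipschitz for the number of unit moves of row `i`, provided every unit move towards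
another table can be made inside the tables. -/
theorem lip_of_step (i : Fin (k + 1)) (H : CT (k + 1) n r c → ℝ)
    (hH : ∀ x y : CT (k + 1) n r c, x.1 i = y.1 i → H x = H y) (B : ℝ)
    (hstep : ∀ (u v : Fin n), u ≠ v → ∀ x x' : CT (k + 1) n r c, x'.1 i u = x.1 i u + 1 →
      x.1 i v = x'.1 i v + 1 → (∀ j, j ≠ u → j ≠ v → x'.1 i j = x.1 i j) → |H x - H x'| ≤ B)
    (hex : ∀ (u v : Fin n), u ≠ v → ∀ x : CT (k + 1) n r c, 1 ≤ x.1 i v → x.1 i u < c u →
      ∃ x' : CT (k + 1) n r c, x'.1 i u = x.1 i u + 1 ∧ x.1 i v = x'.1 i v + 1 ∧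
        ∀ j, j ≠ u → j ≠ v → x'.1 i j = x.1 i j)
    (x y : CT (k + 1) n r c) : |H x - H y| ≤ B * rdist x.1 y.1 i := by
  rw [rdist_eq_exc]
  generalize he : exc (x.1 i) (y.1 i) = e
  induction e generalizing x with
  | zero =>
    have hle : ∀ j, x.1 i j ≤ y.1 i j := by
      intro j
      have h0 : x.1 i j - y.1 i j = 0 := by
        unfold exc at he
        exact (Finset.sum_eq_zero_iff.mp he) j (mem_univ j)
      omega
    have hs : ∑ j, x.1 i j = ∑ j, y.1 i j := by rw [x.2.1 i, y.2.1 i]
    have heq : x.1 i = y.1 i := by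
      funext j
      by_contra hne
      have hlt : x.1 i j < y.1 i j := lt_of_le_of_ne (hle j) hne
      have : ∑ j, x.1 i j < ∑ j, y.1 i j :=
        Finset.sum_lt_sum (fun j _ => hle j) ⟨j, mem_univ j, hlt⟩
      omega
    rw [hH x y heq, sub_self, abs_zero]
    simp
  | succ e ih =>
    have hs : ∑ j, x.1 i j = ∑ j, y.1 i j := by rw [x.2.1 i, y.2.1 i]
    obtain ⟨v, hv⟩ : ∃ v, y.1 i v < x.1 i v := by
      by_contra hcon
      push Not at hcon
      have : exc (x.1 i) (y.1 i) = 0 := by
        unfold exc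
        exact Finset.sum_eq_zero (fun j _ => Nat.sub_eq_zero_of_le (hcon j))
      omega
    obtain ⟨u, hu⟩ : ∃ u, x.1 i u < y.1 i u := by
      by_contra hcon
      push Not at hcon
      have : exc (y.1 i) (x.1 i) = 0 := by
        unfold exc
        exact Finset.sum_eq_zero (fun j _ => Nat.sub_eq_zero_of_le (hcon j))
      rw [exc_symm hs] at he
      omega
    have huv : u ≠ v := by
      intro h
      rw [h] at hu
      omega
    obtain ⟨x', h1, h2, h3⟩ := hex u v huv x (by omega)
      (lt_of_lt_of_le hu (entry_le_col i y u))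
    have hexc : exc (x'.1 i) (y.1 i) = e := by
      have hfun : (fun j => x'.1 i j - y.1 i j)
          = Function.update (fun j => x.1 i j - y.1 i j) v (x.1 i v - y.1 i v - 1) := by
        funext j
        by_cases hjv : j = v
        · subst hjv
          rw [Function.update_self]
          omega
        · rw [Function.update_of_ne hjv]
          by_cases hju : j = u
          · subst hju
            omega
          · rw [h3 j hju hjv]
      have hsum1 : exc (x'.1 i) (y.1 i)
          = (x.1 i v - y.1 i v - 1) + ∑ j ∈ univ \ {v}, (x.1 i j - y.1 i j) := by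
        unfold exc
        rw [hfun]
        exact Finset.sum_update_of_mem (mem_univ v) _ _
      have hsum2 : exc (x.1 i) (y.1 i)
          = (x.1 i v - y.1 i v) + ∑ j ∈ univ \ {v}, (x.1 i j - y.1 i j) := by
        unfold exc
        exact Finset.sum_eq_add_sum_sdiff_singleton_of_mem (mem_univ v) _
      omega
    have hstep1 := hstep u v huv x x' h1 h2 h3
    have hrest := ih x' hexc
    calc |H x - H y| ≤ |H x - H x'| + |H x' - H y| := abs_sub_le _ _ _
      _ ≤ B + B * (e : ℝ) := add_le_add hstep1 hrest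
      _ = B * ((e + 1 : ℕ) : ℝ) := by push_cast; ring

/-- The sum of a row after one unit move equals the sum before. -/
theorem sum_move (a b : Fin n → ℕ) (u v : Fin n)
    (key : ∀ j, a j + (if j = v then 1 else 0) = b j + (if j = u then 1 else 0)) :
    ∑ j, a j = ∑ j, b j := by
  have h : ∑ j, (a j + (if j = v then 1 else 0)) = ∑ j, (b j + (if j = u then 1 else 0)) :=
    Finset.sum_congr rfl (fun j _ => key j)
  rw [Finset.sum_add_distrib, Finset.sum_add_distrib, Finset.sum_ite_eq' univ v,
    Finset.sum_ite_eq' univ u] at h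
  simp only [mem_univ, if_true] at h
  omega

/-- Gluing: given a table `z'` of the other rows whose column sums are those of the other
rows of `x` with one unit moved from column `u` to column `v`, the table with row `i` equal
to row `i` of `x` plus `e_u - e_v` and the rows of `z'` elsewhere exists. -/
theorem glue_step (i : Fin (k + 1)) (u v : Fin n) (huv : u ≠ v) (x : CT (k + 1) n r c)
    (hv : 1 ≤ x.1 i v) (s' : Fin n → ℕ)
    (hs'v : s' v = (∑ a, x.1 (Fin.succAboveEmb i a) v) + 1)
    (hs'u : (∑ a, x.1 (Fin.succAboveEmb i a) u) = s' u + 1)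
    (hs' : ∀ j, j ≠ u → j ≠ v → s' j = ∑ a, x.1 (Fin.succAboveEmb i a) j)
    (z' : CT k n (r ∘ Fin.succAboveEmb i) s') :
    ∃ x' : CT (k + 1) n r c, x'.1 i u = x.1 i u + 1 ∧ x.1 i v = x'.1 i v + 1 ∧
      ∀ j, j ≠ u → j ≠ v → x'.1 i j = x.1 i j := by
  classical
  have hvu : v ≠ u := fun h => huv h.symm
  have hcol : ∀ j, x.1 i j + ∑ a, x.1 (Fin.succAboveEmb i a) j = c j := fun j => col_split i x j
  obtain ⟨a, ha⟩ : ∃ a : Fin n → ℕ,
      a = fun j => if j = u then x.1 i u + 1 else if j = v then x.1 i v - 1 else x.1 i j :=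
    ⟨_, rfl⟩
  have hau : a u = x.1 i u + 1 := by
    rw [ha]
    simp only [if_true]
  have hav : a v = x.1 i v - 1 := by
    rw [ha]
    simp only [if_neg hvu, if_true]
  have haj : ∀ j, j ≠ u → j ≠ v → a j = x.1 i j := by
    intro j hju hjv
    rw [ha]
    simp only [if_neg hju, if_neg hjv]
  have hrow : ∑ j, a j = r i := by
    rw [← x.2.1 i]
    apply sum_move a (x.1 i) u v
    intro j
    by_cases hju : j = u
    · subst hju
      rw [hau]
      simp only [if_neg huv, if_true]
    · by_cases hjv : j = v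
      · subst hjv
        rw [hav]
        simp only [if_neg hju, if_true]
        omega
      · rw [haj j hju hjv]
        simp only [if_neg hju, if_neg hjv]
  have hcol' : ∀ j, a j + s' j = c j := by
    intro j
    by_cases hju : j = u
    · subst hju
      have := hcol j
      rw [hau]
      omega
    · by_cases hjv : j = v
      · subst hjv
        have := hcol j
        rw [hav, hs'v]
        omega
      · rw [haj j hju hjv, hs' j hju hjv]
        exact hcol j
  obtain ⟨X, hX⟩ : ∃ X : Fin (k + 1) → Fin n → ℕ,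
      X = Fin.insertNth (α := fun _ => Fin n → ℕ) i a z'.1 := ⟨_, rfl⟩
  have hXi : X i = a := by
    rw [hX]
    exact Fin.insertNth_apply_same (α := fun _ => Fin n → ℕ) i a z'.1
  have hXs : ∀ b, X (i.succAbove b) = z'.1 b := by
    intro b
    rw [hX]
    exact Fin.insertNth_apply_succAbove (α := fun _ => Fin n → ℕ) i a z'.1 b
  have hXrow : ∀ i', ∑ j, X i' j = r i' := by
    intro i'
    rcases Fin.eq_self_or_eq_succAbove i i' with h | ⟨b, h⟩
    · rw [h, hXi]
      exact hrow
    · rw [h, hXs b]
      exact z'.2.1 b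
  have hXcol : ∀ j, ∑ i', X i' j = c j := by
    intro j
    rw [Fin.sum_univ_succAbove _ i, hXi]
    have h : ∑ b, X (i.succAbove b) j = s' j := by
      rw [← z'.2.2 j]
      exact Finset.sum_congr rfl (fun b _ => by rw [hXs b])
    rw [h]
    exact hcol' j
  refine ⟨⟨X, hXrow, hXcol⟩, ?_, ?_, ?_⟩
  · show X i u = x.1 i u + 1
    rw [hXi, hau]
  · show x.1 i v = X i v + 1
    rw [hXi, hav]
    omega
  · intro j hju hjv
    show X i j = x.1 i j
    rw [hXi, haj j hju hjv]

/-- The unit moves of row `i` can be made inside the tables (from the marginals of a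
coupling). -/
theorem exists_step (C : ℝ) (hW : WCouplingRows k n C) (i : Fin (k + 1)) (u v : Fin n)
    (huv : u ≠ v) (x : CT (k + 1) n r c) (hv : 1 ≤ x.1 i v) (hu : x.1 i u < c u) :
    ∃ x' : CT (k + 1) n r c, x'.1 i u = x.1 i u + 1 ∧ x.1 i v = x'.1 i v + 1 ∧
      ∀ j, j ≠ u → j ≠ v → x'.1 i j = x.1 i j := by
  set φ := Fin.succAboveEmb i with hφ
  set s : Fin n → ℕ := fun j => ∑ a, x.1 (φ a) j with hs
  have hsu : 1 ≤ s u := by
    have h1 : x.1 i u + s u = c u := col_split i x u
    omega
  have hk : 0 < k := by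
    rcases Nat.eq_zero_or_pos k with h0 | h0
    · exfalso
      subst h0
      have h2 : s u = 0 := Finset.sum_of_isEmpty _
      omega
    · exact h0
  set s' : Fin n → ℕ := Function.update (Function.update s v (s v + 1)) u (s u - 1) with hs'
  have e1 : s' v = s v + 1 := by
    rw [hs', Function.update_of_ne (Ne.symm huv), Function.update_self]
  have e2 : s u = s' u + 1 := by
    rw [hs', Function.update_self]
    omega
  have e3 : ∀ j, j ≠ v → j ≠ u → s' j = s j := by
    intro j hjv hju
    rw [hs', Function.update_of_ne hju, Function.update_of_ne hjv]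
  obtain ⟨γ, -, hγ1, -, -⟩ := hW (r ∘ φ) s s' v u (Ne.symm huv) e1 e2 e3
  have hpos := card_pos i x
  set z0 : CT k n (r ∘ φ) s :=
    ⟨fun a => x.1 (φ a), fun a => x.2.1 (φ a), fun j => rfl⟩ with hz0
  have hsum := hγ1 ⟨0, hk⟩ z0
  have hne : Nonempty (CT k n (r ∘ φ) s') := by
    by_contra hcon
    rw [not_nonempty_iff] at hcon
    rw [Finset.sum_of_isEmpty] at hsum
    have : (0 : ℝ) < 1 / (Fintype.card (CT k n (r ∘ φ) s) : ℝ) := one_div_pos.mpr hpos
    linarith
  obtain ⟨z'⟩ := hne
  exact glue_step i u v huv x hv s' e1 e2 (fun j hju hjv => e3 j hjv hju) z'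

end W1Rows

open W1Rows

/-- **The one-row bound from row-wise couplings.**  With `E i = R (univ.erase i)` the
conditional expectation given row `i` of a `(k + 1)`-row table:
`∑ i, E i ≤ (1 + C) + (k - C) mean`. -/
theorem rowSum_le_of_rowCoupling {k n : ℕ} (C : ℝ) (hC : 0 ≤ C) (hW : WCouplingRows k n C)
    (r : Fin (k + 1) → ℕ) (c : Fin n → ℕ) (f : CT (k + 1) n r c → ℝ) :
    ∑ i, ip f (R (univ.erase i) f) ≤ (1 + C) * ip f f + ((k : ℝ) - C) * ip f (R univ f) := by
  classical
  set T : (CT (k + 1) n r c → ℝ) →ₗ[ℝ] (CT (k + 1) n r c → ℝ) :=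
    ∑ i : Fin (k + 1), R (univ.erase i) - ((k : ℝ) - C) • R univ with hT
  have hTapp : ∀ g, T g = ∑ i : Fin (k + 1), R (univ.erase i) g - ((k : ℝ) - C) • R univ g := by
    intro g
    rw [hT, LinearMap.sub_apply, LinearMap.sum_apply, LinearMap.smul_apply]
  have hsymm : ∀ g h, ip g (T h) = ip (T g) h := by
    intro g h
    rw [hTapp, hTapp, ip_sub_right, ip_sub_left, ip_sum_right, ip_sum_left, ip_smul_right,
      ip_smul_left, R_symm]
    congr 1
    exact Finset.sum_congr rfl (fun i _ => R_symm _ g h)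
  have heig : ∀ (μ : ℝ) (F : CT (k + 1) n r c → ℝ), F ≠ 0 → T F = μ • F → μ ≤ 1 + C := by
    intro μ F hF0 hFμ
    by_contra hμ
    rw [not_le] at hμ
    -- the mean of F vanishes
    have h1 : R univ (T F) = (1 + C) • R univ F := by
      rw [hTapp, map_sub, map_sum, map_smul, R_idem]
      have h2 : ∀ i : Fin (k + 1), R univ (R (univ.erase i) F) = R univ F :=
        fun i => R_T_R_of_subset (subset_univ _) F
      rw [Finset.sum_congr rfl (fun i _ => h2 i), Finset.sum_const, Finset.card_univ,
        Fintype.card_fin, ← Nat.cast_smul_eq_nsmul ℝ, ← sub_smul]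
      congr 1
      push_cast
      ring
    have h3 : R univ (T F) = μ • R univ F := by rw [hFμ, map_smul]
    have hmean : R univ F = 0 := by
      have h4 : (μ - (1 + C)) • R univ F = 0 := by
        rw [sub_smul, ← h1, ← h3, sub_self]
      rcases smul_eq_zero.mp h4 with h5 | h5
      · exfalso
        linarith
      · exact h5
    have hsum : ∑ i : Fin (k + 1), R (univ.erase i) F = μ • F := by
      have := hTapp F
      rw [hmean, smul_zero, sub_zero] at this
      rw [← this, hFμ]
    have hμ1 : 0 < μ - 1 := by linarith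
    have hμ0 : μ ≠ 0 := by
      intro h
      rw [h] at hμ1
      linarith
    set A : Fin (k + 1) → CT (k + 1) n r c → ℝ := fun i => R (univ.erase i) F with hA
    have hArow : ∀ (i : Fin (k + 1)) (x y : CT (k + 1) n r c), x.1 i = y.1 i → A i x = A i y := by
      intro i x y hxy
      refine R_congr (univ.erase i) F (fun i' hi' => ?_)
      have : i' = i := by
        by_contra hne
        exact hi' (mem_erase.mpr ⟨hne, mem_univ _⟩)
      rw [this]
      exact hxy
    have hAeq : ∀ (i : Fin (k + 1)) (x : CT (k + 1) n r c),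
        (μ - 1) * A i x = ∑ l : Fin k, R (univ.erase i) (A (i.succAbove l)) x := by
      intro i x
      have h6 : R (univ.erase i) (∑ i' : Fin (k + 1), A i') = μ • A i := by
        have : (∑ i' : Fin (k + 1), A i') = μ • F := hsum
        rw [this, map_smul]
      rw [map_sum, Fin.sum_univ_succAbove _ i] at h6
      have h7 : R (univ.erase i) (A i) = A i := R_idem (univ.erase i) F
      rw [h7] at h6
      have h8 := congrFun h6 x
      simp only [Pi.add_apply, Finset.sum_apply, Pi.smul_apply, smul_eq_mul] at h8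
      linarith
    by_cases hconst : ∀ (i : Fin (k + 1)) (x y : CT (k + 1) n r c), A i x = A i y
    · -- all conditional expectations are constant, so F is constant, so F = 0
      have hFc : ∀ x y : CT (k + 1) n r c, F x = F y := by
        intro x y
        have hx := congrFun hsum x
        have hy := congrFun hsum y
        simp only [Finset.sum_apply, Pi.smul_apply, smul_eq_mul] at hx hy
        have h9 : ∑ i : Fin (k + 1), R (univ.erase i) F x = ∑ i : Fin (k + 1), R (univ.erase i) F y :=
          Finset.sum_congr rfl (fun i _ => hconst i x y)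
        have h10 : μ * F x = μ * F y := by rw [← hx, ← hy, h9]
        exact mul_left_cancel₀ hμ0 h10
      have h11 : R univ F = F := cexp_of_factor _ (fun x y _ => hFc x y)
      rw [hmean] at h11
      exact hF0 h11.symm
    · push Not at hconst
      obtain ⟨i1, x1, y1, h1ne⟩ := hconst
      set S : Finset (Fin (k + 1) × CT (k + 1) n r c × CT (k + 1) n r c) :=
        univ.filter (fun t => t.2.1.1 t.1 ≠ t.2.2.1 t.1) with hS
      set ρ : Fin (k + 1) × CT (k + 1) n r c × CT (k + 1) n r c → ℝ :=
        fun t => |A t.1 t.2.1 - A t.1 t.2.2| / rdist t.2.1.1 t.2.2.1 t.1 with hρ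
      have hmem1 : (i1, x1, y1) ∈ S := by
        rw [hS, mem_filter]
        exact ⟨mem_univ _, fun h => h1ne (hArow i1 x1 y1 h)⟩
      obtain ⟨t0, ht0S, ht0max⟩ := Finset.exists_max_image S ρ ⟨_, hmem1⟩
      set L : ℝ := ρ t0 with hLdef
      have hrows0 : t0.2.1.1 t0.1 ≠ t0.2.2.1 t0.1 := (mem_filter.mp ht0S).2
      have hd0 : 0 < rdist t0.2.1.1 t0.2.2.1 t0.1 := rdist_pos _ _ _ hrows0
      have hLpos : 0 < L := by
        have h12 : 0 < ρ (i1, x1, y1) := by
          simp only [hρ]
          exact div_pos (abs_pos.mpr (sub_ne_zero.mpr h1ne))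
            (rdist_pos i1 x1 y1 (fun h => h1ne (hArow i1 x1 y1 h)))
        exact lt_of_lt_of_le h12 (ht0max _ hmem1)
      have hLip : ∀ (i : Fin (k + 1)) (x y : CT (k + 1) n r c),
          |A i x - A i y| ≤ L * rdist x.1 y.1 i := by
        intro i x y
        by_cases hxy : x.1 i = y.1 i
        · rw [hArow i x y hxy, sub_self, abs_zero]
          exact mul_nonneg hLpos.le (rdist_nonneg _ _ _)
        · have hmem : (i, x, y) ∈ S := by
            rw [hS, mem_filter]
            exact ⟨mem_univ _, hxy⟩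
          have h13 := ht0max _ hmem
          simp only [hρ] at h13
          rw [div_le_iff₀ (rdist_pos i x y hxy)] at h13
          exact h13
      -- the Lipschitz constant contracts
      have hcontr : ∀ (i : Fin (k + 1)) (x y : CT (k + 1) n r c),
          |A i x - A i y| ≤ (L * C / (μ - 1)) * rdist x.1 y.1 i := by
        intro i
        refine lip_of_step i (A i) (hArow i) (L * C / (μ - 1)) ?_
          (fun u v huv x hv hu => exists_step C hW i u v huv x hv hu)
        intro u v huv x x' hu hv hj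
        have h14 := step_row C hW i u v huv x x' hu hv hj (fun l => A (i.succAbove l)) L
          hLpos.le (fun l w w' => hLip (i.succAbove l) w w')
        rw [Finset.sum_sub_distrib, ← hAeq i x, ← hAeq i x', ← mul_sub, abs_mul,
          abs_of_pos hμ1] at h14
        rw [le_div_iff₀ hμ1]
        linarith
      have h15 := hcontr t0.1 t0.2.1 t0.2.2
      have h16 : |A t0.1 t0.2.1 - A t0.1 t0.2.2| = L * rdist t0.2.1.1 t0.2.2.1 t0.1 := by
        rw [hLdef]
        simp only [hρ]
        field_simp
      rw [h16] at h15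
      have h17 : L ≤ L * C / (μ - 1) := le_of_mul_le_mul_right h15 hd0
      rw [le_div_iff₀ hμ1] at h17
      nlinarith
  have key := form_le_of_eigen T hsymm (1 + C) heig f
  rw [hTapp, ip_sub_right, ip_sum_right, ip_smul_right] at key
  linarith

/-- The one-row bound from a coupling of the tables. -/
theorem rowSum_le_of_coupling' {k n : ℕ} (C : ℝ) (hC : 0 ≤ C) (hW : WCoupling k n C)
    (r : Fin (k + 1) → ℕ) (c : Fin n → ℕ) (f : CT (k + 1) n r c → ℝ) :
    ∑ i, ip f (R (univ.erase i) f) ≤ (1 + C) * ip f f + ((k : ℝ) - C) * ip f (R univ f) :=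
  rowSum_le_of_rowCoupling C hC hW.rows r c f

end Vale.Agent.Lib.P328.RP
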