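import Mathlib
import Vale.Agent.Lib.P328.RP.RowRec
import Vale.Agent.Lib.P328.RP.W1Rows
import Vale.Agent.Lib.P328.RP.Gap22
import Vale.Agent.Lib.P328.RP.Mixing22

/-!
P328: from the coupling hypothesis to the mixing of the heat bath on two-by-two blocks.

If for every `k ≥ 2` the uniform laws on `k × n` tables whose column sums differ by one unit
move have a coupling with at most `C < 2` expected unit moves (`WCoupling k n C`), or only
row-wise couplings whose row costs add up to at most `C` (`WCouplingRows k n C`), then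

* on `(k + 1)`-row tables the conditional expectations given one row satisfy
  `∑ i, E i ≤ (1 + C) + (k - C) mean` (`rowSum_le_of_rowCoupling`, Lipschitz argument),
* the row-pair resamplings of `m × n` tables have Poincare constant at most `m / (2 - C)`
  (`rowPoinc_of_rowSum'`, recursion on the number of rows),
* the heat bath on two-by-two blocks has gap at least `(2 - C) / m` in the normalisation of
  `mixing22_of_gap`, and mixes in `m ^ 3 n ^ 2 / (2 - C) * (m n log (N + 1) + log (1 / ε))`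
  steps.
-/

namespace Vale.Agent.Lib.P328.RP

open Finset
open Vale.Agent.Lib.P335.Bip

/-- The row-wise coupling hypothesis for all numbers of rows gives the row Poincare
inequality. -/
theorem rowPoinc_of_rowCoupling {n : ℕ} (C : ℝ) (hC0 : 0 ≤ C) (hC2 : C < 2)
    (hW : ∀ k : ℕ, 2 ≤ k → WCouplingRows k n C) (m : ℕ) (hm : 2 ≤ m) :
    RowPoinc m n ((m : ℝ) / (2 - C)) :=
  rowPoinc_of_rowSum' C hC0 hC2
    (fun k hk r c f => rowSum_le_of_rowCoupling C hC0 (hW k hk) r c f) m hm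

/-- From the row Poincare inequality to the gap of the heat bath on two-by-two blocks. -/
theorem gap22_of_rowPoinc {m n : ℕ} (K : ℝ) (hK : 0 < K) (hP : RowPoinc m n K)
    (r : Fin m → ℕ) (c : Fin n → ℕ) (f : CT m n r c → ℝ) :
    (1 / K) * (ip f f - ip f (R univ f))
      ≤ ∑ p ∈ (univ : Finset (Fin m)).powersetCard 2,
          ∑ q ∈ (univ : Finset (Fin n)).powersetCard 2, (ip f f - ip f (E p q f)) := by
  have h1 := hP r c f
  have h2 : ∑ p ∈ (univ : Finset (Fin m)).powersetCard 2, (ip f f - ip f (R p f))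
      ≤ ∑ p ∈ (univ : Finset (Fin m)).powersetCard 2,
          ∑ q ∈ (univ : Finset (Fin n)).powersetCard 2, (ip f f - ip f (E p q f)) :=
    Finset.sum_le_sum (fun p hp => pair_block_gap p (Finset.mem_powersetCard.mp hp).2 f)
  rw [one_div, inv_mul_le_iff₀ hK]
  exact h1.trans (mul_le_mul_of_nonneg_left h2 hK.le)

/-- **Mixing of the heat bath on two-by-two blocks from the row-wise coupling hypothesis.** -/
theorem mixing22_of_rowCoupling {n : ℕ} (hn : 2 ≤ n) (C : ℝ) (hC0 : 0 ≤ C) (hC2 : C < 2)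
    (hW : ∀ k : ℕ, 2 ≤ k → WCouplingRows k n C) {m : ℕ} (hm : 2 ≤ m) (r : Fin m → ℕ)
    (c : Fin n → ℕ) (x : CT m n r c) (ε : ℝ) (hε : 0 < ε) (hε1 : ε ≤ 1) (t : ℕ)
    (ht : (m : ℝ) ^ 3 * (n : ℝ) ^ 2 / (2 - C) *
      (m * n * Real.log (((∑ i, r i : ℕ) : ℝ) + 1) + Real.log (1 / ε)) ≤ t) :
    (1 / 2) * ∑ y, |(heatBath22 m n r c ^ t) x y - 1 / (Fintype.card (CT m n r c) : ℝ)| ≤ ε := by
  have h2C : 0 < 2 - C := by linarith
  have hm0 : (0 : ℝ) < (m : ℝ) := by
    have : (2 : ℝ) ≤ (m : ℝ) := by exact_mod_cast hm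
    linarith
  have hm2 : (2 : ℝ) ≤ (m : ℝ) := by exact_mod_cast hm
  have hK : 0 < (m : ℝ) / (2 - C) := div_pos hm0 h2C
  have hκ : 1 / ((m : ℝ) / (2 - C)) = (2 - C) / (m : ℝ) := by
    rw [one_div, inv_div]
  refine mixing22_of_gap hm hn r c ((2 - C) / (m : ℝ)) (div_pos h2C hm0) ?_ ?_ x ε hε hε1 t ?_
  · rw [div_le_one hm0]
    linarith
  · intro f
    have := gap22_of_rowPoinc ((m : ℝ) / (2 - C)) hK (rowPoinc_of_rowCoupling C hC0 hC2 hW m hm)
      r c f
    rw [hκ] at this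
    exact this
  · have e : (m : ℝ) ^ 2 * (n : ℝ) ^ 2 / ((2 - C) / (m : ℝ))
        = (m : ℝ) ^ 3 * (n : ℝ) ^ 2 / (2 - C) := by
      field_simp
    rw [e]
    exact ht

/-- **Mixing of the heat bath on two-by-two blocks from the coupling hypothesis.** -/
theorem mixing22_of_coupling {n : ℕ} (hn : 2 ≤ n) (C : ℝ) (hC0 : 0 ≤ C) (hC2 : C < 2)
    (hW : ∀ k : ℕ, 2 ≤ k → WCoupling k n C) {m : ℕ} (hm : 2 ≤ m) (r : Fin m → ℕ)
    (c : Fin n → ℕ) (x : CT m n r c) (ε : ℝ) (hε : 0 < ε) (hε1 : ε ≤ 1) (t : ℕ)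
    (ht : (m : ℝ) ^ 3 * (n : ℝ) ^ 2 / (2 - C) *
      (m * n * Real.log (((∑ i, r i : ℕ) : ℝ) + 1) + Real.log (1 / ε)) ≤ t) :
    (1 / 2) * ∑ y, |(heatBath22 m n r c ^ t) x y - 1 / (Fintype.card (CT m n r c) : ℝ)| ≤ ε :=
  mixing22_of_rowCoupling hn C hC0 hC2 (fun k hk => (hW k hk).rows) hm r c x ε hε hε1 t ht

end Vale.Agent.Lib.P328.RP
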