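import Mathlib
import Vale.Agent.Lib.P328.RP.RowRec
import Vale.Agent.Lib.P328.RP.W1Rows
import Vale.Agent.Lib.P328.RP.MixingW

/-!
P328: the row recursion and the mixing theorem with coupling constants that depend on the
number of rows.

If for every `k ≥ 2` the row-wise coupling hypothesis `WCouplingRows k n (C k)` holds with
`1 ≤ C k < k`, then the row-pair resamplings of `m × n` tables have Poincare constant at most
`rowConst C m = ∏ k ∈ [2, m), (k - 1) / (k - C k)`, and the heat bath on two-by-two blocks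
mixes in `m ^ 2 n ^ 2 rowConst C m (m n log (N + 1) + log (1 / ε))` steps.  If moreover
`C k ≤ 2 - 1 / k` for all `k`, then `rowConst C m ≤ m - 1`.
-/

namespace Vale.Agent.Lib.P328.RP

open Finset
open Vale.Agent.Lib.P335.Bip

/-- The constant produced by the row recursion from the one-row constants `C k`. -/
noncomputable def rowConst (C : ℕ → ℝ) (m : ℕ) : ℝ :=
  ∏ k ∈ Finset.Ico 2 m, ((k : ℝ) - 1) / ((k : ℝ) - C k)

theorem rowConst_two (C : ℕ → ℝ) : rowConst C 2 = 1 := by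
  unfold rowConst
  simp

theorem rowConst_succ (C : ℕ → ℝ) {k : ℕ} (hk : 2 ≤ k) :
    rowConst C (k + 1) = rowConst C k * (((k : ℝ) - 1) / ((k : ℝ) - C k)) := by
  unfold rowConst
  rw [Finset.prod_Ico_succ_top hk]

/-- every factor is at least one when `1 ≤ C k < k` -/
theorem one_le_rowConst (C : ℕ → ℝ) (hC1 : ∀ k, 2 ≤ k → 1 ≤ C k) (hCk : ∀ k, 2 ≤ k → C k < k)
    (m : ℕ) : 1 ≤ rowConst C m := by
  unfold rowConst
  have h := Finset.prod_le_prod (s := Finset.Ico 2 m) (f := fun _ : ℕ => (1 : ℝ))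
    (g := fun k : ℕ => ((k : ℝ) - 1) / ((k : ℝ) - C k)) (fun _ _ => zero_le_one)
    (fun k hk => by
      have hk2 : 2 ≤ k := (Finset.mem_Ico.mp hk).1
      have h1 := hC1 k hk2
      have h2 := hCk k hk2
      rw [le_div_iff₀ (by linarith)]
      linarith)
  rw [Finset.prod_const_one] at h
  exact h

/-- if `C k ≤ 2 - 1 / k` then the recursion gives at most `m - 1` -/
theorem rowConst_le (C : ℕ → ℝ) (hC1 : ∀ k, 2 ≤ k → 1 ≤ C k)
    (hC : ∀ k, 2 ≤ k → C k ≤ 2 - 1 / (k : ℝ)) (m : ℕ) (hm : 2 ≤ m) :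
    rowConst C m ≤ (m : ℝ) - 1 := by
  induction m, hm using Nat.le_induction with
  | base =>
    rw [rowConst_two]
    norm_num
  | succ k hk ih =>
    rw [rowConst_succ C hk]
    have hk2 : (2 : ℝ) ≤ (k : ℝ) := by exact_mod_cast hk
    have hk0 : (0 : ℝ) < (k : ℝ) := by linarith
    have h1 := hC1 k hk
    have h2 := hC k hk
    have hinv : 1 / (k : ℝ) ≤ 1 / 2 := by
      rw [div_le_div_iff₀ hk0 (by norm_num)]
      linarith
    have hkinv : 0 < 1 / (k : ℝ) := by positivity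
    have hpos : 0 < (k : ℝ) - C k := by linarith
    have hk1 : (k : ℝ) - 1 ≠ 0 := ne_of_gt (by linarith)
    have hfac : ((k : ℝ) - 1) / ((k : ℝ) - C k) ≤ (k : ℝ) / ((k : ℝ) - 1) := by
      rw [div_le_div_iff₀ hpos (by linarith)]
      have h3 : (k : ℝ) * (1 / (k : ℝ)) = 1 := by field_simp
      nlinarith
    have h0 : 0 ≤ ((k : ℝ) - 1) / ((k : ℝ) - C k) := div_nonneg (by linarith) hpos.le
    calc rowConst C k * (((k : ℝ) - 1) / ((k : ℝ) - C k))
        ≤ ((k : ℝ) - 1) * (((k : ℝ) - 1) / ((k : ℝ) - C k)) :=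
          mul_le_mul_of_nonneg_right ih h0
      _ ≤ ((k : ℝ) - 1) * ((k : ℝ) / ((k : ℝ) - 1)) :=
          mul_le_mul_of_nonneg_left hfac (by linarith)
      _ = ((k + 1 : ℕ) : ℝ) - 1 := by
          rw [mul_div_assoc', mul_comm, mul_div_assoc, div_self hk1]
          push_cast
          ring

/-- **Row recursion with constants depending on the number of rows.** -/
theorem rowPoinc_of_rowSum_seq {n : ℕ} (C : ℕ → ℝ) (hCk : ∀ k, 2 ≤ k → C k < k)
    (hT : ∀ (k : ℕ), 2 ≤ k → ∀ (r : Fin (k + 1) → ℕ) (c : Fin n → ℕ)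
      (f : CT (k + 1) n r c → ℝ),
      ∑ i, ip f (R (univ.erase i) f)
        ≤ (1 + C k) * ip f f + ((k : ℝ) - C k) * ip f (R univ f))
    (m : ℕ) (hm : 2 ≤ m) : RowPoinc m n (rowConst C m) := by
  induction m, hm using Nat.le_induction with
  | base =>
    rw [rowConst_two]
    exact rowPoinc_two n
  | succ k hk ih =>
    have h := rowPoinc_succ (k := k) (n := n) (rowConst C k) (1 + C k)
      (by have := hCk k hk; linarith) ih
      (fun r c f => by
        have := hT k hk r c f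
        linarith)
    refine h.mono (le_of_eq ?_)
    rw [rowConst_succ C hk]
    have e : (k : ℝ) + 1 - (1 + C k) = (k : ℝ) - C k := by ring
    rw [e, mul_div_assoc]

/-- The row-wise coupling hypotheses with constants `C k < k` give the row Poincare
inequality with constant `rowConst C m`. -/
theorem rowPoinc_of_rowCoupling_seq {n : ℕ} (C : ℕ → ℝ) (hC0 : ∀ k, 2 ≤ k → 0 ≤ C k)
    (hCk : ∀ k, 2 ≤ k → C k < k) (hW : ∀ k : ℕ, 2 ≤ k → WCouplingRows k n (C k)) (m : ℕ)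
    (hm : 2 ≤ m) : RowPoinc m n (rowConst C m) :=
  rowPoinc_of_rowSum_seq C hCk
    (fun k hk r c f => rowSum_le_of_rowCoupling (C k) (hC0 k hk) (hW k hk) r c f) m hm

/-- **Mixing of the heat bath on two-by-two blocks from row-wise couplings with constants
depending on the number of rows.** -/
theorem mixing22_of_rowCoupling_seq {n : ℕ} (hn : 2 ≤ n) (C : ℕ → ℝ)
    (hC1 : ∀ k, 2 ≤ k → 1 ≤ C k) (hCk : ∀ k, 2 ≤ k → C k < k)
    (hW : ∀ k : ℕ, 2 ≤ k → WCouplingRows k n (C k)) {m : ℕ} (hm : 2 ≤ m) (r : Fin m → ℕ)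
    (c : Fin n → ℕ) (x : CT m n r c) (ε : ℝ) (hε : 0 < ε) (hε1 : ε ≤ 1) (t : ℕ)
    (ht : (m : ℝ) ^ 2 * (n : ℝ) ^ 2 * rowConst C m *
      (m * n * Real.log (((∑ i, r i : ℕ) : ℝ) + 1) + Real.log (1 / ε)) ≤ t) :
    (1 / 2) * ∑ y, |(heatBath22 m n r c ^ t) x y - 1 / (Fintype.card (CT m n r c) : ℝ)| ≤ ε := by
  have hK1 : 1 ≤ rowConst C m := one_le_rowConst C hC1 hCk m
  have hK : 0 < rowConst C m := by linarith
  refine mixing22_of_gap hm hn r c (1 / rowConst C m) (by positivity) ?_ ?_ x ε hε hε1 t ?_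
  · rw [div_le_one hK]
    exact hK1
  · intro f
    exact gap22_of_rowPoinc (rowConst C m) hK
      (rowPoinc_of_rowCoupling_seq C (fun k hk => by have := hC1 k hk; linarith) hCk hW m hm)
      r c f
  · have e : (m : ℝ) ^ 2 * (n : ℝ) ^ 2 / (1 / rowConst C m)
        = (m : ℝ) ^ 2 * (n : ℝ) ^ 2 * rowConst C m := by
      field_simp
    rw [e]
    exact ht

/-- **The sharp threshold.**  If `1 ≤ C k ≤ 2 - 1 / k` for every `k ≥ 2`, the heat bath on
two-by-two blocks mixes in `m ^ 3 n ^ 2 (m n log (N + 1) + log (1 / ε))` steps. -/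
theorem mixing22_of_rowCoupling_sharp {n : ℕ} (hn : 2 ≤ n) (C : ℕ → ℝ)
    (hC1 : ∀ k, 2 ≤ k → 1 ≤ C k) (hC : ∀ k, 2 ≤ k → C k ≤ 2 - 1 / (k : ℝ))
    (hW : ∀ k : ℕ, 2 ≤ k → WCouplingRows k n (C k)) {m : ℕ} (hm : 2 ≤ m) (r : Fin m → ℕ)
    (c : Fin n → ℕ) (x : CT m n r c) (ε : ℝ) (hε : 0 < ε) (hε1 : ε ≤ 1) (t : ℕ)
    (ht : (m : ℝ) ^ 3 * (n : ℝ) ^ 2 *
      (m * n * Real.log (((∑ i, r i : ℕ) : ℝ) + 1) + Real.log (1 / ε)) ≤ t) :
    (1 / 2) * ∑ y, |(heatBath22 m n r c ^ t) x y - 1 / (Fintype.card (CT m n r c) : ℝ)| ≤ ε := by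
  have hCk : ∀ k, 2 ≤ k → C k < k := by
    intro k hk
    have h1 := hC k hk
    have hk2 : (2 : ℝ) ≤ (k : ℝ) := by exact_mod_cast hk
    have h2 : 0 < 1 / (k : ℝ) := by positivity
    linarith
  refine mixing22_of_rowCoupling_seq hn C hC1 hCk hW hm r c x ε hε hε1 t (le_trans ?_ ht)
  have hK := rowConst_le C hC1 hC m hm
  have hm2 : (2 : ℝ) ≤ (m : ℝ) := by exact_mod_cast hm
  have hlog1 : 0 ≤ Real.log (((∑ i, r i : ℕ) : ℝ) + 1) :=
    Real.log_nonneg (by
      have : (0 : ℝ) ≤ ((∑ i, r i : ℕ) : ℝ) := Nat.cast_nonneg _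
      linarith)
  have hlog2 : 0 ≤ Real.log (1 / ε) := Real.log_nonneg (by
    rw [le_div_iff₀ hε]
    linarith)
  have hbr : 0 ≤ (m : ℝ) * n * Real.log (((∑ i, r i : ℕ) : ℝ) + 1) + Real.log (1 / ε) := by
    positivity
  have hmn : 0 ≤ (m : ℝ) ^ 2 * (n : ℝ) ^ 2 := by positivity
  have h1 : (m : ℝ) ^ 2 * (n : ℝ) ^ 2 * rowConst C m ≤ (m : ℝ) ^ 3 * (n : ℝ) ^ 2 := by
    have : (m : ℝ) ^ 2 * (n : ℝ) ^ 2 * rowConst C m ≤ (m : ℝ) ^ 2 * (n : ℝ) ^ 2 * (m : ℝ) :=
      mul_le_mul_of_nonneg_left (by linarith) hmn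
    nlinarith
  exact mul_le_mul_of_nonneg_right h1 hbr

/-- The constants `C 2 = c2` and `C k = 2` for `k ≥ 3`. -/
noncomputable def twoStep (c2 : ℝ) : ℕ → ℝ := fun k => if k = 2 then c2 else 2

/-- With `C 2 = c2 < 2` and `C k = 2` for `k ≥ 3` the recursion gives `(m - 2) / (2 - c2)`. -/
theorem rowConst_twoStep (c2 : ℝ) (h2 : c2 < 2) (m : ℕ) (hm : 3 ≤ m) :
    rowConst (twoStep c2) m = ((m : ℝ) - 2) / (2 - c2) := by
  have hpos : 0 < 2 - c2 := by linarith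
  induction m, hm using Nat.le_induction with
  | base =>
    rw [rowConst_succ (twoStep c2) (le_refl 2), rowConst_two]
    simp only [twoStep, if_true]
    norm_num
  | succ k hk ih =>
    rw [rowConst_succ (twoStep c2) (by omega), ih]
    have hk2 : k ≠ 2 := by omega
    simp only [twoStep, hk2, if_false]
    have hk3 : (3 : ℝ) ≤ (k : ℝ) := by exact_mod_cast hk
    have hne : (k : ℝ) - 2 ≠ 0 := ne_of_gt (by linarith)
    push_cast
    field_simp
    ring

/-- **Two-row constant below two, all other constants at most two.**  If the two-row tables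
have row-wise couplings with constant `c2 < 2` and the `k`-row tables, `k ≥ 3`, with constant
`2`, the heat bath on two-by-two blocks mixes in
`m ^ 3 n ^ 2 / (2 - c2) (m n log (N + 1) + log (1 / ε))` steps. -/
theorem mixing22_of_rowCoupling_two {n : ℕ} (hn : 2 ≤ n) (c2 : ℝ) (hc1 : 1 ≤ c2) (hc2 : c2 < 2)
    (hW2 : WCouplingRows 2 n c2) (hW : ∀ k : ℕ, 3 ≤ k → WCouplingRows k n 2) {m : ℕ}
    (hm : 2 ≤ m) (r : Fin m → ℕ) (c : Fin n → ℕ) (x : CT m n r c) (ε : ℝ) (hε : 0 < ε)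
    (hε1 : ε ≤ 1) (t : ℕ)
    (ht : (m : ℝ) ^ 3 * (n : ℝ) ^ 2 / (2 - c2) *
      (m * n * Real.log (((∑ i, r i : ℕ) : ℝ) + 1) + Real.log (1 / ε)) ≤ t) :
    (1 / 2) * ∑ y, |(heatBath22 m n r c ^ t) x y - 1 / (Fintype.card (CT m n r c) : ℝ)| ≤ ε := by
  have hpos : 0 < 2 - c2 := by linarith
  have hC1 : ∀ k, 2 ≤ k → 1 ≤ twoStep c2 k := by
    intro k _
    unfold twoStep
    split_ifs
    · exact hc1
    · norm_num
  have hCk : ∀ k, 2 ≤ k → twoStep c2 k < k := by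
    intro k hk
    unfold twoStep
    split_ifs with h
    · rw [h]
      push_cast
      exact hc2
    · have : 3 ≤ k := by omega
      have h3 : (3 : ℝ) ≤ (k : ℝ) := by exact_mod_cast this
      linarith
  have hWk : ∀ k : ℕ, 2 ≤ k → WCouplingRows k n (twoStep c2 k) := by
    intro k hk
    unfold twoStep
    split_ifs with h
    · rw [h]
      exact hW2
    · exact hW k (by omega)
  refine mixing22_of_rowCoupling_seq hn (twoStep c2) hC1 hCk hWk hm r c x ε hε hε1 t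
    (le_trans ?_ ht)
  have hm2 : (2 : ℝ) ≤ (m : ℝ) := by exact_mod_cast hm
  have hK : rowConst (twoStep c2) m ≤ (m : ℝ) / (2 - c2) := by
    rcases Nat.lt_or_ge m 3 with h | h
    · have hm2' : m = 2 := by omega
      subst hm2'
      rw [rowConst_two, le_div_iff₀ hpos]
      push_cast
      linarith
    · rw [rowConst_twoStep c2 hc2 m h]
      exact div_le_div_of_nonneg_right (by linarith) hpos.le
  have hlog1 : 0 ≤ Real.log (((∑ i, r i : ℕ) : ℝ) + 1) :=
    Real.log_nonneg (by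
      have : (0 : ℝ) ≤ ((∑ i, r i : ℕ) : ℝ) := Nat.cast_nonneg _
      linarith)
  have hlog2 : 0 ≤ Real.log (1 / ε) := Real.log_nonneg (by
    rw [le_div_iff₀ hε]
    linarith)
  have hbr : 0 ≤ (m : ℝ) * n * Real.log (((∑ i, r i : ℕ) : ℝ) + 1) + Real.log (1 / ε) := by
    positivity
  have hmn : 0 ≤ (m : ℝ) ^ 2 * (n : ℝ) ^ 2 := by positivity
  have h1 : (m : ℝ) ^ 2 * (n : ℝ) ^ 2 * rowConst (twoStep c2) m
      ≤ (m : ℝ) ^ 3 * (n : ℝ) ^ 2 / (2 - c2) := by
    have h2 : (m : ℝ) ^ 2 * (n : ℝ) ^ 2 * rowConst (twoStep c2) m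
        ≤ (m : ℝ) ^ 2 * (n : ℝ) ^ 2 * ((m : ℝ) / (2 - c2)) :=
      mul_le_mul_of_nonneg_left hK hmn
    have e : (m : ℝ) ^ 2 * (n : ℝ) ^ 2 * ((m : ℝ) / (2 - c2))
        = (m : ℝ) ^ 3 * (n : ℝ) ^ 2 / (2 - c2) := by
      field_simp
    rw [e] at h2
    exact h2
  exact mul_le_mul_of_nonneg_right h1 hbr

end Vale.Agent.Lib.P328.RP
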