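import Mathlib
import Vale.Agent.Lib.P328.RP.HubBridge

/-!
P328: zero-frame certificates for boxes with a reservoir column.

Let `c : Fin n → ℕ`, a level `q` and a column `j0` with `q + 1 ≤ c j0` and
`∑ l ≠ j0, c l ≤ q`.  Then every vertex of level `q` has its `j0`-edge upwards, every vertex
of level `q + 1` has its `j0`-edge downwards, and the level `q` is parametrised by the
coordinates off `j0`, which range over the full product `∏ l ≠ j0, [0, c l]`.

For a colour function `φ` with zero sum over the edges put `θ l = φ l / (c l + 1)` and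
`X u = ∑ l ≠ j0, θ l * (c l - u l)`.  The certificate is

* `Z1 u l = θ l * (c l - u l)`, `Z2 u l = θ l * (u l + 1)` for `l ≠ j0`,
* `Z1 u j0 = - X u`, `Z2 u j0 = φ j0 + X u`.

The lower sums of `Z1` vanish, the upper sums of `Z2` equal `φ j0 + ∑ l ≠ j0, θ l * c l`,
which is zero by the centring, and the sum of `Z1 * Z2` over the edges equals
`|box| * κ ^ 2 / 4 + ∑ l ≠ j0, θ l ^ 2 * N l * c l (c l + 1) (c l + 2) / 12 ≥ 0`
(`κ = ∑ l ≠ j0, θ l * c l`): the mixed terms cancel under the reflection of one coordinate.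

* `ResB.boxCert_reservoir` : the certificate.
* `ResB.resCert` : `ResCert n` for every `n`.
-/

namespace Vale.Agent.Lib.P328.RP

open Finset

namespace ResB

/-- marginal of a product set -/
theorem sum_piFinset_coord {n : ℕ} (t : Fin n → Finset ℕ) (l : Fin n) (g : ℕ → ℝ) :
    ∑ v ∈ Fintype.piFinset t, g (v l)
      = (∑ k ∈ t l, g k) * ∏ i ∈ univ.erase l, ((t i).card : ℝ) := by
  classical
  have h := Finset.prod_univ_sum t (fun i k => if i = l then g k else (1 : ℝ))
  have hR : ∀ x : Fin n → ℕ, ∏ i, (if i = l then g (x i) else (1 : ℝ)) = g (x l) := by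
    intro x
    rw [Finset.prod_ite_eq' univ l (fun i => g (x i))]
    simp
  have hL : ∏ i, ∑ k ∈ t i, (if i = l then g k else (1 : ℝ))
      = (∑ k ∈ t l, g k) * ∏ i ∈ univ.erase l, ((t i).card : ℝ) := by
    rw [← Finset.mul_prod_erase univ _ (Finset.mem_univ l)]
    congr 1
    · simp
    · refine Finset.prod_congr rfl (fun i hi => ?_)
      have hne : i ≠ l := Finset.ne_of_mem_erase hi
      simp [hne]
  rw [← hL, h]
  exact Finset.sum_congr rfl (fun x _ => (hR x).symm)

/-- reflection of one coordinate of a product set -/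
theorem sum_piFinset_refl {n : ℕ} (t : Fin n → Finset ℕ) (l : Fin n) (cl : ℕ)
    (ht : t l = range (cl + 1)) (f : (Fin n → ℕ) → ℝ)
    (hf : ∀ v ∈ Fintype.piFinset t, f (Function.update v l (cl - v l)) = - f v) :
    ∑ v ∈ Fintype.piFinset t, f v = 0 := by
  classical
  have hmem : ∀ v ∈ Fintype.piFinset t,
      Function.update v l (cl - v l) ∈ Fintype.piFinset t := by
    intro v hv
    rw [Fintype.mem_piFinset] at hv ⊢
    intro j
    by_cases hj : j = l
    · subst hj
      rw [Function.update_self, ht, Finset.mem_range]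
      omega
    · rw [Function.update_of_ne hj]
      exact hv j
  have hinv : ∀ v ∈ Fintype.piFinset t,
      Function.update (Function.update v l (cl - v l)) l
        (cl - (Function.update v l (cl - v l)) l) = v := by
    intro v hv
    rw [Fintype.mem_piFinset] at hv
    have hl := hv l
    rw [ht, Finset.mem_range] at hl
    rw [Function.update_self, Function.update_idem]
    have h2 : cl - (cl - v l) = v l := by omega
    rw [h2, Function.update_eq_self]
  have h := Finset.sum_nbij' (s := Fintype.piFinset t) (t := Fintype.piFinset t)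
    (f := fun v => f (Function.update v l (cl - v l))) (g := f)
    (fun v => Function.update v l (cl - v l)) (fun v => Function.update v l (cl - v l))
    hmem hmem hinv hinv (fun _ _ => rfl)
  have h3 : ∑ v ∈ Fintype.piFinset t, f (Function.update v l (cl - v l))
      = - ∑ v ∈ Fintype.piFinset t, f v := by
    rw [← Finset.sum_neg_distrib]
    exact Finset.sum_congr rfl hf
  linarith

/-- a one-variable polynomial sum -/
theorem sum_range_moment (a : ℝ) (m : ℕ) :
    ∑ k ∈ range m, ((a - k) * (k + 1) - (a / 2 - k) ^ 2)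
      = -((m : ℝ) * (m - 1) * (2 * m - 1)) / 3 + (2 * a - 1) * ((m : ℝ) * (m - 1)) / 2
        + m * (a - a ^ 2 / 4) := by
  induction m with
  | zero => simp
  | succ m ih =>
    rw [Finset.sum_range_succ, ih]
    push_cast
    ring

theorem moment_nonneg (c : ℕ) :
    0 ≤ ∑ k ∈ range (c + 1), (((c : ℝ) - k) * (k + 1) - ((c : ℝ) / 2 - k) ^ 2) := by
  rw [sum_range_moment]
  have h : -(((c + 1 : ℕ) : ℝ) * (((c + 1 : ℕ) : ℝ) - 1) * (2 * ((c + 1 : ℕ) : ℝ) - 1)) / 3
      + (2 * (c : ℝ) - 1) * (((c + 1 : ℕ) : ℝ) * (((c + 1 : ℕ) : ℝ) - 1)) / 2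
      + ((c + 1 : ℕ) : ℝ) * ((c : ℝ) - (c : ℝ) ^ 2 / 4)
      = (c : ℝ) * (c + 1) * (c + 2) / 12 := by
    push_cast
    ring
  rw [h]
  positivity


/-- the product parametrisation of a level: the hub coordinate is frozen at `0` -/
def tR {n : ℕ} (c : Fin n → ℕ) (j0 : Fin n) : Fin n → Finset ℕ :=
  fun j => if j = j0 then {0} else range (c j + 1)

/-- the vertex of level `q` with the given coordinates off the hub -/
def eR {n : ℕ} (q : ℕ) (j0 : Fin n) (v : Fin n → ℕ) : Fin n → ℕ :=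
  Function.update v j0 (q - ∑ l ∈ univ.erase j0, v l)

theorem mem_tR {n : ℕ} (c : Fin n → ℕ) (j0 : Fin n) (v : Fin n → ℕ) :
    v ∈ Fintype.piFinset (tR c j0) ↔ v j0 = 0 ∧ ∀ l, l ≠ j0 → v l ≤ c l := by
  rw [Fintype.mem_piFinset]
  constructor
  · intro h
    refine ⟨?_, fun l hl => ?_⟩
    · have := h j0
      unfold tR at this
      rw [if_pos rfl, Finset.mem_singleton] at this
      exact this
    · have := h l
      unfold tR at this
      rw [if_neg hl, Finset.mem_range] at this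
      omega
  · rintro ⟨h1, h2⟩ j
    unfold tR
    by_cases hj : j = j0
    · rw [if_pos hj, Finset.mem_singleton, hj]
      exact h1
    · rw [if_neg hj, Finset.mem_range]
      have := h2 j hj
      omega

theorem sum_erase_le {n : ℕ} (c : Fin n → ℕ) (j0 : Fin n) (v : Fin n → ℕ)
    (hv : ∀ l, l ≠ j0 → v l ≤ c l) :
    ∑ l ∈ univ.erase j0, v l ≤ ∑ l ∈ univ.erase j0, c l :=
  Finset.sum_le_sum (fun l hl => hv l (Finset.ne_of_mem_erase hl))

theorem eR_apply_ne {n : ℕ} (q : ℕ) (j0 : Fin n) (v : Fin n → ℕ) (l : Fin n) (hl : l ≠ j0) :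
    eR q j0 v l = v l := by
  unfold eR
  rw [Function.update_of_ne hl]

theorem eR_apply_self {n : ℕ} (q : ℕ) (j0 : Fin n) (v : Fin n → ℕ) :
    eR q j0 v j0 = q - ∑ l ∈ univ.erase j0, v l := by
  unfold eR
  rw [Function.update_self]

theorem eR_mem {n : ℕ} (c : Fin n → ℕ) (q : ℕ) (j0 : Fin n) (h0 : q + 1 ≤ c j0)
    (h1 : ∑ l ∈ univ.erase j0, c l ≤ q) (v : Fin n → ℕ)
    (hv : v ∈ Fintype.piFinset (tR c j0)) : eR q j0 v ∈ Lev c q := by
  rw [mem_tR] at hv
  have hs := sum_erase_le c j0 v hv.2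
  rw [mem_Lev]
  constructor
  · intro j
    by_cases hj : j = j0
    · rw [hj, eR_apply_self]
      omega
    · rw [eR_apply_ne q j0 v j hj]
      exact hv.2 j hj
  · rw [← Finset.add_sum_erase univ _ (Finset.mem_univ j0), eR_apply_self]
    have h2 : ∑ l ∈ univ.erase j0, eR q j0 v l = ∑ l ∈ univ.erase j0, v l :=
      Finset.sum_congr rfl (fun l hl => eR_apply_ne q j0 v l (Finset.ne_of_mem_erase hl))
    rw [h2]
    omega

/-- reindexing a level by the coordinates off the hub -/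
theorem sum_Lev_eq {n : ℕ} (c : Fin n → ℕ) (q : ℕ) (j0 : Fin n) (h0 : q + 1 ≤ c j0)
    (h1 : ∑ l ∈ univ.erase j0, c l ≤ q) (F : (Fin n → ℕ) → ℝ) :
    ∑ u ∈ Lev c q, F u = ∑ v ∈ Fintype.piFinset (tR c j0), F (eR q j0 v) := by
  classical
  have hleft : ∀ u ∈ Lev c q, eR q j0 (Function.update u j0 0) = u := by
    intro u hu
    rw [mem_Lev] at hu
    have hsum := Finset.add_sum_erase univ u (Finset.mem_univ j0)
    have h2 : ∑ l ∈ univ.erase j0, Function.update u j0 0 l = ∑ l ∈ univ.erase j0, u l :=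
      Finset.sum_congr rfl
        (fun l hl => Function.update_of_ne (Finset.ne_of_mem_erase hl) _ _)
    funext j
    by_cases hj : j = j0
    · rw [hj, eR_apply_self, h2]
      omega
    · rw [eR_apply_ne q j0 _ j hj, Function.update_of_ne hj]
  refine Finset.sum_nbij' (fun u => Function.update u j0 0) (eR q j0) ?_ ?_ hleft ?_ ?_
  · intro u hu
    rw [mem_Lev] at hu
    rw [mem_tR]
    refine ⟨Function.update_self _ _ _, fun l hl => ?_⟩
    rw [Function.update_of_ne hl]
    exact hu.1 l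
  · exact fun v hv => eR_mem c q j0 h0 h1 v hv
  · intro v hv
    rw [mem_tR] at hv
    funext j
    by_cases hj : j = j0
    · rw [hj, Function.update_self]
      exact hv.1.symm
    · rw [Function.update_of_ne hj, eR_apply_ne q j0 v j hj]
  · intro u hu
    rw [hleft u hu]


/-- the slope of the colour `l` -/
noncomputable def thR {n : ℕ} (c : Fin n → ℕ) (φ : Fin n → ℝ) (l : Fin n) : ℝ :=
  φ l / ((c l : ℝ) + 1)

/-- the load carried by the hub edge at the vertex `u` -/
noncomputable def XR {n : ℕ} (c : Fin n → ℕ) (φ : Fin n → ℝ) (j0 : Fin n)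
    (u : Fin n → ℕ) : ℝ :=
  ∑ l ∈ univ.erase j0, thR c φ l * ((c l : ℝ) - u l)

/-- the lower part of the certificate -/
noncomputable def Z1R {n : ℕ} (c : Fin n → ℕ) (φ : Fin n → ℝ) (j0 : Fin n)
    (u : Fin n → ℕ) (j : Fin n) : ℝ :=
  if j = j0 then - XR c φ j0 u else thR c φ j * ((c j : ℝ) - u j)

/-- the upper part of the certificate -/
noncomputable def Z2R {n : ℕ} (c : Fin n → ℕ) (φ : Fin n → ℝ) (j0 : Fin n)
    (u : Fin n → ℕ) (j : Fin n) : ℝ :=
  if j = j0 then φ j0 + XR c φ j0 u else thR c φ j * ((u j : ℝ) + 1)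

theorem Z_add {n : ℕ} (c : Fin n → ℕ) (φ : Fin n → ℝ) (j0 : Fin n) (u : Fin n → ℕ)
    (j : Fin n) : Z1R c φ j0 u j + Z2R c φ j0 u j = φ j := by
  unfold Z1R Z2R
  by_cases hj : j = j0
  · rw [if_pos hj, if_pos hj, hj]
    ring
  · rw [if_neg hj, if_neg hj]
    unfold thR
    have hpos : (c j : ℝ) + 1 ≠ 0 := by positivity
    have h : φ j / ((c j : ℝ) + 1) * ((c j : ℝ) - u j) + φ j / ((c j : ℝ) + 1) * ((u j : ℝ) + 1)
        = φ j / ((c j : ℝ) + 1) * ((c j : ℝ) + 1) := by ring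
    rw [h, div_mul_cancel₀ _ hpos]

theorem Z1_lower {n : ℕ} (c : Fin n → ℕ) (φ : Fin n → ℝ) (j0 : Fin n) (u : Fin n → ℕ)
    (hu : ∀ j, u j ≤ c j) (hj0 : u j0 < c j0) :
    ∑ j ∈ univ.filter (fun j => u j < c j), Z1R c φ j0 u j = 0 := by
  classical
  rw [Finset.sum_filter]
  have h1 : ∀ j, (if u j < c j then Z1R c φ j0 u j else 0) = Z1R c φ j0 u j := by
    intro j
    by_cases hlt : u j < c j
    · rw [if_pos hlt]
    · rw [if_neg hlt]
      have hne : j ≠ j0 := fun h => hlt (h ▸ hj0)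
      have heq : u j = c j := le_antisymm (hu j) (not_lt.mp hlt)
      unfold Z1R
      rw [if_neg hne, heq, sub_self, mul_zero]
  rw [Finset.sum_congr rfl (fun j _ => h1 j), ← Finset.add_sum_erase univ _ (Finset.mem_univ j0)]
  have h2 : ∑ l ∈ univ.erase j0, Z1R c φ j0 u l = XR c φ j0 u := by
    unfold XR
    refine Finset.sum_congr rfl (fun l hl => ?_)
    unfold Z1R
    rw [if_neg (Finset.ne_of_mem_erase hl)]
  rw [h2]
  unfold Z1R
  rw [if_pos rfl]
  ring

theorem Z2_upper {n : ℕ} (c : Fin n → ℕ) (φ : Fin n → ℝ) (j0 : Fin n) (y : Fin n → ℕ)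
    (hj0 : 1 ≤ y j0) :
    ∑ j ∈ univ.filter (fun j => 1 ≤ y j), Z2R c φ j0 (Function.update y j (y j - 1)) j
      = φ j0 + ∑ l ∈ univ.erase j0, thR c φ l * (c l : ℝ) := by
  classical
  rw [Finset.sum_filter, ← Finset.add_sum_erase univ _ (Finset.mem_univ j0), if_pos hj0]
  have h1 : Z2R c φ j0 (Function.update y j0 (y j0 - 1)) j0
      = φ j0 + ∑ l ∈ univ.erase j0, thR c φ l * ((c l : ℝ) - y l) := by
    unfold Z2R XR
    rw [if_pos rfl]
    congr 1
    refine Finset.sum_congr rfl (fun l hl => ?_)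
    rw [Function.update_of_ne (Finset.ne_of_mem_erase hl)]
  have h2 : ∑ l ∈ univ.erase j0,
      (if 1 ≤ y l then Z2R c φ j0 (Function.update y l (y l - 1)) l else 0)
      = ∑ l ∈ univ.erase j0, thR c φ l * (y l : ℝ) := by
    refine Finset.sum_congr rfl (fun l hl => ?_)
    have hne := Finset.ne_of_mem_erase hl
    by_cases h1l : 1 ≤ y l
    · rw [if_pos h1l]
      unfold Z2R
      rw [if_neg hne, Function.update_self, Nat.cast_sub h1l, Nat.cast_one]
      ring
    · rw [if_neg h1l]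
      have hz : y l = 0 := by omega
      rw [hz, Nat.cast_zero, mul_zero]
  rw [h1, h2, add_assoc, ← Finset.sum_add_distrib]
  congr 1
  refine Finset.sum_congr rfl (fun l _ => ?_)
  ring

theorem card_pos_tR {n : ℕ} (c : Fin n → ℕ) (j0 : Fin n) :
    0 < ((Fintype.piFinset (tR c j0)).card : ℝ) := by
  have hne : (Fintype.piFinset (tR c j0)).Nonempty :=
    ⟨fun _ => 0, (mem_tR c j0 _).mpr ⟨rfl, fun l _ => Nat.zero_le _⟩⟩
  exact_mod_cast Finset.card_pos.mpr hne

/-- the number of ways to fill the coordinates other than `l` -/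
noncomputable def NR {n : ℕ} (c : Fin n → ℕ) (j0 l : Fin n) : ℝ :=
  ∏ i ∈ univ.erase l, ((tR c j0 i).card : ℝ)

theorem NR_nonneg {n : ℕ} (c : Fin n → ℕ) (j0 l : Fin n) : 0 ≤ NR c j0 l :=
  Finset.prod_nonneg (fun _ _ => Nat.cast_nonneg _)

theorem tR_ne {n : ℕ} (c : Fin n → ℕ) (j0 l : Fin n) (hl : l ≠ j0) :
    tR c j0 l = range (c l + 1) := by
  unfold tR
  rw [if_neg hl]

theorem sum_tR_coord {n : ℕ} (c : Fin n → ℕ) (j0 l : Fin n) (hl : l ≠ j0) (g : ℕ → ℝ) :
    ∑ v ∈ Fintype.piFinset (tR c j0), g (v l)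
      = (∑ k ∈ range (c l + 1), g k) * NR c j0 l := by
  rw [sum_piFinset_coord, tR_ne c j0 l hl]
  rfl

theorem card_tR {n : ℕ} (c : Fin n → ℕ) (j0 l : Fin n) (hl : l ≠ j0) :
    ((Fintype.piFinset (tR c j0)).card : ℝ) = ((c l : ℝ) + 1) * NR c j0 l := by
  have h := sum_tR_coord c j0 l hl (fun _ => (1 : ℝ))
  rw [Finset.sum_const, Finset.sum_const, Finset.card_range, nsmul_eq_mul, nsmul_eq_mul,
    mul_one, mul_one] at h
  rw [h]
  push_cast
  ring

/-- the centring of the colour function in terms of the slopes -/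
theorem kappa_eq {n : ℕ} (c : Fin n → ℕ) (q : ℕ) (j0 : Fin n) (h0 : q + 1 ≤ c j0)
    (h1 : ∑ l ∈ univ.erase j0, c l ≤ q) (φ : Fin n → ℝ)
    (hφ : ∑ u ∈ Lev c q, ∑ j ∈ univ.filter (fun j : Fin n => u j < c j), φ j = 0) :
    φ j0 + ∑ l ∈ univ.erase j0, thR c φ l * (c l : ℝ) = 0 := by
  classical
  rw [sum_Lev_eq c q j0 h0 h1] at hφ
  have hpt : ∀ v ∈ Fintype.piFinset (tR c j0),
      ∑ j ∈ univ.filter (fun j : Fin n => eR q j0 v j < c j), φ j
        = φ j0 + ∑ l ∈ univ.erase j0, (if v l < c l then φ l else 0) := by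
    intro v hv
    rw [mem_tR] at hv
    have hs := sum_erase_le c j0 v hv.2
    rw [Finset.sum_filter, ← Finset.add_sum_erase univ _ (Finset.mem_univ j0)]
    have hlt : eR q j0 v j0 < c j0 := by
      rw [eR_apply_self]
      omega
    rw [if_pos hlt]
    congr 1
    refine Finset.sum_congr rfl (fun l hl => ?_)
    rw [eR_apply_ne q j0 v l (Finset.ne_of_mem_erase hl)]
  rw [Finset.sum_congr rfl hpt, Finset.sum_add_distrib, Finset.sum_const, nsmul_eq_mul,
    Finset.sum_comm] at hφ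
  have hl : ∀ l ∈ univ.erase j0,
      ∑ v ∈ Fintype.piFinset (tR c j0), (if v l < c l then φ l else 0)
        = ((Fintype.piFinset (tR c j0)).card : ℝ) * (thR c φ l * (c l : ℝ)) := by
    intro l hl
    have hne := Finset.ne_of_mem_erase hl
    rw [sum_tR_coord c j0 l hne (fun k => if k < c l then φ l else 0), card_tR c j0 l hne]
    have hs : ∑ k ∈ range (c l + 1), (if k < c l then φ l else 0) = (c l : ℝ) * φ l := by
      rw [Finset.sum_range_succ, if_neg (lt_irrefl _), add_zero,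
        Finset.sum_congr rfl (fun k hk => if_pos (Finset.mem_range.mp hk)),
        Finset.sum_const, Finset.card_range, nsmul_eq_mul]
    rw [hs]
    unfold thR
    have hpos : (c l : ℝ) + 1 ≠ 0 := by positivity
    field_simp
  rw [Finset.sum_congr rfl hl, ← Finset.mul_sum, ← mul_add] at hφ
  exact (mul_eq_zero.mp hφ).resolve_left (ne_of_gt (card_pos_tR c j0))


theorem XR_eR {n : ℕ} (c : Fin n → ℕ) (φ : Fin n → ℝ) (q : ℕ) (j0 : Fin n) (v : Fin n → ℕ) :
    XR c φ j0 (eR q j0 v) = XR c φ j0 v := by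
  unfold XR
  refine Finset.sum_congr rfl (fun l hl => ?_)
  rw [eR_apply_ne q j0 v l (Finset.ne_of_mem_erase hl)]

/-- the cross term at one vertex -/
theorem cross_point {n : ℕ} (c : Fin n → ℕ) (q : ℕ) (j0 : Fin n) (h0 : q + 1 ≤ c j0)
    (h1 : ∑ l ∈ univ.erase j0, c l ≤ q) (φ : Fin n → ℝ) (v : Fin n → ℕ)
    (hv : v ∈ Fintype.piFinset (tR c j0)) :
    ∑ j ∈ univ.filter (fun j : Fin n => eR q j0 v j < c j),
        Z1R c φ j0 (eR q j0 v) j * Z2R c φ j0 (eR q j0 v) j
      = ∑ l ∈ univ.erase j0, thR c φ l ^ 2 * (((c l : ℝ) - v l) * ((v l : ℝ) + 1))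
        - XR c φ j0 v * (φ j0 + XR c φ j0 v) := by
  classical
  rw [mem_tR] at hv
  have hs := sum_erase_le c j0 v hv.2
  rw [Finset.sum_filter, ← Finset.add_sum_erase univ _ (Finset.mem_univ j0)]
  have hlt : eR q j0 v j0 < c j0 := by
    rw [eR_apply_self]
    omega
  rw [if_pos hlt]
  have hA : Z1R c φ j0 (eR q j0 v) j0 * Z2R c φ j0 (eR q j0 v) j0
      = - (XR c φ j0 v * (φ j0 + XR c φ j0 v)) := by
    unfold Z1R Z2R
    rw [if_pos rfl, if_pos rfl, XR_eR]
    ring
  have hB : ∑ l ∈ univ.erase j0,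
      (if eR q j0 v l < c l then Z1R c φ j0 (eR q j0 v) l * Z2R c φ j0 (eR q j0 v) l else 0)
      = ∑ l ∈ univ.erase j0, thR c φ l ^ 2 * (((c l : ℝ) - v l) * ((v l : ℝ) + 1)) := by
    refine Finset.sum_congr rfl (fun l hl => ?_)
    have hne := Finset.ne_of_mem_erase hl
    rw [eR_apply_ne q j0 v l hne]
    by_cases hlt' : v l < c l
    · rw [if_pos hlt']
      unfold Z1R Z2R
      rw [if_neg hne, if_neg hne, eR_apply_ne q j0 v l hne]
      ring
    · rw [if_neg hlt']
      have heq : v l = c l := le_antisymm (hv.2 l hne) (not_lt.mp hlt')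
      rw [heq, sub_self, zero_mul, mul_zero]
  rw [hA, hB]
  ring

/-- the square of the centred load: the mixed terms cancel -/
theorem sum_D_sq {n : ℕ} (c : Fin n → ℕ) (j0 : Fin n) (θ : Fin n → ℝ) :
    ∑ v ∈ Fintype.piFinset (tR c j0),
        (∑ l ∈ univ.erase j0, θ l * ((c l : ℝ) / 2 - v l)) ^ 2
      = ∑ l ∈ univ.erase j0,
          θ l ^ 2 * ∑ v ∈ Fintype.piFinset (tR c j0), ((c l : ℝ) / 2 - v l) ^ 2 := by
  classical
  have hcross : ∀ l ∈ univ.erase j0, ∀ l' ∈ univ.erase j0, l' ≠ l →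
      ∑ v ∈ Fintype.piFinset (tR c j0),
        ((c l : ℝ) / 2 - v l) * ((c l' : ℝ) / 2 - v l') = 0 := by
    intro l hl l' _ hne
    have hlne := Finset.ne_of_mem_erase hl
    refine sum_piFinset_refl (tR c j0) l (c l) (tR_ne c j0 l hlne) _ (fun v hv => ?_)
    rw [mem_tR] at hv
    have hle := hv.2 l hlne
    rw [Function.update_self, Function.update_of_ne hne, Nat.cast_sub hle]
    ring
  calc ∑ v ∈ Fintype.piFinset (tR c j0),
        (∑ l ∈ univ.erase j0, θ l * ((c l : ℝ) / 2 - v l)) ^ 2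
      = ∑ v ∈ Fintype.piFinset (tR c j0), ∑ l ∈ univ.erase j0, ∑ l' ∈ univ.erase j0,
          (θ l * θ l') * (((c l : ℝ) / 2 - v l) * ((c l' : ℝ) / 2 - v l')) := by
        refine Finset.sum_congr rfl (fun v _ => ?_)
        rw [sq, Finset.sum_mul_sum]
        refine Finset.sum_congr rfl (fun l _ => Finset.sum_congr rfl (fun l' _ => ?_))
        ring
    _ = ∑ l ∈ univ.erase j0, ∑ l' ∈ univ.erase j0,
          (θ l * θ l') * ∑ v ∈ Fintype.piFinset (tR c j0),
            (((c l : ℝ) / 2 - v l) * ((c l' : ℝ) / 2 - v l')) := by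
        rw [Finset.sum_comm]
        refine Finset.sum_congr rfl (fun l _ => ?_)
        rw [Finset.sum_comm]
        refine Finset.sum_congr rfl (fun l' _ => ?_)
        rw [Finset.mul_sum]
    _ = ∑ l ∈ univ.erase j0,
          θ l ^ 2 * ∑ v ∈ Fintype.piFinset (tR c j0), ((c l : ℝ) / 2 - v l) ^ 2 := by
        refine Finset.sum_congr rfl (fun l hl => ?_)
        rw [Finset.sum_eq_single l]
        · rw [sq]
          congr 1
          refine Finset.sum_congr rfl (fun v _ => ?_)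
          rw [sq]
        · intro l' hl' hne
          rw [hcross l hl l' hl' hne, mul_zero]
        · intro h
          exact absurd hl h

/-- the cross term of the certificate is nonnegative -/
theorem cross_nonneg {n : ℕ} (c : Fin n → ℕ) (q : ℕ) (j0 : Fin n) (h0 : q + 1 ≤ c j0)
    (h1 : ∑ l ∈ univ.erase j0, c l ≤ q) (φ : Fin n → ℝ)
    (hκ : φ j0 + ∑ l ∈ univ.erase j0, thR c φ l * (c l : ℝ) = 0) :
    0 ≤ ∑ u ∈ Lev c q, ∑ j ∈ univ.filter (fun j : Fin n => u j < c j),
      Z1R c φ j0 u j * Z2R c φ j0 u j := by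
  classical
  rw [sum_Lev_eq c q j0 h0 h1]
  have hpt : ∀ v ∈ Fintype.piFinset (tR c j0),
      ∑ j ∈ univ.filter (fun j : Fin n => eR q j0 v j < c j),
        Z1R c φ j0 (eR q j0 v) j * Z2R c φ j0 (eR q j0 v) j
      = (∑ l ∈ univ.erase j0, thR c φ l ^ 2 * (((c l : ℝ) - v l) * ((v l : ℝ) + 1))
          + (∑ l ∈ univ.erase j0, thR c φ l * (c l : ℝ)) ^ 2 / 4)
        - (∑ l ∈ univ.erase j0, thR c φ l * ((c l : ℝ) / 2 - v l)) ^ 2 := by
    intro v hv
    rw [cross_point c q j0 h0 h1 φ v hv]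
    have hX : XR c φ j0 v = (∑ l ∈ univ.erase j0, thR c φ l * (c l : ℝ)) / 2
        + ∑ l ∈ univ.erase j0, thR c φ l * ((c l : ℝ) / 2 - v l) := by
      unfold XR
      rw [Finset.sum_div, ← Finset.sum_add_distrib]
      refine Finset.sum_congr rfl (fun l _ => ?_)
      ring
    have hφ0 : φ j0 = - ∑ l ∈ univ.erase j0, thR c φ l * (c l : ℝ) := by linarith
    rw [hX, hφ0]
    ring
  rw [Finset.sum_congr rfl hpt, Finset.sum_sub_distrib, Finset.sum_add_distrib, sum_D_sq,
    Finset.sum_comm, Finset.sum_const, nsmul_eq_mul]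
  have hkey : ∀ l ∈ univ.erase j0,
      0 ≤ thR c φ l ^ 2 * (∑ v ∈ Fintype.piFinset (tR c j0),
        (((c l : ℝ) - v l) * ((v l : ℝ) + 1) - ((c l : ℝ) / 2 - v l) ^ 2)) := by
    intro l hl
    have hne := Finset.ne_of_mem_erase hl
    rw [sum_tR_coord c j0 l hne (fun k => ((c l : ℝ) - k) * ((k : ℝ) + 1) - ((c l : ℝ) / 2 - k) ^ 2)]
    exact mul_nonneg (sq_nonneg _) (mul_nonneg (moment_nonneg (c l)) (NR_nonneg c j0 l))
  have hsum := Finset.sum_nonneg hkey
  have hrew : ∑ l ∈ univ.erase j0, thR c φ l ^ 2 * (∑ v ∈ Fintype.piFinset (tR c j0),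
        (((c l : ℝ) - v l) * ((v l : ℝ) + 1) - ((c l : ℝ) / 2 - v l) ^ 2))
      = ∑ l ∈ univ.erase j0, ∑ v ∈ Fintype.piFinset (tR c j0),
          thR c φ l ^ 2 * (((c l : ℝ) - v l) * ((v l : ℝ) + 1))
        - ∑ l ∈ univ.erase j0, thR c φ l ^ 2 *
            ∑ v ∈ Fintype.piFinset (tR c j0), ((c l : ℝ) / 2 - v l) ^ 2 := by
    rw [← Finset.sum_sub_distrib]
    refine Finset.sum_congr rfl (fun l _ => ?_)
    rw [Finset.sum_sub_distrib, mul_sub, Finset.mul_sum]
  rw [hrew] at hsum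
  have hc := card_pos_tR c j0
  have hsq : 0 ≤ ((Fintype.piFinset (tR c j0)).card : ℝ)
      * ((∑ l ∈ univ.erase j0, thR c φ l * (c l : ℝ)) ^ 2 / 4) :=
    mul_nonneg hc.le (by positivity)
  linarith

/-- the certificate for a box with a reservoir column -/
theorem boxCert_reservoir {n : ℕ} (c : Fin n → ℕ) (q : ℕ) (j0 : Fin n) (h0 : q + 1 ≤ c j0)
    (h1 : ∑ l ∈ univ.erase j0, c l ≤ q) (φ : Fin n → ℝ)
    (hφ : ∑ u ∈ Lev c q, ∑ j ∈ univ.filter (fun j : Fin n => u j < c j), φ j = 0) :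
    BoxCert c q φ 0 0 := by
  classical
  have hκ := kappa_eq c q j0 h0 h1 φ hφ
  refine ⟨Z1R c φ j0, Z2R c φ j0, ?_, ?_, ?_, cross_nonneg c q j0 h0 h1 φ hκ⟩
  · exact fun u _ j _ => Z_add c φ j0 u j
  · intro u hu
    rw [mem_Lev] at hu
    have hle : u j0 ≤ ∑ j, u j :=
      Finset.single_le_sum (fun _ _ => Nat.zero_le _) (Finset.mem_univ j0)
    exact Z1_lower c φ j0 u hu.1 (by omega)
  · intro y hy
    rw [mem_Lev] at hy
    have hsum := Finset.add_sum_erase univ y (Finset.mem_univ j0)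
    have hs := sum_erase_le c j0 y (fun l _ => hy.1 l)
    rw [Z2_upper c φ j0 y (by omega)]
    exact hκ

end ResB

/-- Every box with a reservoir column has zero-frame certificates for all centred colour
functions. -/
theorem ResB.resCert (n : ℕ) : ResCert n :=
  fun c q j0 h0 h1 φ hφ => ResB.boxCert_reservoir c q j0 h0 h1 φ hφ


end Vale.Agent.Lib.P328.RP
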