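import Mathlib
import Vale.Agent.Lib.P335.helper26.Abstract

/-!
P328: three conditional expectations, two of them exchanged by an involution.

Let `τ` be an involution of a finite set `Ω`, `ka` a map on `Ω`, `kb = ka ∘ τ`, and `kB` a map
whose fibres are the orbits `{x, τ x}`.  If the two variables `ka`, `kb` are negatively
correlated on centred functions, `∑ x, s (ka x) * s (kb x) ≤ 0` whenever `∑ x, s (ka x) = 0`,
then the three conditional expectations satisfy

  `E[. | ka] + E[. | kb] + E[. | kB] ≤ 2 + mean`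

as quadratic forms (`threeProj_of_swap`).
-/

namespace Vale.Agent.Lib.P328.RP

open Finset
open Vale.Agent.Lib.P335.Bip

namespace SwapProj

variable {Ω K K' : Type*} [Fintype Ω] [DecidableEq K] [DecidableEq K']

/-- an involution as an equivalence -/
def inv (τ : Ω → Ω) (hτ : ∀ x, τ (τ x) = x) : Ω ≃ Ω := ⟨τ, τ, hτ, hτ⟩

theorem sum_comp (τ : Ω → Ω) (hτ : ∀ x, τ (τ x) = x) (F : Ω → ℝ) :
    ∑ x, F (τ x) = ∑ x, F x :=
  Equiv.sum_comp (inv τ hτ) F

theorem ip_comp (τ : Ω → Ω) (hτ : ∀ x, τ (τ x) = x) (f g : Ω → ℝ) :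
    ip (fun x => f (τ x)) (fun x => g (τ x)) = ip f g := by
  unfold ip
  exact sum_comp τ hτ (fun x => f x * g x)

/-- the conditional expectation given `ka ∘ τ` is the conjugate of the one given `ka` -/
theorem cexp_conj (τ : Ω → Ω) (hτ : ∀ x, τ (τ x) = x) (ka : Ω → K) (g : Ω → ℝ) (x : Ω) :
    cexp (fun x => ka (τ x)) g x = cexp ka (fun y => g (τ y)) (τ x) := by
  rw [cexp_apply, cexp_apply]
  have hbij : ∀ s : Ω → ℝ, ∑ y ∈ univ.filter (fun y => ka (τ y) = ka (τ x)), s y
      = ∑ y ∈ univ.filter (fun y => ka y = ka (τ x)), s (τ y) := by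
    intro s
    refine Finset.sum_nbij' (fun y => τ y) (fun y => τ y) ?_ ?_ ?_ ?_ ?_
    · intro y hy
      simp only [Finset.mem_filter, Finset.mem_univ, true_and] at hy ⊢
      exact hy
    · intro y hy
      simp only [Finset.mem_filter, Finset.mem_univ, true_and] at hy ⊢
      rw [hτ]
      exact hy
    · intro y _
      exact hτ y
    · intro y _
      exact hτ y
    · intro y _
      rw [hτ]
  have hcard := hbij (fun _ => (1 : ℝ))
  simp only [Finset.sum_const, nsmul_eq_mul, mul_one] at hcard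
  rw [hbij g, hcard]

theorem ip_cexp_conj (τ : Ω → Ω) (hτ : ∀ x, τ (τ x) = x) (ka : Ω → K) (g : Ω → ℝ) :
    ip g (cexp (fun x => ka (τ x)) g)
      = ip (fun y => g (τ y)) (cexp ka (fun y => g (τ y))) := by
  have h1 : cexp (fun x => ka (τ x)) g
      = fun x => cexp ka (fun y => g (τ y)) (τ x) := funext (cexp_conj τ hτ ka g)
  rw [h1]
  have h2 := ip_comp τ hτ (fun y => g (τ y)) (cexp ka (fun y => g (τ y)))
  rw [← h2]
  have h3 : (fun x => (fun y => g (τ y)) (τ x)) = g := by
    funext x
    show g (τ (τ x)) = g x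
    rw [hτ]
  rw [h3]

/-- the conditional expectation given a map whose fibres are the orbits of `τ` is the
symmetrisation -/
theorem cexp_orbit (τ : Ω → Ω) (hτ : ∀ x, τ (τ x) = x) (kB : Ω → K')
    (hB : ∀ x y, kB x = kB y ↔ (y = x ∨ y = τ x)) (g : Ω → ℝ) :
    cexp kB g = fun x => (g x + g (τ x)) / 2 := by
  have hinv : ∀ x, kB (τ x) = kB x := fun x => ((hB x (τ x)).mpr (Or.inr rfl)).symm
  -- the symmetrisation is fixed
  have hfix : cexp kB (fun x => (g x + g (τ x)) / 2) = fun x => (g x + g (τ x)) / 2 := by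
    apply cexp_of_factor
    intro x y hxy
    rcases (hB x y).mp hxy with h | h
    · rw [h]
    · rw [h, hτ]
      ring
  -- conditional expectation of the composition with the involution
  have hcomp : cexp kB (fun x => g (τ x)) = cexp kB g := by
    have h1 := cexp_comp_equiv kB (inv τ hτ)
      (fun x y => by
        show kB (τ x) = kB (τ y) ↔ kB x = kB y
        rw [hinv, hinv]) g
    have h2 : (g ∘ (inv τ hτ)) = fun x => g (τ x) := rfl
    rw [h2] at h1
    rw [h1]
    funext x
    show cexp kB g (τ x) = cexp kB g x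
    exact cexp_congr kB (hinv x) g
  have hsplit : (fun x => (g x + g (τ x)) / 2)
      = (1 / 2 : ℝ) • g + (1 / 2 : ℝ) • (fun x => g (τ x)) := by
    funext x
    simp only [Pi.add_apply, Pi.smul_apply, smul_eq_mul]
    ring
  rw [hsplit, map_add, map_smul, map_smul, hcomp] at hfix
  have h3 : (1 / 2 : ℝ) • cexp kB g + (1 / 2 : ℝ) • cexp kB g = cexp kB g := by
    funext x
    simp only [Pi.add_apply, Pi.smul_apply, smul_eq_mul]
    ring
  rw [h3] at hfix
  rw [hfix, hsplit]

/-- the key inequality for functions invariant under the involution -/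
theorem even_ineq (τ : Ω → Ω) (hτ : ∀ x, τ (τ x) = x) (ka : Ω → K)
    (hneg : ∀ s : K → ℝ, ∑ x, s (ka x) = 0 → ∑ x, s (ka x) * s (ka (τ x)) ≤ 0)
    (e : Ω → ℝ) (he : ∀ x, e (τ x) = e x) :
    2 * ip (cexp ka e) (cexp ka e) ≤ ip e e + (∑ x, e x) ^ 2 / (Fintype.card Ω : ℝ) := by
  classical
  rcases isEmpty_or_nonempty Ω with hemp | hne
  · have hz : ∀ f1 f2 : Ω → ℝ, ip f1 f2 = 0 := by
      intro f1 f2
      unfold ip
      rw [Finset.univ_eq_empty, Finset.sum_empty]
    rw [hz, hz, Finset.univ_eq_empty, Finset.sum_empty]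
    norm_num
  have hN : (0 : ℝ) < (Fintype.card Ω : ℝ) := by
    exact_mod_cast Fintype.card_pos
  set N : ℝ := (Fintype.card Ω : ℝ) with hNdef
  set S : ℝ := ∑ x, e x with hS
  set m : ℝ := S / N with hm
  have hmN : m * N = S := by
    rw [hm]
    field_simp
  -- the centred conditional mean as a function of the value of `ka`
  set s : K → ℝ := fun k => (∑ y ∈ univ.filter (fun y => ka y = k), e y) /
      ((univ.filter (fun y => ka y = k)).card : ℝ) - m with hs
  have hA : ∀ x, s (ka x) = cexp ka e x - m := by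
    intro x
    rw [hs, cexp_apply]
  have hsumP : ∑ x, cexp ka e x = S := sum_cexp ka e
  have hcard : ∑ _x : Ω, (1 : ℝ) = N := by
    rw [Finset.sum_const, Finset.card_univ, nsmul_eq_mul, mul_one]
  have hsumA : ∑ x, s (ka x) = 0 := by
    rw [Finset.sum_congr rfl (fun x _ => hA x), Finset.sum_sub_distrib, hsumP,
      Finset.sum_const, Finset.card_univ, nsmul_eq_mul, ← hNdef, mul_comm, hmN]
    ring
  have hcorr := hneg s hsumA
  -- the quantity `α = ∑ A ^ 2`
  set α : ℝ := ∑ x, s (ka x) * s (ka x) with hα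
  have hα0 : 0 ≤ α := Finset.sum_nonneg (fun x _ => mul_self_nonneg _)
  have hPP : ip (cexp ka e) (cexp ka e) = α + N * m ^ 2 := by
    have h1 : ∀ x, cexp ka e x * cexp ka e x
        = s (ka x) * s (ka x) + 2 * m * cexp ka e x - m ^ 2 * 1 := by
      intro x
      rw [hA x]
      ring
    unfold ip
    rw [Finset.sum_congr rfl (fun x _ => h1 x), Finset.sum_sub_distrib, Finset.sum_add_distrib,
      ← Finset.mul_sum, ← Finset.mul_sum, hsumP, hcard, ← hmN]
    ring
  have heA : ∑ x, e x * s (ka x) = α := by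
    have h1 : ∑ x, e x * s (ka x) = ip e (cexp ka e) - m * S := by
      unfold ip
      rw [hS, Finset.mul_sum, ← Finset.sum_sub_distrib]
      refine Finset.sum_congr rfl (fun x _ => ?_)
      rw [hA x]
      ring
    rw [h1, ip_cexp_self, hPP, ← hmN]
    ring
  have heTA : ∑ x, e x * s (ka (τ x)) = α := by
    have h1 : ∑ x, e x * s (ka (τ x)) = ∑ x, e (τ x) * s (ka (τ x)) :=
      Finset.sum_congr rfl (fun x _ => by rw [he x])
    rw [h1, sum_comp τ hτ (fun x => e x * s (ka x)), heA]
  have hsumTA : ∑ x, s (ka (τ x)) = 0 := by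
    rw [sum_comp τ hτ (fun x => s (ka x)), hsumA]
  have hTATA : ∑ x, s (ka (τ x)) * s (ka (τ x)) = α :=
    sum_comp τ hτ (fun x => s (ka x) * s (ka x))
  -- Cauchy-Schwarz for `e - m` and `A + T A`
  have hCS := ip_cauchy_schwarz (fun x => e x - m) (fun x => s (ka x) + s (ka (τ x)))
  have h1 : ip (fun x => e x - m) (fun x => s (ka x) + s (ka (τ x))) = 2 * α := by
    unfold ip
    have h : ∀ x, (e x - m) * (s (ka x) + s (ka (τ x)))
        = e x * s (ka x) + e x * s (ka (τ x)) - m * s (ka x) - m * s (ka (τ x)) := by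
      intro x
      ring
    rw [Finset.sum_congr rfl (fun x _ => h x), Finset.sum_sub_distrib, Finset.sum_sub_distrib,
      Finset.sum_add_distrib, heA, heTA, ← Finset.mul_sum, ← Finset.mul_sum, hsumA, hsumTA]
    ring
  have h2 : ip (fun x => e x - m) (fun x => e x - m) = ip e e - N * m ^ 2 := by
    unfold ip
    have h : ∀ x, (e x - m) * (e x - m) = e x * e x - 2 * m * e x + m ^ 2 * 1 := by
      intro x
      ring
    rw [Finset.sum_congr rfl (fun x _ => h x), Finset.sum_add_distrib, Finset.sum_sub_distrib,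
      ← Finset.mul_sum, ← Finset.mul_sum, hcard, ← hS, ← hmN]
    ring
  have h3 : ip (fun x => s (ka x) + s (ka (τ x))) (fun x => s (ka x) + s (ka (τ x)))
      = 2 * α + 2 * ∑ x, s (ka x) * s (ka (τ x)) := by
    unfold ip
    have h : ∀ x, (s (ka x) + s (ka (τ x))) * (s (ka x) + s (ka (τ x)))
        = s (ka x) * s (ka x) + 2 * (s (ka x) * s (ka (τ x)))
          + s (ka (τ x)) * s (ka (τ x)) := by
      intro x
      ring
    rw [Finset.sum_congr rfl (fun x _ => h x), Finset.sum_add_distrib, Finset.sum_add_distrib,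
      ← Finset.mul_sum, hTATA]
    ring
  rw [h1, h2, h3] at hCS
  have hE0 : 0 ≤ ip e e - N * m ^ 2 := by
    rw [← h2]
    exact ip_self_nonneg _
  -- `2 α ≤ |e - m|^2`
  have hkey : 2 * α ≤ ip e e - N * m ^ 2 := by
    by_contra hcon
    have hcon' : ip e e - N * m ^ 2 < 2 * α := not_le.mp hcon
    have hαpos : 0 < α := by linarith
    have hle : (ip e e - N * m ^ 2) * (2 * α + 2 * ∑ x, s (ka x) * s (ka (τ x)))
        ≤ (ip e e - N * m ^ 2) * (2 * α) :=
      mul_le_mul_of_nonneg_left (by linarith) hE0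
    have hlt : (ip e e - N * m ^ 2) * (2 * α) < (2 * α) * (2 * α) :=
      mul_lt_mul_of_pos_right hcon' (by linarith)
    nlinarith
  have hfin : S ^ 2 / N = N * m ^ 2 := by
    rw [← hmN]
    field_simp
  rw [hPP, hfin]
  linarith

end SwapProj

open SwapProj in
/-- **Three conditional expectations, two of them exchanged by an involution.** -/
theorem threeProj_of_swap {Ω K K' : Type*} [Fintype Ω] [DecidableEq K]
    [DecidableEq K'] (τ : Ω → Ω) (hτ : ∀ x, τ (τ x) = x) (ka : Ω → K) (kB : Ω → K')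
    (hB : ∀ x y, kB x = kB y ↔ (y = x ∨ y = τ x))
    (hneg : ∀ s : K → ℝ, ∑ x, s (ka x) = 0 → ∑ x, s (ka x) * s (ka (τ x)) ≤ 0)
    (g : Ω → ℝ) :
    ip g (cexp ka g) + ip g (cexp (fun x => ka (τ x)) g) + ip g (cexp kB g)
      ≤ 2 * ip g g + (∑ x, g x) ^ 2 / (Fintype.card Ω : ℝ) := by
  classical
  set e : Ω → ℝ := fun x => (g x + g (τ x)) / 2 with he
  set o : Ω → ℝ := fun x => (g x - g (τ x)) / 2 with ho
  have hg : g = e + o := by
    funext x
    simp only [he, ho, Pi.add_apply]
    ring
  have hTg : (fun y => g (τ y)) = e - o := by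
    funext x
    simp only [he, ho, Pi.sub_apply]
    ring
  have heven : ∀ x, e (τ x) = e x := by
    intro x
    simp only [he]
    rw [hτ]
    ring
  have hodd : ∀ x, o (τ x) = - o x := by
    intro x
    simp only [ho]
    rw [hτ]
    ring
  -- `e` and `o` are orthogonal
  have heo : ip e o = 0 := by
    have h1 := ip_comp τ hτ e o
    have h2 : ip (fun x => e (τ x)) (fun x => o (τ x)) = - ip e o := by
      unfold ip
      rw [← Finset.sum_neg_distrib]
      refine Finset.sum_congr rfl (fun x _ => ?_)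
      show e (τ x) * o (τ x) = -(e x * o x)
      rw [heven x, hodd x]
      ring
    linarith
  have hoe : ip o e = 0 := by rw [ip_comm, heo]
  have hsumo : ∑ x, o x = 0 := by
    have h1 := sum_comp τ hτ o
    have h2 : ∑ x, o (τ x) = - ∑ x, o x := by
      rw [← Finset.sum_neg_distrib]
      exact Finset.sum_congr rfl (fun x _ => hodd x)
    linarith
  have hsum : ∑ x, g x = ∑ x, e x := by
    rw [hg]
    simp only [Pi.add_apply]
    rw [Finset.sum_add_distrib, hsumo, add_zero]
  -- the three forms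
  have hgg : ip g g = ip e e + ip o o := by
    rw [hg, ip_add_left, ip_add_right, ip_add_right, heo, hoe]
    ring
  have hB' : ip g (cexp kB g) = ip e e := by
    rw [cexp_orbit τ hτ kB hB g]
    show ip g e = ip e e
    rw [hg, ip_add_left, hoe]
    ring
  have ha : ip g (cexp ka g)
      = ip (cexp ka e) (cexp ka e) + 2 * ip (cexp ka e) (cexp ka o)
        + ip (cexp ka o) (cexp ka o) := by
    rw [ip_cexp_self, hg, map_add, ip_add_left, ip_add_right, ip_add_right,
      ip_comm (cexp ka o) (cexp ka e)]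
    ring
  have hb : ip g (cexp (fun x => ka (τ x)) g)
      = ip (cexp ka e) (cexp ka e) - 2 * ip (cexp ka e) (cexp ka o)
        + ip (cexp ka o) (cexp ka o) := by
    rw [ip_cexp_conj τ hτ ka g, ip_cexp_self, hTg, map_sub, ip_sub_left, ip_sub_right,
      ip_sub_right, ip_comm (cexp ka o) (cexp ka e)]
    ring
  have hoo : ip (cexp ka o) (cexp ka o) ≤ ip o o := by
    rw [← ip_cexp_self]
    exact ip_cexp_le ka o
  have hev := even_ineq τ hτ ka hneg e heven
  rw [ha, hb, hB', hgg, hsum]
  linarith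

end Vale.Agent.Lib.P328.RP
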